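import Mathlib

/-!
Counting monomials of a given degree: exact log-concavity inequalities.
-/

namespace Vale.Agent.N346.MonoCount

open Finset

/-- The ratio of the number of monomials of degree `l` to that of degree `l - 1`
in `N` variables. -/
noncomputable def rho (N l : ℕ) : ℝ := ((N : ℝ) + l - 1) / l

theorem multichoose_succ_mul (N l : ℕ) :
    N.multichoose (l + 1) * (l + 1) = N.multichoose l * (N + l) := by
  rcases N with _ | N
  · rcases l with _ | l <;> simp
  · rw [Nat.multichoose_eq, Nat.multichoose_eq]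
    have h1 : N + 1 + (l + 1) - 1 = (N + l) + 1 := by omega
    have h2 : N + 1 + l - 1 = N + l := by omega
    rw [h1, h2, ← Nat.add_one_mul_choose_eq]
    ring

theorem multichoose_pos {N : ℕ} (hN : 1 ≤ N) (l : ℕ) : 0 < N.multichoose l := by
  rw [Nat.multichoose_eq]
  exact Nat.choose_pos (by omega)

theorem one_le_rho {N l : ℕ} (hN : 1 ≤ N) (hl : 1 ≤ l) : 1 ≤ rho N l := by
  have hN' : (1 : ℝ) ≤ N := by exact_mod_cast hN
  have hl' : (0 : ℝ) < l := by exact_mod_cast hl
  rw [rho, le_div_iff₀ hl']
  linarith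

theorem rho_pos {N l : ℕ} (hN : 1 ≤ N) (hl : 1 ≤ l) : 0 < rho N l :=
  lt_of_lt_of_le one_pos (one_le_rho hN hl)

theorem rho_anti {N l l' : ℕ} (hN : 1 ≤ N) (hl : 1 ≤ l) (h : l ≤ l') : rho N l' ≤ rho N l := by
  have hN' : (1 : ℝ) ≤ N := by exact_mod_cast hN
  have hl1 : (0 : ℝ) < l := by exact_mod_cast hl
  have h' : (l : ℝ) ≤ l' := by exact_mod_cast h
  have hl2 : (0 : ℝ) < l' := lt_of_lt_of_le hl1 h'
  rw [rho, rho, div_le_div_iff₀ hl2 hl1]
  nlinarith

theorem multichoose_succ_eq (N l : ℕ) :
    (N.multichoose (l + 1) : ℝ) = N.multichoose l * rho N (l + 1) := by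
  have h := congrArg (Nat.cast : ℕ → ℝ) (multichoose_succ_mul N l)
  push_cast at h
  have hl : (0 : ℝ) < (l : ℝ) + 1 := by positivity
  rw [rho]
  push_cast
  field_simp
  rw [h]
  ring

/-- Going up `j` degrees multiplies the number of monomials by at most `rho ^ j`. -/
theorem multichoose_add_le {N l : ℕ} (hN : 1 ≤ N) (hl : 1 ≤ l) (j : ℕ) :
    (N.multichoose (l + j) : ℝ) ≤ N.multichoose l * rho N l ^ j := by
  induction j with
  | zero => simp
  | succ j ih =>
    rw [← add_assoc, multichoose_succ_eq, pow_succ, ← mul_assoc]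
    exact mul_le_mul ih (rho_anti hN hl (by omega)) (rho_pos hN (by omega)).le
      (mul_nonneg (Nat.cast_nonneg _) (pow_nonneg (rho_pos hN hl).le _))

/-- Going down `j` degrees divides the number of monomials by at least `rho ^ j`. -/
theorem multichoose_sub_mul_le {N l : ℕ} (hN : 1 ≤ N) (j : ℕ) (hj : j ≤ l) :
    (N.multichoose (l - j) : ℝ) * rho N l ^ j ≤ N.multichoose l := by
  induction j with
  | zero => simp
  | succ j ih =>
    have h1 : l - j = (l - (j + 1)) + 1 := by omega
    have ih' := ih (by omega)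
    rw [h1, multichoose_succ_eq] at ih'
    refine le_trans ?_ ih'
    rw [pow_succ', ← mul_assoc]
    have hl : 1 ≤ l := by omega
    refine mul_le_mul_of_nonneg_right ?_ (pow_nonneg (rho_pos hN hl).le _)
    exact mul_le_mul_of_nonneg_left (rho_anti hN (by omega) (by omega)) (Nat.cast_nonneg _)

variable {σ : Type*} [Fintype σ] [DecidableEq σ]

/-- The exponent vectors of the monomials of degree `l`. -/
noncomputable def monos (σ : Type*) [Fintype σ] [DecidableEq σ] (l : ℕ) : Finset (σ →₀ ℕ) :=
  (Finset.univ : Finset σ).finsuppAntidiag l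

theorem mem_monos {l : ℕ} {A : σ →₀ ℕ} : A ∈ monos σ l ↔ A.degree = l := by
  simp [monos, Finset.mem_finsuppAntidiag, Finsupp.degree_eq_sum]

theorem card_monos (l : ℕ) : (monos σ l).card = (Fintype.card σ).multichoose l := by
  rw [monos, Finset.card_finsuppAntidiag_nat_eq_multichoose, Finset.card_univ]

/-- The monomials of degree `l` divisible by a given monomial. -/
theorem card_filter_le_eq (m : σ →₀ ℕ) {l : ℕ} (h : m.degree ≤ l) :
    ((monos σ l).filter (fun A => m ≤ A)).card =
      (Fintype.card σ).multichoose (l - m.degree) := by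
  rw [← card_monos]
  symm
  refine Finset.card_bij (fun B _ => m + B) ?_ ?_ ?_
  · intro B hB
    rw [mem_monos] at hB
    rw [Finset.mem_filter, mem_monos, map_add, hB]
    exact ⟨by omega, le_self_add⟩
  · intro B _ B' _ hBB
    exact add_left_cancel hBB
  · intro A hA
    rw [Finset.mem_filter, mem_monos] at hA
    obtain ⟨B, rfl⟩ := exists_add_of_le hA.2
    refine ⟨B, ?_, rfl⟩
    rw [mem_monos]
    have := hA.1
    rw [map_add] at this
    omega

theorem filter_le_eq_empty (m : σ →₀ ℕ) {l : ℕ} (h : l < m.degree) :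
    (monos σ l).filter (fun A => m ≤ A) = ∅ := by
  rw [Finset.filter_eq_empty_iff]
  intro A hA hle
  rw [mem_monos] at hA
  have := Finsupp.degree_mono hle
  omega

/-- The number of monomials of degree `l` divisible by `m` is at most a `rho ^ (- deg m)`
fraction of all of them. -/
theorem card_filter_le_mul_le (hσ : 1 ≤ Fintype.card σ) (m : σ →₀ ℕ) (l : ℕ) :
    (((monos σ l).filter (fun A => m ≤ A)).card : ℝ) * rho (Fintype.card σ) l ^ m.degree ≤
      (monos σ l).card := by
  rcases le_or_gt m.degree l with h | h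
  · rw [card_filter_le_eq m h, card_monos]
    exact multichoose_sub_mul_le hσ _ h
  · rw [filter_le_eq_empty m h]
    simp

theorem card_filter_le_le (hσ : 1 ≤ Fintype.card σ) (m : σ →₀ ℕ) {l : ℕ} (hl : 1 ≤ l) :
    (((monos σ l).filter (fun A => m ≤ A)).card : ℝ) ≤
      (monos σ l).card * (rho (Fintype.card σ) l)⁻¹ ^ m.degree := by
  have hp : 0 < rho (Fintype.card σ) l ^ m.degree := pow_pos (rho_pos hσ hl) _
  rw [inv_pow, ← div_eq_mul_inv, le_div_iff₀ hp]
  exact card_filter_le_mul_le hσ m l

theorem card_monos_add_le (hσ : 1 ≤ Fintype.card σ) {l : ℕ} (hl : 1 ≤ l) (j : ℕ) :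
    ((monos σ (l + j)).card : ℝ) ≤ (monos σ l).card * rho (Fintype.card σ) l ^ j := by
  rw [card_monos, card_monos]
  exact multichoose_add_le hσ hl j

theorem card_monos_pos (hσ : 1 ≤ Fintype.card σ) (l : ℕ) : 0 < (monos σ l).card := by
  rw [card_monos]
  exact multichoose_pos hσ l

end Vale.Agent.N346.MonoCount
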