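import Vale.Agent.N346.Psi
import Vale.Agent.N346.MonoCount

/-!
# Choice of parameters and the final numerical estimate
-/

namespace Vale.Agent.N346

open MonoCount

/-- Basic facts about a large number `n`, with `r = √n` and `x = log n`. -/
lemma large_basic {n : ℕ} (hx : 800 ≤ Real.log n) :
    (1 : ℝ) < n ∧ √(n : ℝ) = Real.exp (Real.log n / 2) ∧ Real.log n ≤ √(n : ℝ) / 10 ∧
      8000 ≤ √(n : ℝ) := by
  have hn1 : (1 : ℝ) < n := by
    by_contra h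
    have h' : (n : ℝ) ≤ 1 := not_lt.1 h
    have := Real.log_nonpos (Nat.cast_nonneg n) h'
    linarith
  have hn0 : (0 : ℝ) < n := by linarith
  have hr : √(n : ℝ) = Real.exp (Real.log n / 2) := by
    rw [Real.sqrt_eq_rpow, Real.rpow_def_of_pos hn0]
    congr 1
    ring
  have h2 : Real.log n / 2 ^ 2 * (Real.log n / 2) ≤ Real.exp (Real.log n / 2) := by
    have := Real.quadratic_le_exp_of_nonneg (x := Real.log n / 2) (by linarith)
    nlinarith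
  have h3 : Real.log n ≤ √(n : ℝ) / 10 := by
    rw [hr]
    nlinarith
  exact ⟨hn1, hr, h3, by linarith⟩

lemma theta_pow_le {θ x : ℝ} {t : ℕ} (hθ0 : 0 < θ) (ht0 : (0 : ℝ) < t)
    (hup : θ ^ 2 ≤ 1 + 2 / 5 * x / t) : θ ^ t ≤ Real.exp (x / 5) := by
  have hlogθ : Real.log (θ ^ 2) = 2 * Real.log θ := by rw [Real.log_pow]; norm_num
  have hθup : 2 * Real.log θ ≤ 2 / 5 * x / t := by
    rw [← hlogθ]
    have := Real.log_le_sub_one_of_pos (pow_pos hθ0 2)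
    linarith
  rw [← Real.exp_log (pow_pos hθ0 t), Real.log_pow, Real.exp_le_exp]
  rw [le_div_iff₀ ht0] at hθup
  nlinarith

lemma be_lower {be x : ℝ} (hb0 : 0 < be) (hbe : Real.exp (x / 2) / 2 ≤ be ^ 2) :
    Real.exp (x / 4 - 1) ≤ be := by
  refine le_of_sq_le_sq (le_trans ?_ hbe) hb0.le
  rw [← Real.exp_nat_mul]
  have h2 : ((2 : ℕ) : ℝ) * (x / 4 - 1) = x / 2 + (-2) := by push_cast; ring
  rw [h2, Real.exp_add]
  have h3 : Real.exp (-2) ≤ 1 / 2 := by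
    rw [Real.exp_neg, one_div]
    refine inv_anti₀ (by norm_num) ?_
    have := Real.add_one_le_exp (2 : ℝ)
    linarith
  have h4 := Real.exp_pos (x / 2)
  nlinarith

lemma four_exp_le {x : ℝ} (hx : 800 ≤ x) : 4 * Real.exp (x / 5) ≤ Real.exp (x / 4 - 1) := by
  have h1 : x / 4 - 1 = (x / 20 - 1) + x / 5 := by ring
  rw [h1, Real.exp_add]
  have h2 := Real.add_one_le_exp (x / 20 - 1)
  have h3 := Real.exp_pos (x / 5)
  nlinarith

lemma x_exp_le {x : ℝ} (hx : 800 ≤ x) : x * Real.exp (x / 5) ≤ Real.exp (x / 2) := by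
  have h1 : x / 2 = 3 / 10 * x + x / 5 := by ring
  rw [h1, Real.exp_add]
  have h2 := Real.quadratic_le_exp_of_nonneg (x := 3 / 10 * x) (by linarith)
  have h3 := Real.exp_pos (x / 5)
  have h4 : x ≤ Real.exp (3 / 10 * x) := by nlinarith
  gcongr

lemma one_add_div_pow_le {y : ℝ} (hy : 0 ≤ y) {n : ℕ} (hn : (0 : ℝ) < n) :
    (1 + y / n) ^ n ≤ Real.exp y := by
  calc (1 + y / n) ^ n ≤ Real.exp (y / n) ^ n := by
        have := Real.add_one_le_exp (y / n)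
        have h0 : 0 ≤ y / n := by positivity
        gcongr
        linarith
    _ = Real.exp y := by
        rw [← Real.exp_nat_mul]
        congr 1
        field_simp

/-- The prefactor is `exp (O (√n))`. -/
lemma prefactor_le (C : ℕ) {n : ℕ} {al : ℝ} (hn : (0 : ℝ) < n)
    (hxr : Real.log n ≤ √(n : ℝ)) (hal : al ^ 2 ≤ 3 * √(n : ℝ)) :
    (n : ℝ) ^ C * (1 + C * al ^ 2 / n) ^ n ≤ Real.exp (4 * C * √(n : ℝ)) := by
  have hC : (0 : ℝ) ≤ C := Nat.cast_nonneg C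
  have h1 : (n : ℝ) ^ C ≤ Real.exp (C * √(n : ℝ)) := by
    rw [← Real.exp_log (pow_pos hn C), Real.log_pow, Real.exp_le_exp]
    gcongr
  have h2 : (1 + C * al ^ 2 / n) ^ n ≤ Real.exp (C * (3 * √(n : ℝ))) :=
    (one_add_div_pow_le (by positivity) hn).trans (Real.exp_le_exp.2 (by gcongr))
  calc (n : ℝ) ^ C * (1 + C * al ^ 2 / n) ^ n
      ≤ Real.exp (C * √(n : ℝ)) * Real.exp (C * (3 * √(n : ℝ))) := by gcongr
    _ = Real.exp (4 * C * √(n : ℝ)) := by rw [← Real.exp_add]; congr 1; ring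

/-- The bound for terms with only small factors. -/
lemma caseA_le {n : ℕ} {q θ r x : ℝ} (hr0 : 0 < r) (hrr : r * r = n) (hq : r / 2 ≤ q)
    (hθ0 : 0 < θ) (hlo : 13 / 50 * x / r ≤ Real.log (θ ^ 2)) :
    ((1 + 4 / q) / √θ) ^ n ≤ Real.exp (8 * r - 13 / 200 * x * r) := by
  have hn0 : (0 : ℝ) < n := by rw [← hrr]; positivity
  have hq0 : 0 < q := by linarith
  have h1 : (1 + 4 / q) ^ n ≤ Real.exp (8 * r) := by
    refine le_trans ?_ (one_add_div_pow_le (y := 8 * r) (by positivity) hn0)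
    have h2 : 4 / q ≤ 8 * r / n := by
      rw [div_le_div_iff₀ hq0 hn0, ← hrr]
      nlinarith
    have h3 : 0 ≤ 4 / q := by positivity
    gcongr
  have h2 : Real.exp (13 / 200 * x * r) ≤ √θ ^ n := by
    have hs : 0 < √θ := Real.sqrt_pos.2 hθ0
    rw [← Real.exp_log (pow_pos hs n), Real.log_pow, Real.exp_le_exp, Real.log_sqrt hθ0.le]
    rw [Real.log_pow, div_le_iff₀ hr0] at hlo
    rw [← hrr]
    push_cast at hlo
    nlinarith
  rw [div_pow, Real.exp_sub]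
  gcongr

/-- The bound for terms with a large factor. -/
lemma caseB_le {n t : ℕ} {be r x : ℝ} (hx : 800 ≤ x) (hn : (n : ℝ) = Real.exp x)
    (hxr : x ≤ r / 10) (ht : r ≤ t + 1) (hbe : Real.exp (x / 4 - 1) ≤ be) :
    ((n : ℝ) + 1) * (2 / be) ^ t ≤ Real.exp (r - x * r / 5) := by
  have hb0 : 0 < be := lt_of_lt_of_le (Real.exp_pos _) hbe
  have h1 : 2 / be ≤ Real.exp (-(x / 5)) := by
    rw [div_le_iff₀ hb0]
    have h2 := four_exp_le hx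
    have h3 : Real.exp (-(x / 5)) * Real.exp (x / 5) = 1 := by rw [← Real.exp_add]; simp
    have h4 := Real.exp_pos (-(x / 5))
    nlinarith
  have h2 : (2 / be) ^ t ≤ Real.exp (-(x / 5) * (r - 1)) := by
    calc (2 / be) ^ t ≤ Real.exp (-(x / 5)) ^ t := by gcongr
      _ = Real.exp (t * -(x / 5)) := by rw [← Real.exp_nat_mul]
      _ ≤ Real.exp (-(x / 5) * (r - 1)) := by
        rw [Real.exp_le_exp]
        nlinarith
  have h3 : (n : ℝ) + 1 ≤ Real.exp (x + 1) := by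
    rw [Real.exp_add, hn]
    have h4 := Real.add_one_le_exp (1 : ℝ)
    have h5 := Real.add_one_le_exp x
    nlinarith
  calc ((n : ℝ) + 1) * (2 / be) ^ t ≤ Real.exp (x + 1) * Real.exp (-(x / 5) * (r - 1)) := by
        gcongr
    _ = Real.exp (x + 1 + -(x / 5) * (r - 1)) := by rw [← Real.exp_add]
    _ ≤ Real.exp (r - x * r / 5) := by
        rw [Real.exp_le_exp]
        nlinarith

/-- The last step: a size lower bound from the three estimates. -/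
lemma final_step {C P An Bt r x s : ℝ} (hC : 0 ≤ C) (hx : 400 * (C + 2) ≤ x) (hr0 : 0 < r)
    (hP : P ≤ Real.exp (4 * C * r)) (hA0 : 0 ≤ An)
    (hA : An ≤ Real.exp (8 * r - 13 / 200 * x * r)) (hB0 : 0 ≤ Bt)
    (hB : Bt ≤ Real.exp (r - x * r / 5)) (hs : 0 ≤ s) (h : 1 ≤ P * (s * max An (s * Bt))) :
    Real.exp (x * (r / 20)) ≤ s := by
  have hxr : 400 * (C + 2) * r ≤ x * r := mul_le_mul_of_nonneg_right hx hr0.le
  have hCr : 0 ≤ C * r := by positivity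
  rcases le_total (s * Bt) An with hc | hc
  · rw [max_eq_left hc] at h
    have h1 : 1 ≤ Real.exp (4 * C * r) * (s * Real.exp (8 * r - 13 / 200 * x * r)) :=
      h.trans (by gcongr)
    have h2 : Real.exp (4 * C * r) * (s * Real.exp (8 * r - 13 / 200 * x * r)) =
        s * Real.exp (4 * C * r + (8 * r - 13 / 200 * x * r)) := by
      rw [Real.exp_add (4 * C * r)]; ring
    have h3 : Real.exp (4 * C * r + (8 * r - 13 / 200 * x * r)) ≤ Real.exp (-(x * (r / 20))) := by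
      rw [Real.exp_le_exp]
      linarith
    have h4 : 1 ≤ s * Real.exp (-(x * (r / 20))) := by
      rw [h2] at h1
      exact h1.trans (by gcongr)
    rw [Real.exp_neg, ← div_eq_mul_inv, one_le_div (Real.exp_pos _)] at h4
    exact h4
  · rw [max_eq_right hc] at h
    have h1 : 1 ≤ Real.exp (4 * C * r) * (s * (s * Real.exp (r - x * r / 5))) :=
      h.trans (by gcongr)
    have h2 : Real.exp (4 * C * r) * (s * (s * Real.exp (r - x * r / 5))) =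
        s ^ 2 * Real.exp (4 * C * r + (r - x * r / 5)) := by
      rw [Real.exp_add (4 * C * r)]; ring
    have h3 : Real.exp (4 * C * r + (r - x * r / 5)) ≤ Real.exp (-(2 * (x * (r / 20)))) := by
      rw [Real.exp_le_exp]
      linarith
    have h4 : 1 ≤ s ^ 2 * Real.exp (-(2 * (x * (r / 20)))) := by
      rw [h2] at h1
      exact h1.trans (by gcongr)
    rw [Real.exp_neg, ← div_eq_mul_inv, one_le_div (Real.exp_pos _)] at h4
    refine le_of_sq_le_sq (le_trans (le_of_eq ?_) h4) hs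
    rw [← Real.exp_nat_mul]
    norm_num

lemma cond_one {θ r x : ℝ} {t : ℕ} (hx : 800 ≤ x) (hr : r = Real.exp (x / 2)) (hr8 : 8000 ≤ r)
    (ht2 : r ≤ t + 1) (hθ1 : 1 ≤ θ) (hup : θ ^ 2 ≤ 1 + 2 / 5 * x / t) :
    (θ - 1) * θ ^ t ≤ 1 := by
  have hr0 : 0 < r := by linarith
  have ht0 : (0 : ℝ) < t := by linarith
  have hθt := theta_pow_le (by linarith) ht0 hup
  have h1 : θ - 1 ≤ x / r := by
    have h2 : 2 / 5 * x / t ≤ x / r := by
      rw [div_le_div_iff₀ ht0 hr0]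
      nlinarith
    nlinarith
  have h2 := x_exp_le hx
  have h3 : 0 ≤ x / r := by positivity
  calc (θ - 1) * θ ^ t ≤ x / r * Real.exp (x / 5) := by
        gcongr
    _ = x * Real.exp (x / 5) / r := by ring
    _ ≤ 1 := by rw [div_le_one hr0, hr]; exact h2

/-- The numerical core: consequences of the size constraints on `al`, `be` and `t`. -/
lemma numeric_core (C : ℕ) {n t : ℕ} {al be : ℝ} (hx : 400 * ((C : ℝ) + 2) ≤ Real.log n)
    (ht2 : √(n : ℝ) ≤ t + 1) (hb0 : 0 < be) (hba : be ≤ al)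
    (hbe : √(n : ℝ) / 2 ≤ be ^ 2) (hal : al ^ 2 ≤ 3 * √(n : ℝ))
    (hup : (al / be) ^ 2 ≤ 1 + 2 / 5 * Real.log n / t)
    (hlo : 13 / 50 * Real.log n / √(n : ℝ) ≤ Real.log ((al / be) ^ 2)) :
    2 ≤ be ∧ (al / be - 1) * (al / be) ^ t ≤ 1 ∧ 4 * (al / be) ^ t ≤ be ∧
      ∀ s : ℝ, 0 ≤ s →
        1 ≤ (n : ℝ) ^ C * (1 + C * al ^ 2 / n) ^ n *
          (s * max (((1 + 4 / (al * be)) / √(al / be)) ^ n) (s * (n + 1) * (2 / be) ^ t)) →
        (n : ℝ) ^ (√(n : ℝ) / 20) ≤ s := by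
  have hC : (0 : ℝ) ≤ C := Nat.cast_nonneg C
  have hx8 : 800 ≤ Real.log n := by linarith
  obtain ⟨hn1, hr, hxr, hr8⟩ := large_basic hx8
  have hn0 : (0 : ℝ) < n := by linarith
  have hpre := prefactor_le C hn0 (by linarith) hal
  have hnx : (n : ℝ) = Real.exp (Real.log n) := (Real.exp_log hn0).symm
  have hrr : √(n : ℝ) * √(n : ℝ) = n := Real.mul_self_sqrt hn0.le
  have hr0 : 0 < √(n : ℝ) := by linarith
  have ha0 : 0 < al := lt_of_lt_of_le hb0 hba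
  have ht0 : (0 : ℝ) < t := by linarith
  have hθ1 : 1 ≤ al / be := (one_le_div hb0).2 hba
  have hθ0 : 0 < al / be := by linarith
  have hθt := theta_pow_le hθ0 ht0 hup
  have hbelo : Real.exp (Real.log n / 4 - 1) ≤ be := be_lower hb0 (by rw [← hr]; exact hbe)
  have hq : √(n : ℝ) / 2 ≤ al * be :=
    hbe.trans (by rw [sq]; exact mul_le_mul_of_nonneg_right hba hb0.le)
  have hA := caseA_le hr0 hrr hq hθ0 hlo
  have hB := caseB_le hx8 hnx hxr ht2 hbelo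
  refine ⟨le_of_sq_le_sq (by linarith) hb0.le, cond_one hx8 hr hr8 ht2 hθ1 hup, ?_, ?_⟩
  · have := four_exp_le hx8
    linarith
  · intro s hs h
    rw [Real.rpow_def_of_pos hn0]
    rw [mul_assoc s] at h
    exact final_step hC hx hr0 hpre (by positivity) hA (by positivity) hB hs h

/-- The ratio of two values of `rho`: upper bound. -/
lemma rho_div_le {N l1 l2 : ℕ} (hN : 1 ≤ N) (h1 : 1 ≤ l1) (h12 : l1 ≤ l2) :
    rho N l1 / rho N l2 ≤ (l2 : ℝ) / l1 := by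
  have hN' : (1 : ℝ) ≤ N := by exact_mod_cast hN
  have h1' : (1 : ℝ) ≤ l1 := by exact_mod_cast h1
  have h12' : (l1 : ℝ) ≤ l2 := by exact_mod_cast h12
  have hp := rho_pos hN (h1.trans h12)
  rw [div_le_iff₀ hp, rho, rho]
  have e : (l2 : ℝ) / l1 * (((N : ℝ) + l2 - 1) / l2) = ((N : ℝ) + l2 - 1) / l1 := by
    have : (l2 : ℝ) ≠ 0 := by linarith
    field_simp
  rw [e]
  gcongr

/-- The ratio of two values of `rho`: lower bound for the logarithm. -/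
lemma log_rho_div_ge {N l1 l2 : ℕ} (hN : 1 ≤ N) (h1 : 1 ≤ l1) {η : ℝ} (hη0 : 0 ≤ η)
    (hη : η ≤ 1 / 6) (h12 : (l2 : ℝ) = l1 * (1 + η)) (h8 : 8 ≤ rho N l1) :
    3 / 4 * η ≤ Real.log (rho N l1 / rho N l2) := by
  have hN' : (1 : ℝ) ≤ N := by exact_mod_cast hN
  have h1' : (1 : ℝ) ≤ l1 := by exact_mod_cast h1
  have h12' : (l1 : ℝ) ≤ l2 := by rw [h12]; nlinarith
  have h2 : 1 ≤ l2 := by exact_mod_cast h1'.trans h12'
  have hp1 := rho_pos hN h1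
  have hp2 := rho_pos hN h2
  refine le_trans ?_ (Real.one_sub_inv_le_log_of_pos (by positivity))
  rw [inv_div]
  have e : rho N l2 = (rho N l1 + η) / (1 + η) := by
    rw [rho, rho, h12]
    have : (l1 : ℝ) ≠ 0 := by linarith
    have : (1 + η) ≠ 0 := by linarith
    field_simp
    ring
  have h3 : rho N l2 / rho N l1 ≤ 1 - 3 / 4 * η := by
    rw [div_le_iff₀ hp1, e, div_le_iff₀ (by linarith)]
    have h4 : 0 ≤ η * (1 / 6 - η) := mul_nonneg hη0 (by linarith)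
    have h5 : 0 ≤ η * (rho N l1 - 8) := mul_nonneg hη0 (by linarith)
    have h6 : 0 ≤ η * (1 / 6 - η) * rho N l1 := mul_nonneg h4 hp1.le
    nlinarith
  linarith

/-- The parameter choice.  `al ^ 2 = rho (n ^ 3) l1` and `be ^ 2 = rho (n ^ 3) l2`. -/
theorem params (C : ℕ) : ∃ n0 : ℕ, ∀ n : ℕ, n0 ≤ n → ∃ l1 l2 t : ℕ, ∃ al be A B : ℝ,
    1 ≤ l1 ∧ 1 ≤ l2 ∧ 1 ≤ t ∧ al = √(rho (n ^ 3) l1) ∧ be = √(rho (n ^ 3) l2) ∧
    al ^ 2 = rho (n ^ 3) l1 ∧ be ^ 2 = rho (n ^ 3) l2 ∧ 2 ≤ be ∧ be ≤ al ∧ al ^ 2 ≤ n ∧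
    0 ≤ A ∧ 0 ≤ B ∧ B ≤ 1 ∧ psi al be 1 ≤ B ∧ (∀ e, e ≤ t → psi al be e ≤ A ^ e) ∧
    ∀ s : ℝ, 0 ≤ s →
      1 ≤ (n : ℝ) ^ C * (1 + C * al ^ 2 / n) ^ n * (s * max (A ^ n) (s * (n + 1) * B ^ t)) →
      (n : ℝ) ^ (√(n : ℝ) / 20) ≤ s := by
  refine ⟨⌈Real.exp (400 * ((C : ℝ) + 2))⌉₊, fun n hn => ?_⟩
  have hx : 400 * ((C : ℝ) + 2) ≤ Real.log n := by
    have h1 : Real.exp (400 * ((C : ℝ) + 2)) ≤ n := Nat.ceil_le.1 hn
    exact (Real.le_log_iff_exp_le (lt_of_lt_of_le (Real.exp_pos _) h1)).2 h1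
  have hC : (0 : ℝ) ≤ C := Nat.cast_nonneg C
  have hx8 : 800 ≤ Real.log n := by linarith
  obtain ⟨hn1, -, hxr, hr8⟩ := large_basic hx8
  have hn0 : (0 : ℝ) < n := by linarith
  have hnn : 1 ≤ n := by exact_mod_cast hn1.le
  have hrr : √(n : ℝ) * √(n : ℝ) = n := Real.mul_self_sqrt hn0.le
  obtain ⟨t, ht1, ht2⟩ : ∃ t : ℕ, (t : ℝ) ≤ √(n : ℝ) ∧ √(n : ℝ) ≤ t + 1 :=
    ⟨⌊√(n : ℝ)⌋₊, Nat.floor_le (Real.sqrt_nonneg _), (Nat.lt_floor_add_one _).le⟩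
  obtain ⟨L, hL1, hL2⟩ : ∃ L : ℕ, (L : ℝ) ≤ 2 / 5 * Real.log n ∧ 2 / 5 * Real.log n ≤ L + 1 :=
    ⟨⌊2 / 5 * Real.log n⌋₊, Nat.floor_le (by linarith), (Nat.lt_floor_add_one _).le⟩
  have ht0 : (0 : ℝ) < t := by linarith
  have htn : 1 ≤ t := by exact_mod_cast (show (1 : ℝ) ≤ t by linarith)
  have hL0 : (0 : ℝ) ≤ L := Nat.cast_nonneg L
  have hN : 1 ≤ n ^ 3 := Nat.one_le_pow _ _ hnn
  have hl1 : 1 ≤ n ^ 2 * t := Nat.mul_pos (Nat.one_le_pow _ _ hnn) htn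
  have hl12 : n ^ 2 * t ≤ n ^ 2 * (t + L) := Nat.mul_le_mul_left _ (by omega)
  have hl2 : 1 ≤ n ^ 2 * (t + L) := hl1.trans hl12
  have hp1 := rho_pos hN hl1
  have hp2 := rho_pos hN hl2
  have hanti := rho_anti hN hl1 hl12
  have hsq1 : √(rho (n ^ 3) (n ^ 2 * t)) ^ 2 = rho (n ^ 3) (n ^ 2 * t) := Real.sq_sqrt hp1.le
  have hsq2 : √(rho (n ^ 3) (n ^ 2 * (t + L))) ^ 2 = rho (n ^ 3) (n ^ 2 * (t + L)) :=
    Real.sq_sqrt hp2.le
  have hb0 : 0 < √(rho (n ^ 3) (n ^ 2 * (t + L))) := Real.sqrt_pos.2 hp2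
  have hba : √(rho (n ^ 3) (n ^ 2 * (t + L))) ≤ √(rho (n ^ 3) (n ^ 2 * t)) :=
    Real.sqrt_le_sqrt hanti
  have hLt : (L : ℝ) / t ≤ 1 / 6 := by
    rw [div_le_iff₀ ht0]
    linarith
  have hbe : √(n : ℝ) / 2 ≤ rho (n ^ 3) (n ^ 2 * (t + L)) := by
    have hl2' : (1 : ℝ) ≤ ((n ^ 2 * (t + L) : ℕ) : ℝ) := by exact_mod_cast hl2
    rw [rho, le_div_iff₀ (by linarith)]
    have h1 : √(n : ℝ) / 2 * ((n ^ 2 * (t + L) : ℕ) : ℝ) ≤ ((n ^ 3 : ℕ) : ℝ) := by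
      push_cast
      have h2 : √(n : ℝ) / 2 * ((t : ℝ) + L) ≤ n := by
        have h3 : (t : ℝ) + L ≤ 2 * √(n : ℝ) := by linarith
        have h4 : √(n : ℝ) / 2 * ((t : ℝ) + L) ≤ √(n : ℝ) / 2 * (2 * √(n : ℝ)) := by gcongr
        linarith
      calc √(n : ℝ) / 2 * ((n : ℝ) ^ 2 * ((t : ℝ) + L))
          = (n : ℝ) ^ 2 * (√(n : ℝ) / 2 * ((t : ℝ) + L)) := by ring
        _ ≤ (n : ℝ) ^ 2 * n := by gcongr
        _ = (n : ℝ) ^ 3 := by ring
    linarith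
  have hal : rho (n ^ 3) (n ^ 2 * t) ≤ 3 * √(n : ℝ) := by
    have hl1' : (1 : ℝ) ≤ ((n ^ 2 * t : ℕ) : ℝ) := by exact_mod_cast hl1
    rw [rho, div_le_iff₀ (by linarith)]
    push_cast
    have h2 : (n : ℝ) + t ≤ 3 * √(n : ℝ) * t := by
      have h3 : √(n : ℝ) ≤ 2 * t := by linarith
      have h4 : √(n : ℝ) * √(n : ℝ) ≤ √(n : ℝ) * (2 * t) := by gcongr
      have h5 : (1 : ℝ) * t ≤ √(n : ℝ) * t := by gcongr; linarith
      linarith
    calc (n : ℝ) ^ 3 + (n : ℝ) ^ 2 * t - 1 ≤ (n : ℝ) ^ 2 * ((n : ℝ) + t) := by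
          have : (n : ℝ) ^ 2 * ((n : ℝ) + t) = (n : ℝ) ^ 3 + (n : ℝ) ^ 2 * t := by ring
          linarith
      _ ≤ (n : ℝ) ^ 2 * (3 * √(n : ℝ) * t) := by gcongr
      _ = 3 * √(n : ℝ) * ((n : ℝ) ^ 2 * t) := by ring
  have hup : rho (n ^ 3) (n ^ 2 * t) / rho (n ^ 3) (n ^ 2 * (t + L)) ≤
      1 + 2 / 5 * Real.log n / t := by
    refine (rho_div_le hN hl1 hl12).trans ?_
    have e : ((n ^ 2 * (t + L) : ℕ) : ℝ) / ((n ^ 2 * t : ℕ) : ℝ) = 1 + (L : ℝ) / t := by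
      push_cast
      field_simp
    rw [e]
    gcongr
  have hlo : 13 / 50 * Real.log n / √(n : ℝ) ≤
      Real.log (rho (n ^ 3) (n ^ 2 * t) / rho (n ^ 3) (n ^ 2 * (t + L))) := by
    refine le_trans ?_ (log_rho_div_ge hN hl1 (η := (L : ℝ) / t) (by positivity) hLt ?_
      (by linarith))
    · have h1 : (L : ℝ) / √(n : ℝ) ≤ (L : ℝ) / t := by gcongr
      have h2 : 13 / 50 * Real.log n / √(n : ℝ) ≤ 3 / 4 * ((L : ℝ) / √(n : ℝ)) := by
        rw [← mul_div_assoc]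
        exact div_le_div_of_nonneg_right (by linarith) (Real.sqrt_nonneg _)
      linarith
    · push_cast
      field_simp
  obtain ⟨hbe2, hc1, hc2, hfin⟩ := numeric_core C hx ht2 hb0 hba (by rw [hsq2]; exact hbe)
    (by rw [hsq1]; exact hal) (by rw [div_pow, hsq1, hsq2]; exact hup)
    (by rw [div_pow, hsq1, hsq2]; exact hlo)
  have hq : 2 ≤ √(rho (n ^ 3) (n ^ 2 * t)) * √(rho (n ^ 3) (n ^ 2 * (t + L))) := by
    have := mul_le_mul (hbe2.trans hba) hbe2 (by norm_num) (Real.sqrt_nonneg _)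
    linarith
  refine ⟨n ^ 2 * t, n ^ 2 * (t + L), t, _, _, _, _, hl1, hl2, htn, rfl, rfl, hsq1, hsq2, hbe2,
    hba, ?_, ?_, ?_, ?_, psi_one_le' hb0 hba, psi_le_pow hb0 hba hq t hc1 hc2, hfin⟩
  · rw [hsq1]
    refine hal.trans ?_
    have h3 : (3 : ℝ) ≤ √(n : ℝ) := by linarith
    have h4 := mul_le_mul_of_nonneg_right h3 (Real.sqrt_nonneg (n : ℝ))
    linarith
  · positivity
  · positivity
  · rw [div_le_one hb0]
    exact hbe2

/-- The parameter choice, in the form used by `core_ineq` and `cost_IMM`. -/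
theorem exists_params : ∃ n0 : ℕ, ∀ n : ℕ, n0 ≤ n → ∃ (l1 l2 t : ℕ) (α β A B : ℝ),
    1 ≤ n ∧ 1 ≤ l1 ∧ 1 ≤ l2 ∧
    α ^ 2 = (((n * (n * n) : ℕ) : ℝ) + l1 - 1) / l1 ∧
    β ^ 2 = (((n * (n * n) : ℕ) : ℝ) + l2 - 1) / l2 ∧
    1 ≤ β ∧ β ≤ α ∧ α ≤ n ∧
    0 ≤ A ∧ (∀ e, e ≤ t → psi α β e ≤ A ^ e) ∧ 0 ≤ B ∧ B ≤ 1 ∧ psi α β 1 ≤ B ∧
    ∀ S : ℝ, 0 ≤ S →
      1 ≤ 3 * (n : ℝ) ^ 2 * (1 + 2 * α ^ 2 / n) ^ n * (S * max (A ^ n) (S * (n + 1) * B ^ t)) →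
      (n : ℝ) ^ (√(n : ℝ) / 20) ≤ S := by
  obtain ⟨n0, h⟩ := params 3
  refine ⟨max n0 3, fun n hn => ?_⟩
  obtain ⟨l1, l2, t, al, be, A, B, hl1, hl2, -, -, -, ha2, hb2, hbe2, hba, haln, hA0, hB0, hB1,
    hψ1, hψ, hfin⟩ := h n (le_trans (le_max_left _ _) hn)
  have hn3 : 3 ≤ n := le_trans (le_max_right _ _) hn
  have hn3' : (3 : ℝ) ≤ n := by exact_mod_cast hn3
  have e : n ^ 3 = n * (n * n) := by ring
  rw [e, rho] at ha2 hb2
  refine ⟨l1, l2, t, al, be, A, B, by omega, hl1, hl2, ha2, hb2, by linarith, hba, by nlinarith,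
    hA0, hψ, hB0, hB1, hψ1, fun S hS hS1 => hfin S hS (hS1.trans ?_)⟩
  have h1 : 3 * (n : ℝ) ^ 2 ≤ (n : ℝ) ^ 3 := by
    rw [pow_succ' (n : ℝ) 2]
    gcongr
  have h2 : 0 ≤ S * max (A ^ n) (S * (n + 1) * B ^ t) :=
    mul_nonneg hS (le_max_of_le_left (by positivity))
  gcongr
  norm_num

end Vale.Agent.N346
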