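import Vale.Agent.N346.Paths

/-!
# P346: the structural lemma for homogeneous depth-five circuits

For any cost predicate `Ch` on polynomials that is additive, multiplicative, monotone and gives
cost `psi e` to every homogeneous polynomial of degree `e`, the output of a syntactically
homogeneous circuit of size `s` and degree `d` has cost
`s * max (A ^ d) (s * (d + 1) * B ^ t)`.
-/

namespace Vale.Agent.N346

open MvPolynomial Finset

universe u v

/-- The closure properties of a cost predicate. -/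
structure CostSystem {K : Type u} [Field K] {σ : Type v}
    (Ch : MvPolynomial σ K → ℝ → Prop) (psi : ℕ → ℝ) : Prop where
  zero : Ch 0 0
  add : ∀ {f g a b}, Ch f a → Ch g b → Ch (f + g) (a + b)
  mul : ∀ {f g a b}, Ch f a → Ch g b → Ch (f * g) (a * b)
  mono : ∀ {f a b}, Ch f a → a ≤ b → Ch f b
  hom : ∀ {f e}, f.IsHomogeneous e → Ch f (psi e)
  psi_zero : psi 0 ≤ 1

namespace CostSystem

variable {K : Type u} [Field K] {σ : Type v} {Ch : MvPolynomial σ K → ℝ → Prop} {psi : ℕ → ℝ}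

theorem const (h : CostSystem Ch psi) (c : K) : Ch (C c) 1 :=
  h.mono (h.hom (isHomogeneous_C σ c)) h.psi_zero

theorem one (h : CostSystem Ch psi) : Ch 1 1 := by
  simpa using h.const 1

theorem smul (h : CostSystem Ch psi) {f : MvPolynomial σ K} {a : ℝ} (c : K) (hf : Ch f a) :
    Ch (c • f) a := by
  have := h.mul (h.const c) hf
  rwa [one_mul, ← smul_eq_C_mul] at this

theorem sum_smul (h : CostSystem Ch psi) {ι : Type*} (s : Finset ι) (c : ι → K)
    (f : ι → MvPolynomial σ K) (a : ℝ) (hf : ∀ i ∈ s, Ch (f i) a) :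
    Ch (∑ i ∈ s, c i • f i) (s.card * a) := by
  classical
  induction s using Finset.induction_on with
  | empty => simpa using h.zero
  | insert i s hi ih =>
      rw [Finset.sum_insert hi, Finset.card_insert_of_notMem hi]
      have h1 := h.smul (c i) (hf i (Finset.mem_insert_self _ _))
      have h2 := ih fun j hj => hf j (Finset.mem_insert_of_mem hj)
      refine h.mono (h.add h1 h2) (le_of_eq ?_)
      push_cast
      ring

theorem prod_pow (h : CostSystem Ch psi) {ι : Type*} (s : Multiset ι)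
    (f : ι → MvPolynomial σ K) (e : ι → ℕ) (A : ℝ) (hf : ∀ i ∈ s, Ch (f i) (A ^ e i)) :
    Ch (s.map f).prod (A ^ (s.map e).sum) := by
  induction s using Multiset.induction_on with
  | empty => simpa using h.one
  | cons i s ih =>
      rw [Multiset.map_cons, Multiset.prod_cons, Multiset.map_cons, Multiset.sum_cons, pow_add]
      exact h.mul (hf i (Multiset.mem_cons_self _ _))
        (ih fun j hj => hf j (Multiset.mem_cons_of_mem hj))

end CostSystem

theorem isHomogeneous_multiset_prod {K : Type u} [Field K] {σ : Type v} {ι : Type*}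
    (s : Multiset ι) (f : ι → MvPolynomial σ K) (e : ι → ℕ)
    (hf : ∀ i ∈ s, (f i).IsHomogeneous (e i)) :
    (s.map f).prod.IsHomogeneous (s.map e).sum := by
  induction s using Multiset.induction_on with
  | empty => simpa using isHomogeneous_one σ K
  | cons i s ih =>
      rw [Multiset.map_cons, Multiset.prod_cons, Multiset.map_cons, Multiset.sum_cons]
      exact (hf i (Multiset.mem_cons_self _ _)).mul
        (ih fun j hj => hf j (Multiset.mem_cons_of_mem hj))

theorem isHomogeneous_sum_smul {K : Type u} [Field K] {σ : Type v} {ι : Type*}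
    (s : Finset ι) (c : ι → K) (f : ι → MvPolynomial σ K) (e : ℕ)
    (hf : ∀ i ∈ s, (f i).IsHomogeneous e) :
    (∑ i ∈ s, c i • f i).IsHomogeneous e := by
  apply IsHomogeneous.sum
  intro i hi
  rw [smul_eq_C_mul]
  simpa using (isHomogeneous_C σ (c i)).mul (hf i hi)

namespace Circuit

variable {K : Type u} [Field K] {σ : Type v} (C : Circuit K σ)

theorem val0_isHomogeneous (g : Fin C.n0) : (C.val0 g).IsHomogeneous (C.deg0 g) := by
  unfold val0 deg0
  cases C.leaf g with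
  | inl x => exact isHomogeneous_X K x
  | inr c => exact isHomogeneous_C σ c

theorem deg0_le_one (g : Fin C.n0) : C.deg0 g ≤ 1 := by
  unfold deg0
  cases C.leaf g <;> simp

section

variable {C} {deg1 : Fin C.n1 → ℕ} {deg3 : Fin C.n3 → ℕ}

theorem val1_isHomogeneous (h1 : ∀ g, ∀ i ∈ C.in1 g, C.deg0 i = deg1 g) (g : Fin C.n1) :
    (C.val1 g).IsHomogeneous (deg1 g) :=
  isHomogeneous_sum_smul _ _ _ _ fun i hi => h1 g i hi ▸ C.val0_isHomogeneous i

theorem val2_isHomogeneous (h1 : ∀ g, ∀ i ∈ C.in1 g, C.deg0 i = deg1 g) (g : Fin C.n2) :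
    (C.val2 g).IsHomogeneous ((C.in2 g).map deg1).sum :=
  isHomogeneous_multiset_prod _ _ _ fun i _ => val1_isHomogeneous h1 i

theorem val3_isHomogeneous (h1 : ∀ g, ∀ i ∈ C.in1 g, C.deg0 i = deg1 g)
    (h3 : ∀ g, ∀ i ∈ C.in3 g, ((C.in2 i).map deg1).sum = deg3 g) (g : Fin C.n3) :
    (C.val3 g).IsHomogeneous (deg3 g) :=
  isHomogeneous_sum_smul _ _ _ _ fun i hi => h3 g i hi ▸ val2_isHomogeneous h1 i

theorem val4_isHomogeneous (h1 : ∀ g, ∀ i ∈ C.in1 g, C.deg0 i = deg1 g)
    (h3 : ∀ g, ∀ i ∈ C.in3 g, ((C.in2 i).map deg1).sum = deg3 g) (g : Fin C.n4) :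
    (C.val4 g).IsHomogeneous ((C.in4 g).map deg3).sum :=
  isHomogeneous_multiset_prod _ _ _ fun i _ => val3_isHomogeneous h1 h3 i

theorem output_isHomogeneous {deg5 : ℕ} (h1 : ∀ g, ∀ i ∈ C.in1 g, C.deg0 i = deg1 g)
    (h3 : ∀ g, ∀ i ∈ C.in3 g, ((C.in2 i).map deg1).sum = deg3 g)
    (h5 : ∀ i ∈ C.in5, ((C.in4 i).map deg3).sum = deg5) :
    C.output.IsHomogeneous deg5 :=
  isHomogeneous_sum_smul _ _ _ _ fun i hi => h5 i hi ▸ val4_isHomogeneous h1 h3 i

variable {Ch : MvPolynomial σ K → ℝ → Prop} {psi : ℕ → ℝ}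

theorem cost_val1 (h : CostSystem Ch psi) {B : ℝ} (hB0 : 0 ≤ B) (hB : psi 1 ≤ B)
    (h1 : ∀ g, ∀ i ∈ C.in1 g, C.deg0 i = deg1 g) (g : Fin C.n1) :
    Ch (C.val1 g) (B ^ deg1 g) := by
  rcases (C.in1 g).eq_empty_or_nonempty with he | ⟨i, hi⟩
  · have : C.val1 g = 0 := by simp [val1, he]
    rw [this]
    exact h.mono h.zero (pow_nonneg hB0 _)
  · have hle : deg1 g ≤ 1 := h1 g i hi ▸ C.deg0_le_one i
    refine h.mono (h.hom (val1_isHomogeneous h1 g)) ?_
    rcases Nat.le_one_iff_eq_zero_or_eq_one.1 hle with h0 | h0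
    · rw [h0, pow_zero]; exact h.psi_zero
    · rw [h0, pow_one]; exact hB

theorem cost_val3 (h : CostSystem Ch psi) {B : ℝ} (hB0 : 0 ≤ B) (hB1 : B ≤ 1) (hB : psi 1 ≤ B)
    (h1 : ∀ g, ∀ i ∈ C.in1 g, C.deg0 i = deg1 g)
    (h3 : ∀ g, ∀ i ∈ C.in3 g, ((C.in2 i).map deg1).sum = deg3 g) (g : Fin C.n3) {t : ℕ}
    (ht : t ≤ deg3 g) : Ch (C.val3 g) (C.size * B ^ t) := by
  have h2 : ∀ i ∈ C.in3 g, Ch (C.val2 i) (B ^ t) := by
    intro i hi
    have := h.prod_pow (C.in2 i) C.val1 deg1 B fun j _ => cost_val1 h hB0 hB h1 j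
    rw [h3 g i hi] at this
    exact h.mono this (pow_le_pow_of_le_one hB0 hB1 ht)
  refine h.mono (h.sum_smul (C.in3 g) (C.c3 g) C.val2 _ h2) ?_
  apply mul_le_mul_of_nonneg_right _ (pow_nonneg hB0 _)
  have hc : (C.in3 g).card ≤ C.n2 := by simpa using Finset.card_le_univ (C.in3 g)
  have : (C.in3 g).card ≤ C.size := by unfold size; omega
  exact_mod_cast this

end

/-- **Structural lemma.** -/
theorem cost_output {Ch : MvPolynomial σ K → ℝ → Prop} {psi : ℕ → ℝ} (h : CostSystem Ch psi)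
    (hC : C.IsSynHom) {d t : ℕ} (hd : C.output.IsHomogeneous d) (hne : C.output ≠ 0)
    {A B : ℝ} (hA0 : 0 ≤ A) (hA : ∀ e ≤ t, psi e ≤ A ^ e)
    (hB0 : 0 ≤ B) (hB1 : B ≤ 1) (hB : psi 1 ≤ B) (hE : ∀ e ≤ d, psi e ≤ d + 1) :
    Ch C.output (C.size * max (A ^ d) (C.size * (d + 1) * B ^ t)) := by
  obtain ⟨deg1, deg3, deg5, h1, h3, h5⟩ := hC
  have hd5 : deg5 = d := (output_isHomogeneous h1 h3 h5).inj_right hd hne
  subst hd5
  have h4 : ∀ i ∈ C.in5,
      Ch (C.val4 i) (max (A ^ deg5) (C.size * (deg5 + 1) * B ^ t)) := by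
    intro i hi
    by_cases hall : ∀ g ∈ C.in4 i, deg3 g ≤ t
    · have := h.prod_pow (C.in4 i) C.val3 deg3 A fun g hg =>
        h.mono (h.hom (val3_isHomogeneous h1 h3 g)) (hA _ (hall g hg))
      rw [h5 i hi] at this
      exact h.mono this (le_max_left _ _)
    · push Not at hall
      obtain ⟨g, hg, hgt⟩ := hall
      obtain ⟨r, hr⟩ := Multiset.exists_cons_of_mem hg
      have hsum := h5 i hi
      rw [hr, Multiset.map_cons, Multiset.sum_cons] at hsum
      have hv : C.val4 i = C.val3 g * (r.map C.val3).prod := by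
        rw [val4, hr, Multiset.map_cons, Multiset.prod_cons]
      have hrest : Ch (r.map C.val3).prod ((deg5 : ℝ) + 1) :=
        h.mono (h.hom (isHomogeneous_multiset_prod r C.val3 deg3
          fun j _ => val3_isHomogeneous h1 h3 j)) (hE _ (by omega))
      rw [hv]
      refine h.mono (h.mul (cost_val3 h hB0 hB1 hB h1 h3 g hgt.le) hrest) ?_
      refine le_trans (le_of_eq ?_) (le_max_right _ _)
      ring
  refine h.mono (h.sum_smul C.in5 C.c5 C.val4 _ h4) ?_
  apply mul_le_mul_of_nonneg_right _ (le_trans (pow_nonneg hA0 _) (le_max_left _ _))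
  have hc : C.in5.card ≤ C.n4 := by simpa using Finset.card_le_univ C.in5
  have : C.in5.card ≤ C.size := by unfold size; omega
  exact_mod_cast this

end Circuit

/-- The structural lemma for circuits computing `IMM_{w,d}`. -/
theorem cost_IMM {K : Type u} [Field K] {w d : ℕ} [NeZero w]
    {Ch : MvPolynomial (Var w d) K → ℝ → Prop} {psi : ℕ → ℝ} (h : CostSystem Ch psi)
    (C : Circuit K (Var w d)) (hC : C.IsSynHom) (hout : C.output = IMM K w d) {t : ℕ}
    {A B : ℝ} (hA0 : 0 ≤ A) (hA : ∀ e ≤ t, psi e ≤ A ^ e)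
    (hB0 : 0 ≤ B) (hB1 : B ≤ 1) (hB : psi 1 ≤ B) (hE : ∀ e ≤ d, psi e ≤ d + 1) :
    Ch (IMM K w d) (C.size * max (A ^ d) (C.size * (d + 1) * B ^ t)) := by
  have := C.cost_output h hC (d := d) (t := t) (hout ▸ IMM_isHomogeneous K w d)
    (hout ▸ IMM_ne_zero K w d) hA0 hA hB0 hB1 hB hE
  rwa [hout] at this

end Vale.Agent.N346
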