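import Vale.Agent.N346.Core
import Vale.Agent.N346.Struct
import Vale.Agent.N346.Params

/-!
# P346: the lower bound inequality for a circuit computing `IMM_{w,d}`
-/

namespace Vale.Agent.N346

open MvPolynomial

universe u

theorem costSystem_cheap {σ : Type*} {K : Type u} [Field K] (s : σ → Bool) {α β : ℝ}
    (hα : 0 < α) (hβ : 0 < β) : CostSystem (Cheap (K := K) s α β) (psi α β) where
  zero := Cheap.zero
  add := Cheap.add
  mul := Cheap.mul hα hβ
  mono := Cheap.mono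
  hom := Cheap.of_isHomogeneous hα hβ
  psi_zero := (psi_zero α β).le

/-- The inequality satisfied by the size of every syntactically homogeneous circuit computing
`IMM_{w,d}` over a field of characteristic zero. -/
theorem one_le_of_circuit (K : Type u) [Field K] [CharZero K] (w d : ℕ) [NeZero w] (hd : 1 ≤ d)
    (C : Circuit K (Var w d)) (hC : C.IsSynHom) (hout : C.output = IMM K w d)
    (l1 l2 t : ℕ) (hl1 : 1 ≤ l1) (hl2 : 1 ≤ l2) {α β A B : ℝ}
    (hα : α ^ 2 = (((d * (w * w) : ℕ) : ℝ) + l1 - 1) / l1)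
    (hβ : β ^ 2 = (((d * (w * w) : ℕ) : ℝ) + l2 - 1) / l2)
    (hβ1 : 1 ≤ β) (hαβ : β ≤ α) (hαw : α ≤ w)
    (hA0 : 0 ≤ A) (hA : ∀ e ≤ t, psi α β e ≤ A ^ e)
    (hB0 : 0 ≤ B) (hB1 : B ≤ 1) (hB : psi α β 1 ≤ B) :
    1 ≤ 3 * (w : ℝ) ^ 2 * (1 + 2 * α ^ 2 / w) ^ d *
      (C.size * max (A ^ d) (C.size * (d + 1) * B ^ t)) := by
  have hβ0 : 0 < β := by linarith
  have hα0 : 0 < α := by linarith
  refine core_ineq K w d hd l1 l2 hl1 hl2 hα hβ hβ1 hαβ hαw fun s => ?_
  rw [← IMM_eq_pathPoly]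
  refine cost_IMM (costSystem_cheap s hα0 hβ0) C hC hout hA0 hA hB0 hB1 hB fun e he => ?_
  have : (e : ℝ) ≤ d := by exact_mod_cast he
  linarith [psi_le_succ hα0 hβ0 e]

/-- **Lower bound.**  There is a threshold, independent of the field, beyond which every
syntactically homogeneous circuit computing `IMM_{n,n}` over a field of characteristic zero has
at least `n ^ (√n / 20)` vertices. -/
theorem lower_bound : ∃ n0 : ℕ, ∀ (K : Type u) [Field K] [CharZero K] (n : ℕ) [NeZero n],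
    n0 ≤ n → ∀ C : Circuit K (Var n n), C.IsSynHom → C.output = IMM K n n →
      (n : ℝ) ^ (Real.sqrt n / 20) ≤ C.size := by
  obtain ⟨n0, h⟩ := exists_params
  refine ⟨n0, fun K _ _ n _ hn C hC hout => ?_⟩
  obtain ⟨l1, l2, t, α, β, A, B, hn1, hl1, hl2, hα, hβ, hβ1, hαβ, hαn, hA0, hA, hB0, hB1, hB,
    hfin⟩ := h n hn
  exact hfin _ (Nat.cast_nonneg _)
    (one_le_of_circuit K n n hn1 C hC hout l1 l2 t hl1 hl2 hα hβ hβ1 hαβ hαn hA0 hA hB0 hB1 hB)

end Vale.Agent.N346
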