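import Vale.Agent.N346.AFProb
import Vale.Agent.N346.Lower

/-!
# P346, all fields: grouping of low-degree factors, parameters, and the lower bound
-/

namespace Vale.Agent.N346.AF

open MvPolynomial Finset

universe u v

section Group

variable {F : Type u} [Field F] {σ : Type v} {Ch : MvPolynomial σ F → ℝ → Prop} {psi : ℕ → ℝ}

theorem prod_group (h : CostSystem Ch psi) {t : ℕ} (ht : 1 ≤ t) {A D : ℝ}
    (h1 : ∀ e < t, psi e ≤ D * A ^ e) (h2 : ∀ e, t ≤ e → e ≤ 2 * t → psi e ≤ A ^ e)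
    {ι : Type*} (s : Multiset ι) (f : ι → MvPolynomial σ F) (e : ι → ℕ)
    (hf : ∀ i ∈ s, (f i).IsHomogeneous (e i) ∧ e i ≤ t) :
    ∀ (r : MvPolynomial σ F) (er : ℕ), r.IsHomogeneous er → er < t →
      Ch (r * (s.map f).prod) (D * A ^ (er + (s.map e).sum)) := by
  induction s using Multiset.induction_on with
  | empty =>
    intro r er hr her
    simpa using h.mono (h.hom hr) (h1 er her)
  | cons i s ih =>
    intro r er hr her
    have ih' := ih fun j hj => hf j (Multiset.mem_cons_of_mem hj)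
    obtain ⟨hi, hit⟩ := hf i (Multiset.mem_cons_self _ _)
    rw [Multiset.map_cons, Multiset.prod_cons, Multiset.map_cons, Multiset.sum_cons, ← mul_assoc,
      ← add_assoc]
    by_cases hlt : er + e i < t
    · exact ih' _ _ (hr.mul hi) hlt
    · have h3 := h.mono (h.hom (hr.mul hi)) (h2 _ (by omega) (by omega))
      have h4 := ih' 1 0 (isHomogeneous_one σ F) (by omega)
      rw [one_mul, zero_add] at h4
      refine h.mono (h.mul h3 h4) (le_of_eq ?_)
      rw [pow_add A (er + e i)]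
      ring

theorem cost_output_group (C : Circuit F σ) (h : CostSystem Ch psi)
    (hC : C.IsSynHom) {d t : ℕ} (ht : 1 ≤ t) (hd : C.output.IsHomogeneous d) (hne : C.output ≠ 0)
    {A D B : ℝ} (hA0 : 0 ≤ A) (hD0 : 0 ≤ D) (hA1 : ∀ e < t, psi e ≤ D * A ^ e)
    (hA2 : ∀ e, t ≤ e → e ≤ 2 * t → psi e ≤ A ^ e)
    (hB0 : 0 ≤ B) (hB1 : B ≤ 1) (hB : psi 1 ≤ B) (hE : ∀ e ≤ d, psi e ≤ d + 1) :
    Ch C.output (C.size * max (D * A ^ d) (C.size * (d + 1) * B ^ t)) := by
  obtain ⟨deg1, deg3, deg5, h1, h3, h5⟩ := hC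
  have hd5 : deg5 = d := (Circuit.output_isHomogeneous h1 h3 h5).inj_right hd hne
  subst hd5
  have h4 : ∀ i ∈ C.in5,
      Ch (C.val4 i) (max (D * A ^ deg5) (C.size * (deg5 + 1) * B ^ t)) := by
    intro i hi
    by_cases hall : ∀ g ∈ C.in4 i, deg3 g ≤ t
    · have := prod_group h ht hA1 hA2 (C.in4 i) C.val3 deg3
        (fun g hg => ⟨Circuit.val3_isHomogeneous h1 h3 g, hall g hg⟩) 1 0
        (isHomogeneous_one σ F) (by omega)
      rw [h5 i hi, one_mul, zero_add] at this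
      exact h.mono this (le_max_left _ _)
    · push Not at hall
      obtain ⟨g, hg, hgt⟩ := hall
      obtain ⟨r, hr⟩ := Multiset.exists_cons_of_mem hg
      have hsum := h5 i hi
      rw [hr, Multiset.map_cons, Multiset.sum_cons] at hsum
      have hv : C.val4 i = C.val3 g * (r.map C.val3).prod := by
        rw [Circuit.val4, hr, Multiset.map_cons, Multiset.prod_cons]
      have hrest : Ch (r.map C.val3).prod ((deg5 : ℝ) + 1) :=
        h.mono (h.hom (isHomogeneous_multiset_prod r C.val3 deg3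
          fun j _ => Circuit.val3_isHomogeneous h1 h3 j)) (hE _ (by omega))
      rw [hv]
      refine h.mono (h.mul (Circuit.cost_val3 h hB0 hB1 hB h1 h3 g hgt.le) hrest) ?_
      refine le_trans (le_of_eq ?_) (le_max_right _ _)
      ring
  refine h.mono (h.sum_smul C.in5 C.c5 C.val4 _ h4) ?_
  apply mul_le_mul_of_nonneg_right _ (le_trans (by positivity) (le_max_left _ _))
  have hc : C.in5.card ≤ C.n4 := by simpa using Finset.card_le_univ C.in5
  have : C.in5.card ≤ C.size := by unfold Circuit.size; omega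
  exact_mod_cast this

end Group

theorem psi_le_three {α β r : ℝ} (hβ : 0 < β) (hr : 1 ≤ r) (hα : α = r ^ 2 * β) {T : ℕ}
    (hT : 4 * (r ^ 2) ^ T ≤ β) (e : ℕ) (he : e ≤ T) : psi α β e ≤ 3 * (r⁻¹) ^ e := by
  have hr0 : 0 < r := by linarith
  have hθ : 1 ≤ r ^ 2 := one_le_pow₀ hr
  have hT1 : 1 ≤ (r ^ 2) ^ T := one_le_pow₀ hθ
  have hβ4 : 4 ≤ β := by linarith
  have hba : β ≤ α := by rw [hα]; nlinarith
  have hq : 2 ≤ α * β := by nlinarith
  have hθ' : α / β = r ^ 2 := by rw [hα]; field_simp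
  have hTe : (r ^ 2) ^ e ≤ (r ^ 2) ^ T := pow_le_pow_right₀ hθ he
  obtain ⟨m, rfl | rfl⟩ := Nat.even_or_odd' e
  · rcases m with _ | m
    · simp [psi_zero]
    · refine (psi_even hβ hba hq m).trans ?_
      rw [hθ', inv_pow, pow_mul r, mul_comm (3 : ℝ)]
      refine mul_le_mul_of_nonneg_left ?_ (by positivity)
      have h1 : 2 / (α * β) ≤ 1 := (div_le_one (by positivity)).2 hq
      have h2 : 2 * (r ^ 2) ^ (2 * (m + 1)) / (α * β) ≤ 1 :=
        (div_le_one (by positivity)).2 (by nlinarith)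
      linarith
  · refine (psi_odd hβ hba hq m).trans ?_
    rw [hθ', inv_pow, ← div_eq_mul_inv, div_le_div_iff₀ hβ (by positivity)]
    have h1 : (r ^ 2) ^ m * r ^ (2 * m + 1) ≤ (r ^ 2) ^ (2 * m + 1) := by
      rw [← pow_mul, ← pow_mul, ← pow_add]
      exact pow_le_pow_right₀ hr (by omega)
    nlinarith

theorem one_sub_pow_le {z : ℝ} (h1 : z ≤ 1) (N : ℕ) : (1 - z) ^ N ≤ Real.exp (-(N * z)) := by
  have h2 : 1 - z ≤ Real.exp (-z) := by linarith [Real.add_one_le_exp (-z)]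
  calc (1 - z) ^ N ≤ Real.exp (-z) ^ N := pow_le_pow_left₀ (by linarith) h2 N
    _ = Real.exp (-(N * z)) := by rw [← Real.exp_nat_mul]; ring_nf

theorem exp_le_ratio {y : ℝ} (hy : 2 ≤ y) : Real.exp (-(52 / y)) ≤ (1 - 1 / y) ^ 2 / (1 + 48 / y) := by
  have hy0 : 0 < y := by linarith
  have h0 : 0 < 1 / y := by positivity
  have h1 : 1 / y ≤ 1 / 2 := one_div_le_one_div_of_le (by norm_num) hy
  have h2 : Real.exp (-(2 * (1 / y))) ≤ 1 - 1 / y := by
    rw [Real.exp_neg, inv_le_comm₀ (Real.exp_pos _) (by linarith), inv_eq_one_div,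
      div_le_iff₀ (by linarith)]
    have := Real.add_one_le_exp (2 * (1 / y))
    nlinarith
  have h3 : 1 + 48 / y ≤ Real.exp (48 / y) := by linarith [Real.add_one_le_exp (48 / y)]
  rw [le_div_iff₀ (by positivity)]
  calc Real.exp (-(52 / y)) * (1 + 48 / y) ≤ Real.exp (-(52 / y)) * Real.exp (48 / y) :=
        mul_le_mul_of_nonneg_left h3 (Real.exp_pos _).le
    _ = Real.exp (-(2 * (1 / y))) ^ 2 := by
        rw [← Real.exp_add, ← Real.exp_nat_mul]
        congr 1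
        push_cast
        ring
    _ ≤ (1 - 1 / y) ^ 2 := pow_le_pow_left₀ (Real.exp_pos _).le h2 2

/-- The final numerical step. -/
theorem final_numeric {u x y S M : ℝ} {n : ℕ} (hu : 1000 ≤ u) (hx : x = Real.exp u)
    (hy : y = x ^ 8) (hn : (n : ℝ) = y ^ 2) (hS : 0 ≤ S)
    (hM : M ≤ S * (n + 1) * Real.exp (4 * y - (y / 2 - 1) * (u - 2))) {α : ℝ} (hα : α ≤ 2 * x)
    (hM0 : 0 ≤ M)
    (h : ((1 - 1 / y) ^ 2 / (1 + 48 / y)) ^ n * (1 / (1 + x ^ 2)) * (48 / x ^ 10) ≤ α * (S * M)) :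
    Real.exp (u * y / 5) ≤ S := by
  have hx1 : 1001 ≤ x := by rw [hx]; linarith [Real.add_one_le_exp u]
  have hx0 : 0 < x := by linarith
  have hy1 : x ≤ y := by
    rw [hy]
    exact le_self_pow₀ (by linarith) (by norm_num)
  have hy0 : 0 < y := by linarith
  have h1 : Real.exp (-(52 * y)) ≤ ((1 - 1 / y) ^ 2 / (1 + 48 / y)) ^ n := by
    refine le_trans (le_of_eq ?_)
      (pow_le_pow_left₀ (Real.exp_pos _).le (exp_le_ratio (by linarith)) n)
    rw [← Real.exp_nat_mul, hn]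
    congr 1
    field_simp
  have h2 : 1 / (2 * x ^ 2) ≤ 1 / (1 + x ^ 2) :=
    one_div_le_one_div_of_le (by positivity) (by nlinarith)
  have hn1 : (n : ℝ) + 1 ≤ 2 * x ^ 16 := by
    have : y ^ 2 = x ^ 16 := by rw [hy]; ring
    have h3 : 1 ≤ x ^ 16 := one_le_pow₀ (by linarith)
    linarith
  set E := Real.exp (4 * y - (y / 2 - 1) * (u - 2)) with hE
  have hE0 : 0 < E := Real.exp_pos _
  have h3 : Real.exp (-(52 * y)) * (1 / (2 * x ^ 2)) * (48 / x ^ 10) ≤
      2 * x * (S * (S * (2 * x ^ 16) * E)) := by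
    refine le_trans ?_ (h.trans ?_)
    · have h4 : 0 ≤ ((1 - 1 / y) ^ 2 / (1 + 48 / y)) ^ n := by positivity
      gcongr
    · refine mul_le_mul hα (mul_le_mul_of_nonneg_left (hM.trans ?_) hS) (by positivity)
        (by positivity)
      gcongr
  have h4 : Real.exp (-(52 * y)) ≤ S ^ 2 * (x ^ 29 * E) := by
    have h5 : Real.exp (-(52 * y)) * (1 / (2 * x ^ 2)) * (48 / x ^ 10) =
        Real.exp (-(52 * y)) * 24 / x ^ 12 := by field_simp; ring
    rw [h5, div_le_iff₀ (by positivity)] at h3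
    have h6 : 2 * x * (S * (S * (2 * x ^ 16) * E)) * x ^ 12 = 4 * (S ^ 2 * (x ^ 29 * E)) := by ring
    have := Real.exp_pos (-(52 * y))
    linarith
  have h5 : x ^ 29 * E = Real.exp (29 * u + (4 * y - (y / 2 - 1) * (u - 2))) := by
    rw [Real.exp_add, hx, ← Real.exp_nat_mul]
    norm_num [hE]
  rw [h5, ← div_le_iff₀ (Real.exp_pos _), ← Real.exp_sub] at h4
  have h6 : Real.exp (u * y / 5) ^ 2 ≤ S ^ 2 := by
    refine le_trans ?_ h4
    rw [← Real.exp_nat_mul, Real.exp_le_exp]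
    push_cast
    nlinarith
  exact le_of_sq_le_sq h6 hS

theorem window_bounds {u x α : ℝ} {n : ℕ} (hu : 1000 ≤ u) (hx : x = Real.exp u)
    (hn : (n : ℝ) = x ^ 16) (hα1 : x ≤ α) (hα2 : α ≤ 2 * x) :
    ∃ K L : ℕ, K * L ≤ n ∧ (α ^ 2 / (1 + α ^ 2)) ^ L ≤ 1 / x ^ 8 ∧
      (1 - 48 / x ^ 10 / α ^ 2) ^ K ≤ 1 / x ^ 8 := by
  have hx1 : 1001 ≤ x := by rw [hx]; linarith [Real.add_one_le_exp u]
  have hx0 : 0 < x := by linarith
  have hα0 : 0 < α := by linarith
  have hα3 : α ^ 2 ≤ 4 * x ^ 2 := by nlinarith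
  have hexp : Real.exp (-x) ≤ 1 / x ^ 8 := by
    have h1 : 1 / x ^ 8 = Real.exp (-(8 * u)) := by
      rw [Real.exp_neg, hx, ← Real.exp_nat_mul]
      simp
    rw [h1, Real.exp_le_exp]
    have := Real.quadratic_le_exp_of_nonneg (by linarith : 0 ≤ u)
    rw [← hx] at this
    nlinarith
  have hx3 : 1 ≤ x ^ 3 := one_le_pow₀ (by linarith)
  have hL1 : 5 * x ^ 3 ≤ (⌈5 * x ^ 3⌉₊ : ℝ) := Nat.le_ceil _
  have hL2 : (⌈5 * x ^ 3⌉₊ : ℝ) ≤ 6 * x ^ 3 := by
    have := Nat.ceil_lt_add_one (by positivity : 0 ≤ 5 * x ^ 3)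
    linarith
  set L := ⌈5 * x ^ 3⌉₊ with hL
  have hLpos : 0 < L := by
    have : (0 : ℝ) < L := by linarith
    exact_mod_cast this
  refine ⟨n / L, L, Nat.div_mul_le_self _ _, ?_, ?_⟩
  · have h1 : α ^ 2 / (1 + α ^ 2) = 1 - 1 / (1 + α ^ 2) := by field_simp; ring
    rw [h1]
    refine (one_sub_pow_le ((div_le_one (by positivity)).2 (by nlinarith)) L).trans
      (le_trans ?_ hexp)
    rw [Real.exp_le_exp, neg_le_neg_iff, mul_one_div, le_div_iff₀ (by positivity)]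
    nlinarith
  · have h1 : (n : ℝ) < ((n / L : ℕ) + 1) * L := by
      have := Nat.lt_div_mul_add (a := n) hLpos
      have h2 : n < (n / L + 1) * L := by rw [add_mul, one_mul]; exact this
      exact_mod_cast h2
    have h2 : x ^ 13 ≤ 6 * (((n / L : ℕ) : ℝ) + 1) := by
      have h3 : x ^ 13 * x ^ 3 ≤ 6 * (((n / L : ℕ) : ℝ) + 1) * x ^ 3 := by
        have h4 : (((n / L : ℕ) : ℝ) + 1) * L ≤ (((n / L : ℕ) : ℝ) + 1) * (6 * x ^ 3) :=
          mul_le_mul_of_nonneg_left hL2 (by positivity)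
        have h5 : x ^ 13 * x ^ 3 = n := by rw [hn]; ring
        linarith
      exact le_of_mul_le_mul_right h3 (by positivity)
    have h3 : 12 ≤ x ^ 13 := le_trans (by linarith) (le_self_pow₀ (by linarith) (by norm_num))
    have h4 : 12 / x ^ 12 ≤ 48 / x ^ 10 / α ^ 2 := by
      rw [div_div, div_le_div_iff₀ (by positivity) (by positivity)]
      have : x ^ 10 * α ^ 2 ≤ x ^ 10 * (4 * x ^ 2) := mul_le_mul_of_nonneg_left hα3 (by positivity)
      nlinarith
    have h5 : 48 / x ^ 10 / α ^ 2 ≤ 1 := by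
      rw [div_div, div_le_one (by positivity)]
      have h6 : x ≤ x ^ 10 := le_self_pow₀ (by linarith) (by norm_num)
      have h7 : 1 ≤ α ^ 2 := one_le_pow₀ (by linarith)
      nlinarith
    refine (one_sub_pow_le h5 _).trans (le_trans ?_ hexp)
    rw [Real.exp_le_exp, neg_le_neg_iff]
    refine le_trans ?_ (mul_le_mul_of_nonneg_left h4 (Nat.cast_nonneg _))
    rw [← mul_div_assoc, le_div_iff₀ (by positivity)]
    have : x * x ^ 12 = x ^ 13 := by ring
    linarith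

theorem max_bound {u x y S r : ℝ} {n t : ℕ} (hu : 1000 ≤ u) (hx : x = Real.exp u) (hy : x ≤ y)
    (hn : (n : ℝ) = y ^ 2) (hS : 1 ≤ S) (ht1 : y / 2 ≤ t) (ht2 : (t : ℝ) ≤ y / 2 + 1)
    (hr : r = Real.exp ((u - Real.log 4) / (4 * t))) :
    max (3 * ((1 + 2 / (t : ℝ)) * r⁻¹) ^ n) (S * (n + 1) * (2 / x) ^ t) ≤
      S * (n + 1) * Real.exp (4 * y - (y / 2 - 1) * (u - 2)) := by
  have hx1 : 1001 ≤ x := by rw [hx]; linarith [Real.add_one_le_exp u]
  have ht0 : (0 : ℝ) < t := by linarith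
  have hl2 : Real.log 2 ≤ 1 := by linarith [Real.log_le_sub_one_of_pos (by norm_num : (0 : ℝ) < 2)]
  have hl4 : Real.log 4 ≤ 2 := by
    rw [show (4 : ℝ) = 2 ^ 2 by norm_num, Real.log_pow]
    push_cast
    linarith
  refine max_le ?_ ?_
  · have h1 : (1 + 2 / (t : ℝ)) * r⁻¹ ≤ Real.exp (2 / t - (u - Real.log 4) / (4 * t)) := by
      rw [hr, ← Real.exp_neg, sub_eq_add_neg (2 / (t : ℝ)), Real.exp_add]
      exact mul_le_mul_of_nonneg_right (by linarith [Real.add_one_le_exp (2 / (t : ℝ))])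
        (Real.exp_pos _).le
    have h2 : ((1 + 2 / (t : ℝ)) * r⁻¹) ^ n ≤ Real.exp (4 * y - (y / 2 - 1) * (u - 2)) := by
      refine (pow_le_pow_left₀ (by rw [hr]; positivity) h1 n).trans ?_
      rw [← Real.exp_nat_mul, Real.exp_le_exp, hn, mul_sub]
      have h3 : y ^ 2 * (2 / (t : ℝ)) ≤ 4 * y := by
        rw [← mul_div_assoc, div_le_iff₀ ht0]
        nlinarith
      have h4 : (y / 2 - 1) * (u - 2) ≤ y ^ 2 * ((u - Real.log 4) / (4 * t)) := by
        rw [← mul_div_assoc, le_div_iff₀ (by positivity)]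
        have h5 : (y / 2 - 1) * (4 * t) ≤ y ^ 2 := by nlinarith
        calc (y / 2 - 1) * (u - 2) * (4 * t) = (y / 2 - 1) * (4 * t) * (u - 2) := by ring
          _ ≤ y ^ 2 * (u - Real.log 4) :=
            mul_le_mul h5 (by linarith) (by linarith) (by positivity)
      linarith
    refine mul_le_mul ?_ h2 (by rw [hr]; positivity) (by positivity)
    nlinarith
  · refine mul_le_mul_of_nonneg_left ?_ (by positivity)
    have h1 : 2 / x = Real.exp (Real.log 2 - u) := by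
      rw [Real.exp_sub, Real.exp_log (by norm_num), hx]
    rw [h1, ← Real.exp_nat_mul, Real.exp_le_exp]
    have h2 : (y / 2 - 1) * (u - 2) ≤ t * (u - Real.log 2) :=
      mul_le_mul (by linarith) (by linarith) (by linarith) ht0.le
    nlinarith

/-- **Lower bound over every field.** -/
theorem lower_bound_all : ∃ n0 : ℕ, ∀ (F : Type u) [Field F] (n : ℕ) [NeZero n],
    n0 ≤ n → ∀ C : Circuit F (Var n n), C.IsSynHom → C.output = IMM F n n →
      (n : ℝ) ^ (Real.sqrt n / 80) ≤ C.size := by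
  refine ⟨⌈Real.exp 16000⌉₊, fun F _ n _ hn C hC hout => ?_⟩
  have hn1 : Real.exp 16000 ≤ n := (Nat.le_ceil _).trans (by exact_mod_cast hn)
  have hn0 : (0 : ℝ) < n := lt_of_lt_of_le (Real.exp_pos _) hn1
  obtain ⟨u, hu⟩ : ∃ u, u = Real.log n / 16 := ⟨_, rfl⟩
  have hu1 : 1000 ≤ u := by
    have := (Real.le_log_iff_exp_le hn0).2 hn1
    linarith
  obtain ⟨x, hx⟩ : ∃ x, x = Real.exp u := ⟨_, rfl⟩
  obtain ⟨y, hy⟩ : ∃ y, y = x ^ 8 := ⟨_, rfl⟩
  have hx1 : 1001 ≤ x := by rw [hx]; linarith [Real.add_one_le_exp u]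
  have hx0 : 0 < x := by linarith
  have hxy : x ≤ y := by
    rw [hy]
    exact le_self_pow₀ (by linarith) (by norm_num)
  have hnx : (n : ℝ) = x ^ 16 := by
    rw [hx, ← Real.exp_nat_mul, hu]
    push_cast
    rw [mul_div_cancel₀ _ (by norm_num), Real.exp_log hn0]
  have hny : (n : ℝ) = y ^ 2 := by rw [hnx, hy]; ring
  obtain ⟨t, ht⟩ : ∃ t, t = ⌈y / 2⌉₊ := ⟨_, rfl⟩
  have ht1 : y / 2 ≤ t := ht ▸ Nat.le_ceil _
  have ht2 : (t : ℝ) ≤ y / 2 + 1 := ht ▸ (Nat.ceil_lt_add_one (by linarith)).le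
  have ht0 : (0 : ℝ) < t := by linarith
  have ht3 : 1 ≤ t := by exact_mod_cast ht0
  obtain ⟨r, hr⟩ : ∃ r, r = Real.exp ((u - Real.log 4) / (4 * t)) := ⟨_, rfl⟩
  have hl4 : Real.log 4 ≤ 3 := by linarith [Real.log_le_sub_one_of_pos (by norm_num : (0 : ℝ) < 4)]
  have hr1 : 1 ≤ r := by
    rw [hr]
    exact Real.one_le_exp (div_nonneg (by linarith) (by positivity))
  have hr0 : 0 < r := by linarith
  have hrt : 4 * (r ^ 2) ^ (2 * t) = x := by
    rw [hr, ← pow_mul, ← Real.exp_nat_mul]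
    have : ((2 * (2 * t) : ℕ) : ℝ) * ((u - Real.log 4) / (4 * t)) = u - Real.log 4 := by
      push_cast
      field_simp
      ring
    rw [this, Real.exp_sub, Real.exp_log (by norm_num), hx]
    ring
  have hr2 : r ^ 2 ≤ 2 := by
    refine le_of_pow_le_pow_left₀ (n := 2 * t) (by omega) (by norm_num) ?_
    have h1 : ((2 * t : ℕ) : ℝ) < ((2 ^ (2 * t) : ℕ) : ℝ) := by
      exact_mod_cast Nat.lt_two_pow_self
    push_cast at h1
    linarith
  have hθ1 : 1 ≤ r ^ 2 := one_le_pow₀ hr1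
  have hα1 : x ≤ r ^ 2 * x := by nlinarith
  have hα2 : r ^ 2 * x ≤ 2 * x := by nlinarith
  have hα0 : 0 < r ^ 2 * x := by positivity
  obtain ⟨word, hω⟩ := exists_word (α := r ^ 2 * x) (β := x) (by linarith) hα1
  obtain ⟨K, L, hKL, hL, hK⟩ := window_bounds hu1 hx hnx hα1 hα2
  have hpsi := psi_le_three hx0 hr1 rfl (T := 2 * t) hrt.le
  have hσ : 1 ≤ 1 + 2 / (t : ℝ) := by
    have : 0 ≤ 2 / (t : ℝ) := by positivity
    linarith
  have hcost := cost_output_group C (costSystem_cheap (wordMark word n n) hα0 hx0) hC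
    (d := n) (t := t) ht3 (hout ▸ IMM_isHomogeneous F n n) (hout ▸ IMM_ne_zero F n n)
    (A := (1 + 2 / (t : ℝ)) * r⁻¹) (D := 3) (B := 2 / x) (by positivity) (by norm_num)
    (fun e he => (hpsi e (by omega)).trans (by
      rw [mul_pow]
      have h1 : 1 ≤ (1 + 2 / (t : ℝ)) ^ e := one_le_pow₀ hσ
      have h2 : 0 ≤ r⁻¹ ^ e := by positivity
      nlinarith))
    (fun e he1 he2 => (hpsi e he2).trans (by
      rw [mul_pow]
      refine mul_le_mul_of_nonneg_right ?_ (by positivity)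
      refine le_trans ?_ (pow_le_pow_right₀ hσ he1)
      refine le_trans (le_of_eq ?_) (one_add_mul_le_pow (by linarith) t)
      field_simp
      norm_num))
    (by positivity) ((div_le_one hx0).2 (by linarith)) (psi_one_le' hx0 hα1)
    (fun e he => by
      have : (e : ℝ) ≤ n := by exact_mod_cast he
      linarith [psi_le_succ hα0 hx0 e])
  rw [hout] at hcost
  have hγ : 48 / x ^ 10 * x ^ 2 = 48 / y := by rw [hy]; field_simp
  have hy0 : 0 < y := by linarith
  have hge := cost_ge (K := K) (L := L) F word (γ0 := 48 / x ^ 10) (η := 1 / x ^ 8)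
    (by linarith) hα1 hω (Nat.pos_of_ne_zero (NeZero.ne n)) hKL (by positivity)
    (by rw [hγ]; exact (div_le_one hy0).2 (by linarith)) (by positivity)
    (by rw [← hy]; exact (div_le_one hy0).2 (by linarith)) hL hK hcost
  rw [hγ, ← hy] at hge
  have hS : (1 : ℝ) ≤ C.size := by
    have : 1 ≤ C.size := by unfold Circuit.size; omega
    exact_mod_cast this
  have hfin := final_numeric hu1 hx hy hny (by linarith)
    (max_bound hu1 hx hxy hny hS ht1 ht2 hr) hα2
    (le_trans (by positivity) (le_max_left _ _)) hge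
  refine le_trans (le_of_eq ?_) hfin
  rw [Real.rpow_def_of_pos hn0, hny, Real.sqrt_sq hy0.le, ← hny, hu]
  congr 1
  ring

end Vale.Agent.N346.AF
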