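import Mathlib

/-!
# The weight function `psi`

`psi al be e = ∑_{p + q = e} min (al^p / be^q) (be^q / al^p)` and its bounds.
-/

namespace Vale.Agent.N346

open Finset

/-- The total cost of splitting a homogeneous polynomial of degree `e` into bihomogeneous parts. -/
noncomputable def psi (al be : ℝ) (e : ℕ) : ℝ :=
  ∑ p ∈ range (e + 1), min (al ^ p / be ^ (e - p)) (be ^ (e - p) / al ^ p)

lemma psi_zero (al be : ℝ) : psi al be 0 = 1 := by
  simp [psi]

lemma psi_nonneg {al be : ℝ} (ha : 0 < al) (hb : 0 < be) (e : ℕ) : 0 ≤ psi al be e := by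
  unfold psi
  refine sum_nonneg fun p _ => le_min ?_ ?_ <;> positivity

lemma min_div_le_one {x y : ℝ} (hx : 0 < x) (hy : 0 < y) : min (x / y) (y / x) ≤ 1 := by
  rcases le_total x y with h | h
  · exact (min_le_left _ _).trans ((div_le_one hy).2 h)
  · exact (min_le_right _ _).trans ((div_le_one hx).2 h)

lemma psi_le_succ {al be : ℝ} (ha : 0 < al) (hb : 0 < be) (e : ℕ) :
    psi al be e ≤ (e : ℝ) + 1 := by
  unfold psi
  calc ∑ p ∈ range (e + 1), min (al ^ p / be ^ (e - p)) (be ^ (e - p) / al ^ p)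
      ≤ ∑ _p ∈ range (e + 1), (1 : ℝ) :=
        sum_le_sum fun p _ => min_div_le_one (by positivity) (by positivity)
    _ = (e : ℝ) + 1 := by simp

lemma psi_symm (al be : ℝ) (e : ℕ) : psi al be e = psi be al e := by
  unfold psi
  rw [← sum_range_reflect]
  refine sum_congr rfl fun p hp => ?_
  have hp' : p ≤ e := Nat.lt_succ_iff.1 (mem_range.1 hp)
  have h1 : e + 1 - 1 - p = e - p := by omega
  have h2 : e - (e - p) = p := by omega
  rw [h1, h2, min_comm]

lemma psi_one_le {al be : ℝ} : psi al be 1 ≤ 1 / be + 1 / al := by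
  unfold psi
  simp only [sum_range_succ, sum_range_zero, zero_add]
  refine add_le_add ?_ ?_
  · exact (min_le_left _ _).trans (by simp)
  · exact (min_le_right _ _).trans (by simp)

lemma psi_one_le' {al be : ℝ} (hb : 0 < be) (hba : be ≤ al) : psi al be 1 ≤ 2 / be := by
  have h : 1 / al ≤ 1 / be := one_div_le_one_div_of_le hb hba
  have := psi_one_le (al := al) (be := be)
  have h2 : 2 / be = 1 / be + 1 / be := by ring
  linarith

/-- A geometric sum bound. -/
lemma geom_part {al be : ℝ} (ha : 0 < al) (hb : 0 < be) (hq : 2 ≤ al * be) (e : ℕ) :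
    ∀ m : ℕ, m ≤ e →
      ∑ p ∈ range (m + 1), al ^ p / be ^ (e - p) ≤ 2 * (al ^ m / be ^ (e - m)) := by
  intro m
  induction m with
  | zero =>
    intro _
    simp only [zero_add, range_one, sum_singleton]
    have : 0 ≤ al ^ 0 / be ^ (e - 0) := by positivity
    linarith
  | succ m ih =>
    intro hm
    rw [sum_range_succ]
    have h1 := ih (by omega)
    have h2 : e - m = (e - (m + 1)) + 1 := by omega
    have h3 : 2 * (al ^ m / be ^ (e - m)) ≤ al ^ (m + 1) / be ^ (e - (m + 1)) := by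
      rw [h2, pow_succ, pow_succ]
      have hpos : 0 < al ^ m / be ^ (e - (m + 1)) := by positivity
      have e1 : al ^ m / (be ^ (e - (m + 1)) * be) = (al ^ m / be ^ (e - (m + 1))) / be := by
        field_simp
      have e2 : al ^ m * al / be ^ (e - (m + 1)) = (al ^ m / be ^ (e - (m + 1))) * al := by
        field_simp
      rw [e1, e2, ← mul_div_assoc, div_le_iff₀ hb]
      nlinarith
    linarith

/-- Splitting the sum defining `psi`. -/
lemma psi_le_split (al be : ℝ) (e a b : ℕ) (hab : a + b = e + 1) :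
    psi al be e ≤ ∑ p ∈ range a, al ^ p / be ^ (e - p) + ∑ j ∈ range b, be ^ j / al ^ (e - j) := by
  unfold psi
  rw [← hab, sum_range_add]
  refine add_le_add (sum_le_sum fun p _ => min_le_left _ _) ?_
  rw [← sum_range_reflect]
  refine sum_le_sum fun j hj => (min_le_right _ _).trans (le_of_eq ?_)
  have hj' : j < b := mem_range.1 hj
  have h1 : e - (a + (b - 1 - j)) = j := by omega
  have h2 : a + (b - 1 - j) = e - j := by omega
  rw [h1, h2]

lemma psi_odd {al be : ℝ} (hb : 0 < be) (hba : be ≤ al) (hq : 2 ≤ al * be) (m : ℕ) :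
    psi al be (2 * m + 1) ≤ 4 * (al / be) ^ m / be := by
  have ha : 0 < al := lt_of_lt_of_le hb hba
  have h := psi_le_split al be (2 * m + 1) (m + 1) (m + 1) (by ring)
  have h1 := geom_part ha hb hq (2 * m + 1) m (by omega)
  have h2 := geom_part hb ha (by linarith [mul_comm al be]) (2 * m + 1) m (by omega)
  have e1 : 2 * m + 1 - m = m + 1 := by omega
  rw [e1] at h1 h2
  have h3 : be ^ m / al ^ (m + 1) ≤ al ^ m / be ^ (m + 1) := by
    gcongr
  have h4 : al ^ m / be ^ (m + 1) = (al / be) ^ m / be := by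
    rw [div_pow, pow_succ]; field_simp
  rw [mul_div_assoc, ← h4]
  linarith

lemma psi_even {al be : ℝ} (hb : 0 < be) (hba : be ≤ al) (hq : 2 ≤ al * be) (m : ℕ) :
    psi al be (2 * (m + 1)) ≤
      ((al / be) ^ (m + 1))⁻¹ * (1 + 2 / (al * be) + 2 * (al / be) ^ (2 * (m + 1)) / (al * be)) := by
  have ha : 0 < al := lt_of_lt_of_le hb hba
  have h := psi_le_split al be (2 * (m + 1)) (m + 1) (m + 2) (by ring)
  have h1 := geom_part ha hb hq (2 * (m + 1)) m (by omega)
  have h2 := geom_part hb ha (by linarith [mul_comm al be]) (2 * (m + 1)) m (by omega)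
  have e1 : 2 * (m + 1) - m = m + 2 := by omega
  have e2 : 2 * (m + 1) - (m + 1) = m + 1 := by omega
  rw [e1] at h1 h2
  rw [sum_range_succ _ (m + 1), e2] at h
  have h4 : ((al / be) ^ (m + 1))⁻¹ *
      (1 + 2 / (al * be) + 2 * (al / be) ^ (2 * (m + 1)) / (al * be)) =
      be ^ (m + 1) / al ^ (m + 1) + 2 * (be ^ m / al ^ (m + 2)) + 2 * (al ^ m / be ^ (m + 2)) := by
    rw [two_mul (m + 1), pow_add (al / be) (m + 1) (m + 1)]
    simp only [div_pow, pow_succ]
    field_simp
  rw [h4]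
  linarith

/-- If `(θ - 1) θ^t ≤ 1` then `θ^e ≤ 1 + e` for `e ≤ t`. -/
lemma pow_le_one_add {θ : ℝ} (h1 : 1 ≤ θ) (t : ℕ) (ht : (θ - 1) * θ ^ t ≤ 1) :
    ∀ e : ℕ, e ≤ t → θ ^ e ≤ 1 + (e : ℝ) := by
  intro e
  induction e with
  | zero => simp
  | succ e ih =>
    intro he
    have h2 := ih (by omega)
    have h3 : θ ^ e ≤ θ ^ t := pow_le_pow_right₀ h1 (by omega)
    have h4 : (θ - 1) * θ ^ e ≤ (θ - 1) * θ ^ t := mul_le_mul_of_nonneg_left h3 (by linarith)
    rw [pow_succ]
    push_cast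
    nlinarith

/-- The main bound: for small degrees `psi` decays geometrically. -/
lemma psi_le_pow {al be : ℝ} (hb : 0 < be) (hba : be ≤ al) (hq : 2 ≤ al * be) (t : ℕ)
    (h1 : (al / be - 1) * (al / be) ^ t ≤ 1) (h2 : 4 * (al / be) ^ t ≤ be) (e : ℕ) (he : e ≤ t) :
    psi al be e ≤ ((1 + 4 / (al * be)) / √(al / be)) ^ e := by
  have ha : 0 < al := lt_of_lt_of_le hb hba
  set θ := al / be with hθ
  have hθ1 : 1 ≤ θ := (one_le_div hb).2 hba
  have hθ0 : 0 < θ := by linarith
  set r := √θ with hr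
  have hr0 : 0 < r := Real.sqrt_pos.2 hθ0
  have hr2 : r ^ 2 = θ := Real.sq_sqrt hθ0.le
  have hr1 : 1 ≤ r := Real.one_le_sqrt.2 hθ1
  have hrθ : r ≤ θ := by nlinarith
  set x := 4 / (al * be) with hx
  have hx0 : 0 ≤ x := by positivity
  have hbern : 1 + (e : ℝ) * x ≤ (1 + x) ^ e := one_add_mul_le_pow (by linarith) e
  rw [div_pow]
  obtain ⟨m, rfl | rfl⟩ := Nat.even_or_odd' e
  · rcases m with _ | m
    · simp [psi_zero]
    · have h3 := psi_even hb hba hq m
      have h4 := pow_le_one_add hθ1 t h1 _ he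
      rw [pow_mul r, hr2]
      refine h3.trans ?_
      rw [← hθ, inv_mul_eq_div]
      gcongr
      refine le_trans ?_ hbern
      have hm : (0 : ℝ) ≤ m := Nat.cast_nonneg m
      have h5 : 2 / (al * be) = x / 2 := by rw [hx]; ring
      have h6 : 2 * θ ^ (2 * (m + 1)) / (al * be) = θ ^ (2 * (m + 1)) * (x / 2) := by
        rw [hx]; ring
      rw [h5, h6]
      push_cast at h4 ⊢
      nlinarith
  · have h3 := psi_odd hb hba hq m
    refine h3.trans ?_
    rw [← hθ]
    have h4 : θ ^ (2 * m + 1) ≤ θ ^ t := pow_le_pow_right₀ hθ1 he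
    have h5 : 1 ≤ (1 + x) ^ (2 * m + 1) := one_le_pow₀ (by linarith)
    rw [div_le_div_iff₀ hb (by positivity), pow_succ r, pow_mul r, hr2]
    have h6 : 4 * θ ^ m * (θ ^ m * r) ≤ be := by
      calc 4 * θ ^ m * (θ ^ m * r) ≤ 4 * θ ^ m * (θ ^ m * θ) := by gcongr
        _ = 4 * θ ^ (2 * m + 1) := by ring
        _ ≤ be := by linarith
    nlinarith

end Vale.Agent.N346
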