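import Mathlib
import Vale.Agent.N346.Psi

/-!
Definitions for the two-sided shifted partial derivative measure
(contraction on the `P` side, multiplication on the `N` side).
-/

namespace Vale.Agent.N346

open MvPolynomial

/-- Exponent vectors of total degree `l`. -/
abbrev Mon (σ : Type*) [Fintype σ] [DecidableEq σ] (l : ℕ) : Finset (σ →₀ ℕ) :=
  Finset.finsuppAntidiag Finset.univ l

/-- Pairs of exponent vectors of degrees `a` and `b`. -/
abbrev Idx (σ : Type*) [Fintype σ] [DecidableEq σ] (a b : ℕ) : Type _ :=
  {A // A ∈ Mon σ a} × {B // B ∈ Mon σ b}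

section Measure

variable {σ : Type*}

/-- The part of an exponent vector on the variables marked `true`. -/
noncomputable def pP (s : σ → Bool) (m : σ →₀ ℕ) : σ →₀ ℕ := m.filter (fun x => s x = true)

/-- The part of an exponent vector on the variables marked `false`. -/
noncomputable def pN (s : σ → Bool) (m : σ →₀ ℕ) : σ →₀ ℕ := m.filter (fun x => s x = false)

/-- The monomial `m` sends the column `(B1, B2)` to the row `(A1, A2)`. -/
def Step (s : σ → Bool) (m A1 A2 B1 B2 : σ →₀ ℕ) : Prop :=
  B1 = A1 + pP s m ∧ A2 = B2 + pN s m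

/-- The bidegree weight. -/
def bw (s : σ → Bool) : σ → ℕ × ℕ := fun x => if s x = true then (1, 0) else (0, 1)

open Classical in
/-- The matrix of one monomial: rows of bidegree `(a, b)`, columns of bidegree `(a', b')`. -/
noncomputable def monMat [Fintype σ] [DecidableEq σ] (K : Type*) [Field K] (s : σ → Bool)
    (a b a' b' : ℕ) (m : σ →₀ ℕ) : Matrix (Idx σ a b) (Idx σ a' b') K :=
  Matrix.of fun A B => if Step s m A.1.1 A.2.1 B.1.1 B.2.1 then 1 else 0

/-- The matrix of a polynomial, linear in the polynomial. -/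
noncomputable def opMat [Fintype σ] [DecidableEq σ] (K : Type*) [Field K] (s : σ → Bool)
    (a b a' b' : ℕ) : MvPolynomial σ K →ₗ[K] Matrix (Idx σ a b) (Idx σ a' b') K :=
  (basisMonomials σ K).constr K (monMat K s a b a' b')

theorem opMat_monomial [Fintype σ] [DecidableEq σ] (K : Type*) [Field K] (s : σ → Bool)
    (a b a' b' : ℕ) (m : σ →₀ ℕ) (c : K) :
    opMat K s a b a' b' (monomial m c) = c • monMat K s a b a' b' m := by
  have h : (monomial m c : MvPolynomial σ K) = c • basisMonomials σ K m := by
    rw [coe_basisMonomials, smul_monomial, smul_eq_mul, mul_one]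
  rw [h, map_smul, opMat, Module.Basis.constr_basis]

/-- Weighted decompositions into products of two bihomogeneous polynomials. -/
inductive Cheap {K : Type*} [Field K] (s : σ → Bool) (α β : ℝ) : MvPolynomial σ K → ℝ → Prop
  | zero : Cheap s α β 0 0
  | basic (g h : MvPolynomial σ K) (p q p' q' : ℕ) :
      IsWeightedHomogeneous (bw s) g (p, q) → IsWeightedHomogeneous (bw s) h (p', q') →
      Cheap s α β (g * h) (α ^ p * β ^ q' / (β ^ q * α ^ p'))
  | add {f g : MvPolynomial σ K} {a b : ℝ} :
      Cheap s α β f a → Cheap s α β g b → Cheap s α β (f + g) (a + b)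
  | mono {f : MvPolynomial σ K} {a b : ℝ} : Cheap s α β f a → a ≤ b → Cheap s α β f b

end Measure

section Paths

/-- Vertex sequences `v 0, …, v d` starting and ending at the vertex `0`. -/
def Paths (w d : ℕ) [NeZero w] : Finset (Fin (d + 1) → Fin w) :=
  Finset.univ.filter fun v => v 0 = 0 ∧ v (Fin.last d) = 0

/-- The variable used by the vertex sequence `v` at position `j`. -/
def edge {w d : ℕ} (v : Fin (d + 1) → Fin w) (j : Fin d) : Fin d × Fin w × Fin w :=
  (j, v j.castSucc, v j.succ)

/-- The exponent vector of a vertex sequence. -/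
noncomputable def pathMon {w d : ℕ} (v : Fin (d + 1) → Fin w) : (Fin d × Fin w × Fin w) →₀ ℕ :=
  ∑ j : Fin d, Finsupp.single (edge v j) 1

/-- The sum over all paths of the path monomials. -/
noncomputable def pathPoly (K : Type*) [Field K] (w d : ℕ) [NeZero w] :
    MvPolynomial (Fin d × Fin w × Fin w) K :=
  ∑ v ∈ Paths w d, monomial (pathMon v) 1

/-- The marking of variables given by a word. -/
def wordMark (word : ℕ → Bool) (w d : ℕ) : Fin d × Fin w × Fin w → Bool := fun x => word x.1.val

/-- Number of `true` letters among the first `d`. -/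
def cntP (word : ℕ → Bool) (d : ℕ) : ℕ := ((Finset.range d).filter fun j => word j = true).card

/-- Number of `false` letters among the first `d`. -/
def cntN (word : ℕ → Bool) (d : ℕ) : ℕ := ((Finset.range d).filter fun j => word j = false).card

/-- Partial products of a word. -/
noncomputable def omega (word : ℕ → Bool) (α β : ℝ) (i : ℕ) : ℝ :=
  ∏ j ∈ Finset.range i, if word j = true then α else β⁻¹

open Classical in
/-- The path-counting matrix. -/
noncomputable def natMat (word : ℕ → Bool) (w d : ℕ) [NeZero w] (a b a' b' : ℕ) :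
    Matrix (Idx (Fin d × Fin w × Fin w) a b) (Idx (Fin d × Fin w × Fin w) a' b') ℕ :=
  Matrix.of fun A B => ((Paths w d).filter fun v =>
    Step (wordMark word w d) (pathMon v) A.1.1 A.2.1 B.1.1 B.2.1).card

/-- Vertex quadruples of the shape `(x, x, y, y)`. -/
def inS {V : Type*} (u : V × V × V × V) : Prop := u.1 = u.2.1 ∧ u.2.2.1 = u.2.2.2

/-- Vertex quadruples of the shape `(x, y, y, x)`. -/
def inT {V : Type*} (u : V × V × V × V) : Prop := u.1 = u.2.2.2 ∧ u.2.1 = u.2.2.1

open Classical in
/-- The transfer kernel. -/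
noncomputable def kap {V : Type*} (α β : ℝ) (b : Bool) (u v : V × V × V × V) : ℝ :=
  (if inS u ∧ inS v then (if b = true then (α ^ 2)⁻¹ else 1) else 0) +
  (if inT u ∧ inT v then (if b = true then 1 else (β ^ 2)⁻¹) else 0) +
  (if (inS u ∧ inT u) ∧ (inS v ∧ inT v) then 1 else 0)

/-- The product of the kernels along four vertex sequences. -/
noncomputable def kapProd (word : ℕ → Bool) (α β : ℝ) {w d : ℕ}
    (v1 v2 v3 v4 : Fin (d + 1) → Fin w) : ℝ :=
  ∏ j : Fin d, kap α β (word j.val)
    (v1 j.castSucc, v2 j.castSucc, v3 j.castSucc, v4 j.castSucc)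
    (v1 j.succ, v2 j.succ, v3 j.succ, v4 j.succ)

end Paths

end Vale.Agent.N346
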