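import Mathlib

/-!
The trace method for matrix rank, for matrices with natural number entries read in an
arbitrary field of characteristic zero.
-/

namespace Vale.Agent.N346.RankTrace

open Matrix

/-- The rank of a matrix does not change under a field extension. -/
theorem rank_map_algebraMap {F K : Type*} [Field F] [Field K] [Algebra F K]
    {m n : Type*} [Fintype m] [Fintype n] (A : Matrix m n F) :
    (A.map (algebraMap F K)).rank = A.rank := by
  classical
  obtain ⟨κ, a, ha, hspan, hli⟩ := exists_linearIndependent' F A.col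
  have : Finite κ := Finite.of_injective a ha
  let _ : Fintype κ := Fintype.ofFinite κ
  have h1 : A.rank = Fintype.card κ := by
    rw [rank_eq_finrank_span_cols, ← hspan, finrank_span_eq_card hli]
  have hli' : LinearIndependent K (fun i => algebraMap F K ∘ (A.col ∘ a) i) :=
    linearIndependent_algebraMap_comp_iff.2 hli
  have hspan' : Submodule.span K (Set.range (A.map (algebraMap F K)).col) =
      Submodule.span K (Set.range (fun i => algebraMap F K ∘ (A.col ∘ a) i)) := by
    apply le_antisymm
    · rw [Submodule.span_le]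
      rintro _ ⟨j, rfl⟩
      have hj : A.col j ∈ Submodule.span F (Set.range (A.col ∘ a)) := by
        rw [hspan]
        exact Submodule.subset_span ⟨j, rfl⟩
      obtain ⟨c, hc⟩ := (Submodule.mem_span_range_iff_exists_fun F).1 hj
      refine (Submodule.mem_span_range_iff_exists_fun K).2 ⟨fun i => algebraMap F K (c i), ?_⟩
      funext r
      have := congrFun hc r
      simp only [Finset.sum_apply, Pi.smul_apply, smul_eq_mul, Function.comp_apply] at this ⊢
      rw [show (A.map (algebraMap F K)).col j r = algebraMap F K (A.col j r) from rfl, ← this,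
        map_sum]
      simp only [map_mul]
    · apply Submodule.span_mono
      rintro _ ⟨i, rfl⟩
      exact ⟨a i, rfl⟩
  rw [rank_eq_finrank_span_cols, hspan', finrank_span_eq_card hli', h1]

/-- For a real symmetric matrix, the square of the trace is at most the rank times the trace
of the square. -/
theorem trace_sq_le_rank_mul {n : Type*} [Fintype n] (G : Matrix n n ℝ) (hG : G.IsHermitian) :
    G.trace ^ 2 ≤ (G.rank : ℝ) * (G * G).trace := by
  classical
  have h1 : G.trace = ∑ i, hG.eigenvalues i := by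
    simpa using hG.trace_eq_sum_eigenvalues
  have h2 : (G * G).trace = ∑ i, hG.eigenvalues i ^ 2 := by
    conv_lhs => rw [hG.spectral_theorem, ← map_mul, Unitary.conjStarAlgAut_apply]
    rw [Matrix.trace_mul_comm, ← mul_assoc]
    simp [Matrix.diagonal_mul_diagonal, sq]
  have h3 : G.rank = (Finset.univ.filter (fun i => hG.eigenvalues i ≠ 0)).card := by
    rw [hG.rank_eq_card_non_zero_eigs, Fintype.card_subtype]
  have h4 : ∑ i, hG.eigenvalues i =
      ∑ i ∈ Finset.univ.filter (fun i => hG.eigenvalues i ≠ 0), hG.eigenvalues i := by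
    rw [Finset.sum_filter]
    refine Finset.sum_congr rfl fun i _ => ?_
    by_cases h : hG.eigenvalues i = 0 <;> simp [h]
  rw [h1, h2, h3, h4]
  refine (sq_sum_le_card_mul_sum_sq).trans ?_
  refine mul_le_mul_of_nonneg_left ?_ (Nat.cast_nonneg _)
  exact Finset.sum_le_sum_of_subset_of_nonneg (Finset.filter_subset _ _)
    (fun i _ _ => sq_nonneg _)

/-- The trace method over the reals. -/
theorem rank_trace_real {m n : Type*} [Fintype m] [Fintype n] (A : Matrix m n ℝ) :
    (∑ i, ∑ j, A i j ^ 2) ^ 2 ≤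
      (A.rank : ℝ) * ∑ r₁, ∑ r₂, ∑ c₁, ∑ c₂, A r₁ c₁ * A r₁ c₂ * A r₂ c₂ * A r₂ c₁ := by
  classical
  have hG : (A * Aᵀ).IsHermitian := by
    simpa using Matrix.isHermitian_mul_conjTranspose_self A
  have h := trace_sq_le_rank_mul (A * Aᵀ) hG
  rw [Matrix.rank_self_mul_transpose] at h
  have h1 : (A * Aᵀ).trace = ∑ i, ∑ j, A i j ^ 2 := by
    simp [Matrix.trace, Matrix.mul_apply, sq]
  have h2 : (A * Aᵀ * (A * Aᵀ)).trace =
      ∑ r₁, ∑ r₂, ∑ c₁, ∑ c₂, A r₁ c₁ * A r₁ c₂ * A r₂ c₂ * A r₂ c₁ := by
    simp only [Matrix.trace, Matrix.diag_apply]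
    refine Finset.sum_congr rfl fun r₁ _ => ?_
    rw [Matrix.mul_apply]
    refine Finset.sum_congr rfl fun r₂ _ => ?_
    simp only [Matrix.mul_apply, Matrix.transpose_apply, Finset.sum_mul_sum]
    refine Finset.sum_congr rfl fun c₁ _ => Finset.sum_congr rfl fun c₂ _ => ?_
    ring
  rwa [h1, h2] at h

/-- The trace method for a matrix with natural number entries, read in a field of
characteristic zero. -/
theorem rank_trace {K : Type*} [Field K] [CharZero K] {m n : Type*} [Fintype m] [Fintype n]
    (M : Matrix m n ℕ) :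
    (∑ i, ∑ j, M i j ^ 2) ^ 2 ≤
      (M.map (Nat.cast : ℕ → K)).rank *
        ∑ r₁, ∑ r₂, ∑ c₁, ∑ c₂, M r₁ c₁ * M r₁ c₂ * M r₂ c₂ * M r₂ c₁ := by
  have hK : M.map (Nat.cast : ℕ → K) = (M.map (Nat.cast : ℕ → ℚ)).map (algebraMap ℚ K) := by
    ext i j
    simp
  have hR : M.map (Nat.cast : ℕ → ℝ) = (M.map (Nat.cast : ℕ → ℚ)).map (algebraMap ℚ ℝ) := by
    ext i j
    simp
  have hrk : (M.map (Nat.cast : ℕ → K)).rank = (M.map (Nat.cast : ℕ → ℝ)).rank := by
    rw [hK, hR, rank_map_algebraMap, rank_map_algebraMap]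
  have h := rank_trace_real (M.map (Nat.cast : ℕ → ℝ))
  rw [hrk]
  simp only [Matrix.map_apply] at h
  exact_mod_cast h

/-- The same with the plain sum of the entries on the left. -/
theorem rank_trace_sum {K : Type*} [Field K] [CharZero K] {m n : Type*} [Fintype m] [Fintype n]
    (M : Matrix m n ℕ) :
    (∑ i, ∑ j, M i j) ^ 2 ≤
      (M.map (Nat.cast : ℕ → K)).rank *
        ∑ r₁, ∑ r₂, ∑ c₁, ∑ c₂, M r₁ c₁ * M r₁ c₂ * M r₂ c₂ * M r₂ c₁ := by
  refine le_trans ?_ (rank_trace M)
  refine Nat.pow_le_pow_left ?_ 2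
  refine Finset.sum_le_sum fun i _ => Finset.sum_le_sum fun j _ => ?_
  exact Nat.le_self_pow two_ne_zero _

end Vale.Agent.N346.RankTrace
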