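import Mathlib
import Vale.Agent.N346.Measure
import Vale.Agent.N346.MonoCount
import Vale.Agent.N346.RankTrace

/-!
The rank bound for cheap polynomials, and the monomial counts in the form used by the measure.
-/

namespace Vale.Agent.N346

open MvPolynomial

section Counts

theorem mon_card_up {σ : Type*} [Fintype σ] [DecidableEq σ] [Nonempty σ] {l : ℕ} (hl : 1 ≤ l)
    (j : ℕ) : ((Mon σ (l + j)).card : ℝ) ≤
      (Mon σ l).card * (((Fintype.card σ : ℝ) + l - 1) / l) ^ j :=
  MonoCount.card_monos_add_le Fintype.card_pos hl j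

theorem mon_card_down {σ : Type*} [Fintype σ] [DecidableEq σ] [Nonempty σ] {l : ℕ} (_hl : 1 ≤ l)
    (m : σ →₀ ℕ) : (((Mon σ l).filter fun A => m ≤ A).card : ℝ) *
      (((Fintype.card σ : ℝ) + l - 1) / l) ^ m.degree ≤ (Mon σ l).card :=
  MonoCount.card_filter_le_mul_le Fintype.card_pos m l

theorem mon_card_pos {σ : Type*} [Fintype σ] [DecidableEq σ] [Nonempty σ] (l : ℕ) :
    0 < (Mon σ l).card :=
  MonoCount.card_monos_pos Fintype.card_pos l

theorem mem_Mon {σ : Type*} [Fintype σ] [DecidableEq σ] {l : ℕ} {A : σ →₀ ℕ} :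
    A ∈ Mon σ l ↔ A.degree = l :=
  MonoCount.mem_monos

theorem rank_trace' {K : Type*} [Field K] [CharZero K] {m n : Type*} [Fintype m] [Fintype n]
    (M : Matrix m n ℕ) : (∑ i, ∑ j, (M i j) ^ 2) ^ 2 ≤ (M.map (Nat.cast : ℕ → K)).rank *
      ∑ r1, ∑ r2, ∑ c1, ∑ c2, M r1 c1 * M r1 c2 * M r2 c2 * M r2 c1 :=
  RankTrace.rank_trace M

end Counts

namespace RankBound

variable {σ K : Type*} [Field K] {s : σ → Bool}

theorem pP_add (m m' : σ →₀ ℕ) : pP s (m + m') = pP s m + pP s m' := Finsupp.filter_add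

theorem pN_add (m m' : σ →₀ ℕ) : pN s (m + m') = pN s m + pN s m' := Finsupp.filter_add

theorem weight_bw (m : σ →₀ ℕ) :
    Finsupp.weight (bw s) m = ((pP s m).degree, (pN s m).degree) := by
  induction m using Finsupp.induction_linear with
  | zero => simp [pP, pN, Finsupp.filter_zero, Prod.ext_iff]
  | add f g hf hg => rw [map_add, hf, hg, pP_add, pN_add, map_add, map_add, Prod.mk_add_mk]
  | single x n =>
    rw [Finsupp.weight_single]
    cases h : s x
    · rw [pP, pN, Finsupp.filter_single_of_neg (fun x => s x = true) (by simp [h]),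
        Finsupp.filter_single_of_pos (fun x => s x = false) h]
      simp [bw, h]
    · rw [pP, pN, Finsupp.filter_single_of_pos (fun x => s x = true) h,
        Finsupp.filter_single_of_neg (fun x => s x = false) (by simp [h])]
      simp [bw, h]

theorem degree_of_mem_support {g : MvPolynomial σ K} {p q : ℕ}
    (hg : IsWeightedHomogeneous (bw s) g (p, q)) {m : σ →₀ ℕ} (hm : m ∈ g.support) :
    (pP s m).degree = p ∧ (pN s m).degree = q := by
  have h := hg (MvPolynomial.mem_support_iff.1 hm)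
  rw [weight_bw] at h
  exact Prod.mk.inj h

variable [Fintype σ] [DecidableEq σ]

theorem monMat_add {a b a' b' p q' : ℕ} {m m' : σ →₀ ℕ} (hm : (pP s m).degree = p)
    (hm' : (pN s m').degree = q') :
    monMat K s a b a' b' (m + m') =
      monMat K s a b (a + p) (b' + q') m * monMat K s (a + p) (b' + q') a' b' m' := by
  classical
  ext A B
  have h1 : A.1.1 + pP s m ∈ Mon σ (a + p) := by
    rw [mem_Mon, map_add, mem_Mon.1 A.1.2, hm]
  have h2 : B.2.1 + pN s m' ∈ Mon σ (b' + q') := by
    rw [mem_Mon, map_add, mem_Mon.1 B.2.2, hm']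
  rw [Matrix.mul_apply, Finset.sum_eq_single ((⟨_, h1⟩, ⟨_, h2⟩) : Idx σ (a + p) (b' + q'))]
  · simp only [monMat, Matrix.of_apply, Step, pP_add, pN_add, true_and, and_true]
    have e1 : A.1.1 + (pP s m + pP s m') = A.1.1 + pP s m + pP s m' := (add_assoc _ _ _).symm
    have e2 : B.2.1 + (pN s m + pN s m') = B.2.1 + pN s m' + pN s m := by
      rw [add_assoc, add_comm (pN s m')]
    rw [e1, e2]
    by_cases c1 : B.1.1 = A.1.1 + pP s m + pP s m' <;>
      by_cases c2 : A.2.1 = B.2.1 + pN s m' + pN s m <;> simp [c1, c2]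
  · intro x _ hne
    simp only [monMat, Matrix.of_apply]
    split_ifs with h3 h4
    · exact absurd (Prod.ext (Subtype.ext h3.1) (Subtype.ext h4.2)) hne
    all_goals simp
  · intro h
    exact absurd (Finset.mem_univ _) h

/-- The matrix of a product factors through one bidegree. -/
theorem opMat_mul {g h : MvPolynomial σ K} {p q p' q' : ℕ}
    (hg : IsWeightedHomogeneous (bw s) g (p, q)) (hh : IsWeightedHomogeneous (bw s) h (p', q'))
    (a b a' b' : ℕ) :
    opMat K s a b a' b' (g * h) =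
      opMat K s a b (a + p) (b' + q') g * opMat K s (a + p) (b' + q') a' b' h := by
  conv_lhs => rw [g.as_sum, h.as_sum, Finset.sum_mul_sum, map_sum]
  conv_rhs => rw [g.as_sum, h.as_sum, map_sum, map_sum, Matrix.sum_mul]
  refine Finset.sum_congr rfl fun m hm => ?_
  rw [map_sum, Matrix.mul_sum]
  refine Finset.sum_congr rfl fun m' hm' => ?_
  rw [monomial_mul, opMat_monomial, opMat_monomial, opMat_monomial,
    monMat_add (degree_of_mem_support hg hm).1 (degree_of_mem_support hh hm').2,
    Matrix.smul_mul, Matrix.mul_smul, smul_smul]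

theorem opMat_eq_zero {f : MvPolynomial σ K} {p q : ℕ}
    (hf : IsWeightedHomogeneous (bw s) f (p, q)) {l1 l2 k k' : ℕ} (h : ¬ (p = k ∧ q = k')) :
    opMat K s l1 (l2 + k') (l1 + k) l2 f = 0 := by
  rw [f.as_sum, map_sum]
  refine Finset.sum_eq_zero fun m hm => ?_
  rw [opMat_monomial]
  have : monMat K s l1 (l2 + k') (l1 + k) l2 m = 0 := by
    ext A B
    simp only [monMat, Matrix.of_apply, Matrix.zero_apply]
    refine if_neg fun hh => h ?_
    have e1 := congrArg Finsupp.degree hh.1
    have e2 := congrArg Finsupp.degree hh.2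
    rw [map_add, mem_Mon.1 A.1.2, mem_Mon.1 B.1.2, (degree_of_mem_support hf hm).1] at e1
    rw [map_add, mem_Mon.1 A.2.2, mem_Mon.1 B.2.2, (degree_of_mem_support hf hm).2] at e2
    omega
  rw [this, smul_zero]

theorem rank_opMat_mul_le {g h : MvPolynomial σ K} {p q p' q' : ℕ}
    (hg : IsWeightedHomogeneous (bw s) g (p, q)) (hh : IsWeightedHomogeneous (bw s) h (p', q'))
    (a b a' b' : ℕ) :
    (opMat K s a b a' b' (g * h)).rank ≤ (Mon σ (a + p)).card * (Mon σ (b' + q')).card := by
  rw [opMat_mul hg hh]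
  refine (Matrix.rank_mul_le_left _ _).trans ((Matrix.rank_le_card_width _).trans ?_)
  rw [Fintype.card_prod, Fintype.card_coe, Fintype.card_coe]

omit [Fintype σ] [DecidableEq σ] in
theorem matrix_rank_add_le {m n : Type*} [Fintype m] [Fintype n] (A B : Matrix m n K) :
    (A + B).rank ≤ A.rank + B.rank := by
  unfold Matrix.rank
  rw [Matrix.mulVecLin_add]
  refine le_trans (Submodule.finrank_mono ?_)
    (Submodule.finrank_add_le_finrank_add_finrank _ _)
  rintro _ ⟨v, rfl⟩
  exact Submodule.add_mem_sup ⟨v, rfl⟩ ⟨v, rfl⟩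

end RankBound

open RankBound in
/-- The rank bound for cheap polynomials. -/
theorem rank_le_of_cheap {σ K : Type*} [Field K] {s : σ → Bool} {α β : ℝ}
    [Fintype σ] [DecidableEq σ] (hα : 0 < α) (hβ : 0 < β) (l1 l2 k k' : ℕ)
    (hY : ∀ j, ((Mon σ (l1 + j)).card : ℝ) ≤ (Mon σ l1).card * (α ^ 2) ^ j)
    (hZ : ∀ j, ((Mon σ (l2 + j)).card : ℝ) ≤ (Mon σ l2).card * (β ^ 2) ^ j)
    {f : MvPolynomial σ K} {a : ℝ} (hf : Cheap s α β f a) :
    ((opMat K s l1 (l2 + k') (l1 + k) l2 f).rank : ℝ) ≤
      (Mon σ l1).card * (Mon σ l2).card * α ^ k * β ^ k' * a := by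
  induction hf with
  | basic g h p q p' q' hg hh =>
    by_cases hk : p + p' = k ∧ q + q' = k'
    · obtain ⟨rfl, rfl⟩ := hk
      have h1 : ((opMat K s l1 (l2 + (q + q')) (l1 + (p + p')) l2 (g * h)).rank : ℝ) ≤
          ((Mon σ (l1 + p)).card : ℝ) * (Mon σ (l2 + q')).card := by
        exact_mod_cast rank_opMat_mul_le hg hh _ _ _ _
      refine h1.trans ((mul_le_mul (hY p) (hZ q') (Nat.cast_nonneg _)
        (by positivity)).trans_eq ?_)
      field_simp
      ring
    · rw [opMat_eq_zero (hg.mul hh) hk, Matrix.rank_zero, Nat.cast_zero]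
      positivity
  | zero => simp
  | add _ _ ih1 ih2 =>
    rw [map_add, mul_add]
    refine le_trans ?_ (add_le_add ih1 ih2)
    exact_mod_cast matrix_rank_add_le _ _
  | mono _ hab ih => exact ih.trans (mul_le_mul_of_nonneg_left hab (by positivity))

end Vale.Agent.N346
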