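import Vale.Agent.N346.CheapAlg
import Vale.Agent.N346.RankBound

/-!
# P346, all fields: a weighted sum of ranks in the squarefree algebra

States are squarefree monomials.  A polynomial acts on them by multiplication, keeping only the
squarefree part.  The measure is a weighted sum of the ranks of the blocks of this action.
-/

namespace Vale.Agent.N346.AF

open MvPolynomial Finset

variable {σ : Type*} [Fintype σ] [DecidableEq σ]

/-- The exponent vector of a squarefree monomial. -/
noncomputable def ex (t : σ → Bool) : σ →₀ ℕ :=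
  Finsupp.equivFunOnFinite.symm fun x => (t x).toNat

omit [DecidableEq σ] in
theorem ex_apply (t : σ → Bool) (x : σ) : ex t x = (t x).toNat := rfl

omit [DecidableEq σ] in
theorem ex_injective : Function.Injective (ex : (σ → Bool) → σ →₀ ℕ) := by
  intro t t' h
  funext x
  have := DFunLike.congr_fun h x
  rw [ex_apply, ex_apply] at this
  cases h1 : t x <;> cases h2 : t' x <;> simp_all

omit [DecidableEq σ] in
theorem exists_ex_of_le {v : σ →₀ ℕ} {t : σ → Bool} (h : v ≤ ex t) : ∃ r, ex r = v := by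
  refine ⟨fun x => decide (v x = 1), ?_⟩
  ext x
  have h1 := h x
  rw [ex_apply] at h1 ⊢
  have h2 : (t x).toNat ≤ 1 := Bool.toNat_le _
  by_cases h3 : v x = 1
  · simp [h3]
  · simp only [h3, decide_false, Bool.toNat_false]
    omega

/-- The bidegree of a state. -/
noncomputable def bideg (s : σ → Bool) (t : σ → Bool) : ℕ × ℕ := Finsupp.weight (bw s) (ex t)

/-- The weight of a bidegree. -/
noncomputable def wtb (α β : ℝ) (b : ℕ × ℕ) : ℝ := (α ^ 2) ^ b.1 / (β ^ 2) ^ b.2

theorem wtb_pos {α β : ℝ} (hα : 0 < α) (hβ : 0 < β) (b : ℕ × ℕ) : 0 < wtb α β b := by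
  unfold wtb
  positivity

theorem wtb_add (α β : ℝ) (b c : ℕ × ℕ) : wtb α β (b + c) = wtb α β b * wtb α β c := by
  unfold wtb
  simp only [Prod.fst_add, Prod.snd_add, pow_add]
  ring

/-- States of a given bidegree. -/
abbrev Blk (s : σ → Bool) (b : ℕ × ℕ) : Type _ := {t : σ → Bool // bideg s t = b}

/-- A block of the multiplication matrix. -/
noncomputable def bMat (K : Type*) [Field K] (s : σ → Bool) (b b' : ℕ × ℕ)
    (g : MvPolynomial σ K) : Matrix (Blk s b) (Blk s b') K :=
  Matrix.of fun u t => coeff (ex t.1) (monomial (ex u.1) 1 * g)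

/-- The total weight of all states. -/
noncomputable def ztot (s : σ → Bool) (α β : ℝ) : ℝ := ∑ t : σ → Bool, wtb α β (bideg s t)

/-- The measure. -/
noncomputable def mu (K : Type*) [Field K] (s : σ → Bool) (α β : ℝ) (kk : ℕ × ℕ)
    (g : MvPolynomial σ K) : ℝ :=
  ∑ b ∈ univ.image (bideg s), wtb α β b * (bMat K s b (b + kk) g).rank

variable {K : Type*} [Field K] {s : σ → Bool}

omit [DecidableEq σ] in
theorem bMat_add (b b' : ℕ × ℕ) (f g : MvPolynomial σ K) :
    bMat K s b b' (f + g) = bMat K s b b' f + bMat K s b b' g := by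
  ext u t
  simp [bMat, mul_add]

omit [DecidableEq σ] in
theorem bMat_zero (b b' : ℕ × ℕ) : bMat K s b b' 0 = 0 := by
  ext u t
  simp [bMat]

theorem coeff_mul_split {c : ℕ × ℕ} {p : MvPolynomial σ K}
    (hp : IsWeightedHomogeneous (bw s) p c) (g : MvPolynomial σ K) (t : σ → Bool) :
    coeff (ex t) (p * g) =
      ∑ r : Blk s c, coeff (ex r.1) p * coeff (ex t) (monomial (ex r.1) 1 * g) := by
  conv_lhs => rw [p.as_sum, Finset.sum_mul, coeff_sum]
  have h1 : ∀ r : Blk s c, coeff (ex r.1) p * coeff (ex t) (monomial (ex r.1) 1 * g) =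
      ∑ v ∈ p.support, coeff (ex r.1) (monomial v (coeff v p)) *
        coeff (ex t) (monomial (ex r.1) 1 * g) := by
    intro r
    rw [← Finset.sum_mul, ← coeff_sum, ← p.as_sum]
  rw [Finset.sum_congr rfl fun r _ => h1 r, Finset.sum_comm]
  refine Finset.sum_congr rfl fun v hv => ?_
  have hw : Finsupp.weight (bw s) v = c := hp (mem_support_iff.1 hv)
  by_cases hle : v ≤ ex t
  · obtain ⟨r, rfl⟩ := exists_ex_of_le hle
    rw [Finset.sum_eq_single (⟨r, hw⟩ : Blk s c)]
    · simp only [coeff_monomial, if_true, coeff_monomial_mul', hle, one_mul]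
    · intro r' _ hne
      rw [coeff_monomial, if_neg, zero_mul]
      intro h
      exact hne (Subtype.ext (ex_injective h).symm)
    · intro h
      exact absurd (Finset.mem_univ _) h
  · rw [coeff_monomial_mul', if_neg hle]
    symm
    refine Finset.sum_eq_zero fun r _ => ?_
    rw [coeff_monomial]
    split_ifs with h
    · rw [coeff_monomial_mul', if_neg (h ▸ hle), mul_zero]
    · rw [zero_mul]

omit [DecidableEq σ] in
theorem monomial_hom (u : σ → Bool) :
    IsWeightedHomogeneous (bw s) (monomial (ex u) (1 : K)) (bideg s u) :=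
  isWeightedHomogeneous_monomial _ _ _ rfl

theorem bMat_mul {c : ℕ × ℕ} {h : MvPolynomial σ K} (hh : IsWeightedHomogeneous (bw s) h c)
    (g : MvPolynomial σ K) (b b' : ℕ × ℕ) :
    bMat K s b b' (h * g) = bMat K s b (b + c) h * bMat K s (b + c) b' g := by
  ext u t
  have hp : IsWeightedHomogeneous (bw s) (monomial (ex u.1) (1 : K) * h) (b + c) := by
    have := (monomial_hom (K := K) (s := s) u.1).mul hh
    rwa [u.2] at this
  rw [Matrix.mul_apply]
  simp only [bMat, Matrix.of_apply]
  rw [← mul_assoc, coeff_mul_split hp]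

omit [DecidableEq σ] in
theorem bMat_eq_zero {c kk : ℕ × ℕ} {f : MvPolynomial σ K} (hf : IsWeightedHomogeneous (bw s) f c)
    (hne : c ≠ kk) (b : ℕ × ℕ) : bMat K s b (b + kk) f = 0 := by
  ext u t
  have hp : IsWeightedHomogeneous (bw s) (monomial (ex u.1) (1 : K) * f) (b + c) := by
    have := (monomial_hom (K := K) (s := s) u.1).mul hf
    rwa [u.2] at this
  simp only [bMat, Matrix.of_apply, Matrix.zero_apply]
  refine hp.coeff_eq_zero _ fun h => hne ?_
  have h2 : bideg s t.1 = b + c := h
  rw [t.2] at h2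
  exact (add_left_cancel h2).symm

theorem rank_bMat_mul_le {c : ℕ × ℕ} {h : MvPolynomial σ K}
    (hh : IsWeightedHomogeneous (bw s) h c) (g : MvPolynomial σ K) (b b' : ℕ × ℕ) :
    (bMat K s b b' (g * h)).rank ≤ Fintype.card (Blk s (b + c)) := by
  rw [mul_comm g h, bMat_mul hh]
  exact (Matrix.rank_mul_le_left _ _).trans (Matrix.rank_le_card_width _)

theorem rank_bMat_add_le (f g : MvPolynomial σ K) (b b' : ℕ × ℕ) :
    (bMat K s b b' (f + g)).rank ≤ (bMat K s b b' f).rank + (bMat K s b b' g).rank := by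
  rw [bMat_add]
  exact RankBound.matrix_rank_add_le _ _

theorem sum_wtb_card_le {α β : ℝ} (hα : 0 < α) (hβ : 0 < β) (c : ℕ × ℕ) :
    ∑ b ∈ univ.image (bideg s), wtb α β b * (Fintype.card (Blk s (b + c)) : ℝ) ≤
      ztot s α β / wtb α β c := by
  have hc := wtb_pos hα hβ c
  rw [le_div_iff₀ hc, Finset.sum_mul]
  have h1 : ∀ b, wtb α β b * (Fintype.card (Blk s (b + c)) : ℝ) * wtb α β c =
      ∑ t : σ → Bool, if bideg s t = b + c then wtb α β (bideg s t) else 0 := by
    intro b
    rw [Fintype.card_subtype, ← Finset.sum_filter,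
      Finset.sum_congr rfl fun t ht => by rw [(Finset.mem_filter.1 ht).2],
      Finset.sum_const, nsmul_eq_mul, wtb_add]
    ring
  rw [Finset.sum_congr rfl fun b _ => h1 b, Finset.sum_comm, ztot]
  refine Finset.sum_le_sum fun t _ => ?_
  rw [← Finset.sum_filter, Finset.sum_const, nsmul_eq_mul]
  have hcard : ((univ.image (bideg s)).filter fun b => bideg s t = b + c).card ≤ 1 := by
    refine Finset.card_le_one.2 fun a ha a' ha' => ?_
    have h2 := (Finset.mem_filter.1 ha).2
    have h3 := (Finset.mem_filter.1 ha').2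
    exact add_right_cancel (h2.symm.trans h3)
  have hcard' : (((univ.image (bideg s)).filter fun b => bideg s t = b + c).card : ℝ) ≤ 1 := by
    exact_mod_cast hcard
  nlinarith [wtb_pos hα hβ (bideg s t)]

theorem ztot_pos {α β : ℝ} (hα : 0 < α) (hβ : 0 < β) : 0 < ztot s α β :=
  Finset.sum_pos (fun _ _ => wtb_pos hα hβ _) Finset.univ_nonempty

/-- The measure of a cheap polynomial is small. -/
theorem mu_le_of_cheap {α β : ℝ} (hα : 0 < α) (hβ : 0 < β) (k m : ℕ)
    {f : MvPolynomial σ K} {a : ℝ} (hf : Cheap s α β f a) :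
    mu K s α β (k, m) f ≤ ztot s α β * (β ^ m / α ^ k) * a := by
  have hz := ztot_pos (s := s) hα hβ
  induction hf with
  | basic g h p q p' q' hg hh =>
    by_cases hk : (p, q) + (p', q') = (k, m)
    · have hk1 : p + p' = k := congrArg Prod.fst hk
      have hk2 : q + q' = m := congrArg Prod.snd hk
      subst hk1 hk2
      have h1 : mu K s α β (p + p', q + q') (g * h) ≤
          ∑ b ∈ univ.image (bideg s), wtb α β b * (Fintype.card (Blk s (b + (p', q'))) : ℝ) := by
        refine Finset.sum_le_sum fun b _ => mul_le_mul_of_nonneg_left ?_ (wtb_pos hα hβ b).le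
        exact Nat.cast_le.2 (rank_bMat_mul_le hh g b _)
      refine h1.trans ((sum_wtb_card_le hα hβ _).trans_eq ?_)
      unfold wtb
      simp only [pow_add]
      field_simp
      ring
    · have : mu K s α β (k, m) (g * h) = 0 := by
        refine Finset.sum_eq_zero fun b _ => ?_
        rw [bMat_eq_zero (hg.mul hh) hk, Matrix.rank_zero, Nat.cast_zero, mul_zero]
      rw [this]
      positivity
  | zero =>
    simp [mu, bMat_zero]
  | add _ _ ih1 ih2 =>
    rw [mul_add]
    refine le_trans ?_ (add_le_add ih1 ih2)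
    unfold mu
    rw [← Finset.sum_add_distrib]
    refine Finset.sum_le_sum fun b _ => ?_
    rw [← mul_add, ← Nat.cast_add]
    exact mul_le_mul_of_nonneg_left (Nat.cast_le.2 (rank_bMat_add_le _ _ _ _))
      (wtb_pos hα hβ b).le
  | mono _ hab ih => exact ih.trans (mul_le_mul_of_nonneg_left hab (by positivity))

omit [Fintype σ] [DecidableEq σ] in
/-- A matrix with a triangular square submatrix has at least its size as rank. -/
theorem card_le_rank {R C ι γ : Type*} [Fintype R] [Fintype C] [Fintype ι] [LinearOrder γ]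
    (M : Matrix R C K) (r : ι → R) (c : ι → C) (Φ : ι → γ) (hd : ∀ i, M (r i) (c i) ≠ 0)
    (ho : ∀ i j, i ≠ j → M (r i) (c j) ≠ 0 → Φ j < Φ i) : Fintype.card ι ≤ M.rank := by
  classical
  have hli : LinearIndependent K fun i => M (r i) := by
    rw [Fintype.linearIndependent_iff]
    intro g hg
    by_contra hne
    push Not at hne
    obtain ⟨i, hi, hmax⟩ := Finset.exists_max_image (univ.filter fun i => g i ≠ 0) Φ
      (by obtain ⟨i, hi⟩ := hne; exact ⟨i, by simpa using hi⟩)
    have hgi : g i ≠ 0 := (Finset.mem_filter.1 hi).2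
    have h1 := congrFun hg (c i)
    rw [Finset.sum_apply, Finset.sum_eq_single i] at h1
    · simp only [Pi.smul_apply, smul_eq_mul, Pi.zero_apply, mul_eq_zero] at h1
      exact h1.elim hgi (hd i)
    · intro j _ hji
      simp only [Pi.smul_apply, smul_eq_mul, mul_eq_zero]
      by_contra hh
      push Not at hh
      have h2 := ho j i hji hh.2
      have h3 := hmax j (by simpa using hh.1)
      exact absurd h2 (not_lt.2 h3)
    · intro h
      exact absurd (Finset.mem_univ _) h
  rw [Matrix.rank_eq_finrank_span_row]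
  have h2 := finrank_span_eq_card hli
  rw [← h2]
  refine Submodule.finrank_mono (Submodule.span_mono ?_)
  rintro _ ⟨i, rfl⟩
  exact ⟨r i, rfl⟩

/-- Lower bound for the measure from a family of strict leading terms. -/
theorem le_mu {γ : Type*} [LinearOrder γ] {α β : ℝ} (hα : 0 < α) (hβ : 0 < β) (kk : ℕ × ℕ)
    (f : MvPolynomial σ K) (T : Finset (σ → Bool)) (src : (σ → Bool) → σ → Bool)
    (Φ : (σ → Bool) → γ) (hb : ∀ t ∈ T, bideg s t = bideg s (src t) + kk)
    (hd : ∀ t ∈ T, coeff (ex t) (monomial (ex (src t)) 1 * f) ≠ 0)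
    (ho : ∀ t ∈ T, ∀ t' ∈ T, t ≠ t' → coeff (ex t') (monomial (ex (src t)) 1 * f) ≠ 0 →
      Φ t' < Φ t) :
    (∑ t ∈ T, wtb α β (bideg s t)) / wtb α β kk ≤ mu K s α β kk f := by
  classical
  have hk := wtb_pos hα hβ kk
  have h1 : (∑ t ∈ T, wtb α β (bideg s t)) / wtb α β kk = ∑ t ∈ T, wtb α β (bideg s (src t)) := by
    rw [Finset.sum_div]
    refine Finset.sum_congr rfl fun t ht => ?_
    rw [hb t ht, wtb_add, mul_div_cancel_right₀ _ hk.ne']
  rw [h1, ← Finset.sum_fiberwise_of_maps_to (s := T) (t := univ.image (bideg s))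
    (g := fun t => bideg s (src t)) (fun t _ => Finset.mem_image_of_mem _ (Finset.mem_univ _))]
  refine Finset.sum_le_sum fun b _ => ?_
  rw [Finset.sum_congr rfl fun t ht => by rw [(Finset.mem_filter.1 ht).2], Finset.sum_const,
    nsmul_eq_mul, mul_comm]
  refine mul_le_mul_of_nonneg_left ?_ (wtb_pos hα hβ b).le
  have h2 := card_le_rank (ι := {t // t ∈ T.filter fun t => bideg s (src t) = b})
    (bMat K s b (b + kk) f) (fun t => ⟨src t.1, (Finset.mem_filter.1 t.2).2⟩)
    (fun t => ⟨t.1, by rw [hb t.1 (Finset.mem_filter.1 t.2).1, (Finset.mem_filter.1 t.2).2]⟩)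
    (fun t => Φ t.1) (fun t => hd t.1 (Finset.mem_filter.1 t.2).1)
    (fun t t' hne h => ho t.1 (Finset.mem_filter.1 t.2).1 t'.1 (Finset.mem_filter.1 t'.2).1
      (fun h' => hne (Subtype.ext h')) h)
  rw [Fintype.card_coe] at h2
  exact_mod_cast h2

end Vale.Agent.N346.AF
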