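import Vale.Agent.N346.AFProcess

/-!
# P346, all fields: the survival estimate for the adaptive process
-/

namespace Vale.Agent.N346.AF

open Finset

section Real

theorem geom_lower {lam γ : ℝ} (hl : 0 < lam) (h0 : 0 ≤ γ) (h1 : γ ≤ 1) (L : ℕ) :
    (1 - (lam / (1 + lam)) ^ L) / (1 + lam * γ) * (lam * γ) ≤
      ∑ i ∈ range L, γ * (1 - γ) ^ i * (lam / (1 + lam)) ^ (i + 1) := by
  set r := lam / (1 + lam) with hr
  have hr0 : 0 ≤ r := by positivity
  have hpos : 0 < 1 + lam * γ := by positivity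
  have h2 : (∑ i ∈ range L, γ * (1 - γ) ^ i * r ^ (i + 1)) * (1 + lam * γ) =
      (1 - ((1 - γ) * r) ^ L) * (lam * γ) := by
    induction L with
    | zero => simp
    | succ L ih =>
      rw [Finset.sum_range_succ, add_mul, ih, pow_succ ((1 - γ) * r), mul_pow, pow_succ r]
      have h3 : r * (1 + lam) = lam := by rw [hr]; field_simp
      have h4 : r * (1 + lam * γ) = lam * (1 - (1 - γ) * r) := by
        linear_combination h3
      linear_combination (γ * (1 - γ) ^ L * r ^ L) * h4
  rw [div_mul_eq_mul_div, div_le_iff₀ hpos, h2]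
  refine mul_le_mul_of_nonneg_right ?_ (by positivity)
  have : ((1 - γ) * r) ^ L ≤ r ^ L :=
    pow_le_pow_left₀ (mul_nonneg (by linarith) hr0) (by nlinarith) L
  linarith

theorem concave_pow {κ g : ℝ} (hκ0 : 0 ≤ κ) (hκ1 : κ ≤ 1) (hg0 : 0 ≤ g) (hg1 : g ≤ 1) (n : ℕ) :
    κ * (1 - (1 - g) ^ n) ≤ 1 - (1 - κ * g) ^ n := by
  induction n with
  | zero => simp
  | succ n ih =>
    have h1 : (1 - g) ^ n ≤ (1 - κ * g) ^ n := pow_le_pow_left₀ (by linarith) (by nlinarith) n
    have h2 : κ * g * (1 - g) ^ n ≤ κ * g * (1 - κ * g) ^ n :=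
      mul_le_mul_of_nonneg_left h1 (by positivity)
    rw [pow_succ, pow_succ]
    nlinarith

theorem cap_pow {g : ℝ} (hg0 : 0 ≤ g) (hg1 : g ≤ 1) (n K : ℕ) :
    (1 - (1 - g) ^ K) * (1 - (1 - g) ^ n) ≤ 1 - (1 - g) ^ min n K := by
  have h1 : ∀ m : ℕ, 0 ≤ (1 - g) ^ m := fun m => pow_nonneg (by linarith) m
  have h2 : ∀ m : ℕ, (1 - g) ^ m ≤ 1 := fun m => pow_le_one₀ (by linarith) (by linarith)
  rcases le_total n K with h | h
  · rw [min_eq_left h]
    nlinarith [h1 n, h2 n, h1 K, h2 K]
  · rw [min_eq_right h]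
    nlinarith [h1 n, h2 n, h1 K, h2 K]

end Real

/-- Bernoulli weights. -/
noncomputable def bern (r : ℝ) (x : Bool) : ℝ := if x = true then r else 1 - r

theorem bern_nonneg {r : ℝ} (h0 : 0 ≤ r) (h1 : r ≤ 1) (x : Bool) : 0 ≤ bern r x := by
  unfold bern
  split_ifs <;> linarith

theorem sum_bern (r : ℝ) : ∑ x, bern r x = 1 := by
  simp [bern]

theorem sum_fun_prod {ι κ : Type*} [Fintype ι] [DecidableEq ι] [Fintype κ] (f : ι → κ → ℝ) :
    ∑ x : ι → κ, ∏ i, f i (x i) = ∏ i, ∑ y, f i y := by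
  rw [Finset.prod_univ_sum, Fintype.piFinset_univ]

variable {w : ℕ}

/-- Product weight of a row. -/
noncomputable def prow (r : ℝ) (row : Fin w → Bool) : ℝ := ∏ b, bern r (row b)

/-- Product weight of a layer. -/
noncomputable def play (r : ℝ) (u : Fin w → Fin w → Bool) : ℝ := ∏ a, prow r (u a)

theorem prow_nonneg {r : ℝ} (h0 : 0 ≤ r) (h1 : r ≤ 1) (row : Fin w → Bool) : 0 ≤ prow r row :=
  Finset.prod_nonneg fun _ _ => bern_nonneg h0 h1 _

theorem play_nonneg {r : ℝ} (h0 : 0 ≤ r) (h1 : r ≤ 1) (u : Fin w → Fin w → Bool) : 0 ≤ play r u :=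
  Finset.prod_nonneg fun _ _ => prow_nonneg h0 h1 _

theorem sum_prow (r : ℝ) : ∑ row : Fin w → Bool, prow r row = 1 := by
  unfold prow
  rw [sum_fun_prod fun _ x => bern r x]
  simp only [sum_bern, Finset.prod_const_one]

theorem sum_play (r : ℝ) : ∑ u : Fin w → Fin w → Bool, play r u = 1 := by
  unfold play
  rw [sum_fun_prod fun _ x => prow r x]
  simp [sum_prow]

open Classical in
theorem sum_prow_all {r : ℝ} (S : Finset (Fin w)) :
    ∑ row : Fin w → Bool, prow r row * (if ∀ b ∈ S, row b = true then 1 else 0) = r ^ S.card := by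
  have h1 : ∀ row : Fin w → Bool, prow r row * (if ∀ b ∈ S, row b = true then 1 else 0) =
      ∏ b, (bern r (row b) * if b ∈ S then (if row b = true then 1 else 0) else 1) := by
    intro row
    rw [Finset.prod_mul_distrib, Finset.prod_ite_mem, Finset.univ_inter, Finset.prod_boole]
    unfold prow
    congr
  rw [Finset.sum_congr rfl fun row _ => h1 row,
    sum_fun_prod fun b x => bern r x * if b ∈ S then (if x = true then 1 else 0) else 1]
  have h2 : ∀ b : Fin w, ∑ x, (bern r x * if b ∈ S then (if x = true then 1 else 0) else 1) =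
      if b ∈ S then r else 1 := by
    intro b
    by_cases hb : b ∈ S
    · simp [bern, hb]
    · simp [bern, hb]
  rw [Finset.prod_congr rfl fun b _ => h2 b, Finset.prod_ite_mem, Finset.univ_inter,
    Finset.prod_const]

open Classical in
theorem sum_prow_ind {r : ℝ} (h0 : 0 ≤ r) (h1 : r ≤ 1) (o i : ℕ) :
    r ^ (i + 1) ≤ ∑ row : Fin w → Bool, prow r row * (if ind row o i then 1 else 0) := by
  have h2 := sum_prow_all (r := r) (univ.filter fun b : Fin w => o ≤ b.val ∧ b.val ≤ o + i)
  have h3 : ∀ row : Fin w → Bool, ind row o i ↔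
      ∀ b ∈ (univ.filter fun b : Fin w => o ≤ b.val ∧ b.val ≤ o + i), row b = true := by
    intro row
    simp [ind]
  simp only [h3]
  rw [h2]
  refine pow_le_pow_of_le_one h0 h1 ?_
  have h4 : (univ.filter fun b : Fin w => o ≤ b.val ∧ b.val ≤ o + i).card ≤ (Icc o (o + i)).card :=
    Finset.card_le_card_of_injOn (fun b => b.val) (fun b hb => by simpa using hb)
      (fun b _ b' _ e => Fin.ext e)
  rw [Nat.card_Icc] at h4
  omega

open Classical in
/-- The length of the initial full run in a window. -/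
noncomputable def runLen (row : Fin w → Bool) (o L : ℕ) : ℕ := ((range L).filter (ind row o)).card

theorem ind_mono {row : Fin w → Bool} {o i i' : ℕ} (h : ind row o i) (hi : i' ≤ i) : ind row o i' :=
  fun b h1 h2 => h b h1 (by omega)

open Classical in
theorem one_sub_pow_runLen (θ : ℝ) (row : Fin w → Bool) (o L : ℕ) :
    1 - θ ^ runLen row o L = ∑ i ∈ range L, (1 - θ) * θ ^ i * (if ind row o i then 1 else 0) := by
  induction L with
  | zero => simp [runLen]
  | succ L ih =>
    rw [Finset.sum_range_succ, ← ih]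
    by_cases h : ind row o L
    · have h1 : runLen row o L = L := by
        rw [runLen, Finset.filter_true_of_mem fun i hi =>
          ind_mono h (Finset.mem_range.1 hi).le, Finset.card_range]
      have h2 : runLen row o (L + 1) = L + 1 := by
        rw [runLen, Finset.filter_true_of_mem fun i hi =>
          ind_mono h (Nat.lt_succ_iff.1 (Finset.mem_range.1 hi)), Finset.card_range]
      rw [h1, h2, if_pos h]
      ring
    · have h1 : runLen row o (L + 1) = runLen row o L := by
        rw [runLen, runLen, Finset.range_add_one, Finset.filter_insert, if_neg h]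
      rw [h1, if_neg h]
      ring

theorem sum_prow_runLen {r γ : ℝ} (h0 : 0 ≤ r) (h1 : r ≤ 1) (hγ0 : 0 ≤ γ) (hγ1 : γ ≤ 1)
    (o L : ℕ) : ∑ row : Fin w → Bool, prow r row * (1 - γ) ^ runLen row o L ≤
      1 - ∑ i ∈ range L, γ * (1 - γ) ^ i * r ^ (i + 1) := by
  classical
  have h2 : ∀ row : Fin w → Bool, prow r row * (1 - γ) ^ runLen row o L = prow r row -
      ∑ i ∈ range L, γ * (1 - γ) ^ i * (prow r row * if ind row o i then 1 else 0) := by
    intro row
    have h3 := one_sub_pow_runLen (1 - γ) row o L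
    have h4 : (1 - γ) ^ runLen row o L = 1 -
        ∑ i ∈ range L, (1 - (1 - γ)) * (1 - γ) ^ i * (if ind row o i then 1 else 0) := by
      linarith
    rw [h4, mul_sub, mul_one, Finset.mul_sum]
    congr 1
    refine Finset.sum_congr rfl fun i _ => ?_
    ring
  rw [Finset.sum_congr rfl fun row _ => h2 row, Finset.sum_sub_distrib, sum_prow,
    Finset.sum_comm]
  refine sub_le_sub_left (Finset.sum_le_sum fun i _ => ?_) _
  rw [← Finset.mul_sum]
  exact mul_le_mul_of_nonneg_left (sum_prow_ind h0 h1 o i)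
    (mul_nonneg hγ0 (pow_nonneg (by linarith) _))

variable [NeZero w] {K L d j : ℕ}

theorem card_step_ge (hKL : K * L ≤ w) (hj : j + 1 ≠ d) (A : Finset (Fin w))
    (u : Fin w → Fin w → Bool) :
    ∑ a ∈ sub K A, runLen (u a) (lab K A a * L) L ≤ (step K L d j A u).card := by
  classical
  have hlt : ∀ a ∈ sub K A, ∀ i < L, lab K A a * L + i < w := by
    intro a ha i hi
    have h1 := lab_lt ha
    have h2 : (lab K A a + 1) * L ≤ K * L := Nat.mul_le_mul_right L h1
    rw [add_mul, one_mul] at h2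
    omega
  simp only [runLen]
  rw [← Finset.card_sigma]
  refine Finset.card_le_card_of_injOn
    (fun x => Fin.ofNat w (lab K A x.1 * L + x.2)) (fun x hx => ?_) (fun x hx y hy e => ?_)
  · obtain ⟨h1, h2⟩ := Finset.mem_sigma.1 (Finset.mem_coe.1 hx)
    obtain ⟨h3, h4⟩ := Finset.mem_filter.1 h2
    have h5 := Finset.mem_range.1 h3
    rw [Finset.mem_coe, mem_step]
    refine ⟨x.1, ?_⟩
    unfold ch
    rw [if_neg hj]
    exact ⟨h1, x.2, h5, Nat.mod_eq_of_lt (hlt _ h1 _ h5), h4⟩
  · obtain ⟨h1, h2⟩ := Finset.mem_sigma.1 (Finset.mem_coe.1 hx)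
    obtain ⟨h1', h2'⟩ := Finset.mem_sigma.1 (Finset.mem_coe.1 hy)
    have h5 := Finset.mem_range.1 (Finset.mem_filter.1 h2).1
    have h5' := Finset.mem_range.1 (Finset.mem_filter.1 h2').1
    have e1 := congrArg Fin.val e
    simp only [Fin.ofNat] at e1
    rw [Nat.mod_eq_of_lt (hlt _ h1 _ h5), Nat.mod_eq_of_lt (hlt _ h1' _ h5')] at e1
    have hL : 0 < L := by omega
    have e2 : lab K A x.1 = lab K A y.1 := by
      have := congrArg (· / L) e1
      simp only [mul_comm _ L] at this
      rwa [Nat.mul_add_div hL, Nat.mul_add_div hL, Nat.div_eq_of_lt h5, Nat.div_eq_of_lt h5',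
        add_zero, add_zero] at this
    have e3 : x.1 = y.1 := lab_inj h1 h1' e2
    rw [e2] at e1
    exact Sigma.ext e3 (heq_of_eq (by omega))

theorem sum_play_step (hKL : K * L ≤ w) (hj : j + 1 ≠ d) (A : Finset (Fin w)) {r γ γ' : ℝ}
    (h0 : 0 ≤ r) (h1 : r ≤ 1) (hγ0 : 0 ≤ γ) (hγ1 : γ ≤ 1)
    (hγ' : γ' ≤ ∑ i ∈ range L, γ * (1 - γ) ^ i * r ^ (i + 1)) :
    ∑ u : Fin w → Fin w → Bool, play r u * (1 - γ) ^ (step K L d j A u).card ≤
      (1 - γ') ^ min A.card K := by
  classical
  have h2 : ∀ u : Fin w → Fin w → Bool, play r u * (1 - γ) ^ (step K L d j A u).card ≤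
      ∏ a, (prow r (u a) * if a ∈ sub K A then (1 - γ) ^ runLen (u a) (lab K A a * L) L else 1) := by
    intro u
    rw [Finset.prod_mul_distrib, Finset.prod_ite_mem, Finset.univ_inter, Finset.prod_pow_eq_pow_sum]
    exact mul_le_mul_of_nonneg_left
      (pow_le_pow_of_le_one (by linarith) (by linarith) (card_step_ge hKL hj A u))
      (play_nonneg h0 h1 u)
  refine (Finset.sum_le_sum fun u _ => h2 u).trans ?_
  rw [sum_fun_prod fun a (row : Fin w → Bool) => prow r row *
    if a ∈ sub K A then (1 - γ) ^ runLen row (lab K A a * L) L else 1]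
  have h3 : ∏ a : Fin w, (if a ∈ sub K A then (1 - γ') else 1) = (1 - γ') ^ min A.card K := by
    rw [Finset.prod_ite_mem, Finset.univ_inter, Finset.prod_const, card_sub]
  rw [← h3]
  refine Finset.prod_le_prod (fun a _ => Finset.sum_nonneg fun row _ => ?_) fun a _ => ?_
  · refine mul_nonneg (prow_nonneg h0 h1 _) ?_
    split_ifs
    · exact pow_nonneg (by linarith) _
    · exact zero_le_one
  · split_ifs
    · exact (sum_prow_runLen h0 h1 hγ0 hγ1 _ _).trans (by linarith)
    · simp [sum_prow]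

/-- One generic step of the potential argument. -/
theorem step_potential (hKL : K * L ≤ w) (hj : j + 1 ≠ d) (A : Finset (Fin w)) {lam γ η G : ℝ}
    (hl : 0 < lam) (hγ0 : 0 ≤ γ) (hγ1 : γ ≤ 1) (hg1 : lam * γ ≤ G) (hG : G ≤ 1) (hη : η ≤ 1)
    (hL : (lam / (1 + lam)) ^ L ≤ η) (hK : (1 - lam * γ) ^ K ≤ η) :
    (1 - η) ^ 2 / (1 + G) * (1 - (1 - lam * γ) ^ A.card) ≤
      ∑ u : Fin w → Fin w → Bool, play (lam / (1 + lam)) u *
        (1 - (1 - γ) ^ (step K L d j A u).card) := by
  have hr0 : 0 ≤ lam / (1 + lam) := by positivity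
  have hr1 : lam / (1 + lam) ≤ 1 := (div_le_one (by positivity)).2 (by linarith)
  have hg0 : 0 ≤ lam * γ := by positivity
  have h1 := sum_play_step hKL hj A hr0 hr1 hγ0 hγ1 (geom_lower hl hγ0 hγ1 L)
  simp only [mul_sub, mul_one]
  rw [Finset.sum_sub_distrib, sum_play]
  set κ := (1 - (lam / (1 + lam)) ^ L) / (1 + lam * γ) with hκ
  have hrL : 0 ≤ (lam / (1 + lam)) ^ L := by positivity
  have hκ1 : κ ≤ 1 := (div_le_one (by positivity)).2 (by linarith)
  have hκ2 : (1 - η) / (1 + G) ≤ κ :=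
    div_le_div₀ (by linarith) (by linarith) (by positivity) (by linarith)
  have hκ3 : 0 ≤ (1 - η) / (1 + G) := div_nonneg (by linarith) (by linarith)
  have h2 := concave_pow (hκ3.trans hκ2) hκ1 hg0 (by linarith) (min A.card K)
  have h3 := cap_pow hg0 (by linarith : lam * γ ≤ 1) A.card K
  have h4 : 0 ≤ 1 - (1 - lam * γ) ^ A.card := by
    have := pow_le_one₀ (n := A.card) (by linarith : 0 ≤ 1 - lam * γ) (by linarith)
    linarith
  have h5 : (1 - η) * (1 - (1 - lam * γ) ^ A.card) ≤ 1 - (1 - lam * γ) ^ min A.card K :=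
    (mul_le_mul_of_nonneg_right (by linarith) h4).trans h3
  have h6 : (1 - η) / (1 + G) * ((1 - η) * (1 - (1 - lam * γ) ^ A.card)) ≤
      κ * (1 - (1 - lam * γ) ^ min A.card K) :=
    mul_le_mul hκ2 h5 (mul_nonneg (by linarith) h4) (hκ3.trans hκ2)
  have h7 : (1 - η) ^ 2 / (1 + G) - (1 - η) ^ 2 / (1 + G) * (1 - lam * γ) ^ A.card =
      (1 - η) / (1 + G) * ((1 - η) * (1 - (1 - lam * γ) ^ A.card)) := by ring
  rw [h7]
  linarith

open Classical in
/-- The last step. -/
theorem step_last (hj : j + 1 = d) (A : Finset (Fin w)) {r g : ℝ} (h0 : 0 ≤ r) (h1 : r ≤ 1)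
    (hg1 : g ≤ 1) :
    r * (1 - (1 - g) ^ A.card) ≤ ∑ u : Fin w → Fin w → Bool, play r u *
      (if (0 : Fin w) ∈ step K L d j A u then 1 else 0) := by
  rcases A.eq_empty_or_nonempty with rfl | ⟨a, ha⟩
  · simp only [Finset.card_empty, pow_zero, sub_self, mul_zero]
    exact Finset.sum_nonneg fun u _ => mul_nonneg (play_nonneg h0 h1 u) (by split_ifs <;> simp)
  · have h2 : ∀ u : Fin w → Fin w → Bool,
        ∏ a', (prow r (u a') * if a' = a then
          (if ∀ b ∈ ({0} : Finset (Fin w)), u a' b = true then 1 else 0) else 1) ≤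
        play r u * (if (0 : Fin w) ∈ step K L d j A u then 1 else 0) := by
      intro u
      rw [Finset.prod_mul_distrib, Finset.prod_ite_eq', if_pos (Finset.mem_univ _)]
      refine mul_le_mul_of_nonneg_left ?_ (play_nonneg h0 h1 u)
      split_ifs with h3 h4
      · exact le_rfl
      · refine absurd (mem_step.2 ⟨a, ?_⟩) h4
        unfold ch
        rw [if_pos hj]
        exact ⟨ha, rfl, h3 0 (Finset.mem_singleton_self _)⟩
      · exact zero_le_one
      · exact le_rfl
    refine le_trans ?_ (Finset.sum_le_sum fun u _ => h2 u)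
    rw [sum_fun_prod fun a' (row : Fin w → Bool) => prow r row * if a' = a then
      (if ∀ b ∈ ({0} : Finset (Fin w)), row b = true then 1 else 0) else 1]
    have h3 : ∀ a' : Fin w, ∑ row : Fin w → Bool, (prow r row * if a' = a then
        (if ∀ b ∈ ({0} : Finset (Fin w)), row b = true then 1 else 0) else 1) =
        if a' = a then r else 1 := by
      intro a'
      split_ifs
      · rw [sum_prow_all, Finset.card_singleton, pow_one]
      · simp [sum_prow]
    rw [Finset.prod_congr rfl fun a' _ => h3 a', Finset.prod_ite_eq', if_pos (Finset.mem_univ _)]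
    have := pow_nonneg (by linarith : 0 ≤ 1 - g) A.card
    nlinarith

/-- The weight of a variable in layer `j`. -/
noncomputable def lamb (word : ℕ → Bool) (α β : ℝ) (j : ℕ) : ℝ :=
  if word j = true then α ^ 2 else (β ^ 2)⁻¹

omit [NeZero w] in
theorem wtb_bideg (word : ℕ → Bool) {α β : ℝ} (t : Var w d → Bool) :
    wtb α β (bideg (wordMark word w d) t) =
      ∏ x : Var w d, if t x = true then lamb word α β x.1 else 1 := by
  have h1 : ∀ (s : Finset (Var w d)) (f : Var w d → ℕ × ℕ),
      wtb α β (∑ x ∈ s, f x) = ∏ x ∈ s, wtb α β (f x) := by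
    intro s f
    induction s using Finset.induction_on with
    | empty => simp [wtb]
    | insert x s hx ih => rw [Finset.sum_insert hx, Finset.prod_insert hx, wtb_add, ih]
  rw [bideg, Finsupp.weight_apply, Finsupp.sum_fintype _ _ (by simp), h1]
  refine Finset.prod_congr rfl fun x _ => ?_
  rw [ex_apply]
  cases t x
  · simp [wtb]
  · simp only [Bool.toNat_true, one_smul, bw, wordMark, lamb, if_true]
    by_cases h : word x.1 = true <;> simp [wtb, h]

omit [NeZero w] in
theorem ztot_eq (word : ℕ → Bool) {α β : ℝ} :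
    ztot (wordMark word w d) α β = ∏ x : Var w d, (1 + lamb word α β x.1) := by
  unfold ztot
  simp only [wtb_bideg]
  rw [sum_fun_prod fun (x : Var w d) (y : Bool) => if y = true then lamb word α β x.1 else 1]
  refine Finset.prod_congr rfl fun x _ => ?_
  simp [add_comm]

omit [NeZero w] in
theorem wtb_eq_play (word : ℕ → Bool) {α β : ℝ} (hl : ∀ j, 0 < lamb word α β j)
    (t : Var w d → Bool) :
    wtb α β (bideg (wordMark word w d) t) = ztot (wordMark word w d) α β *
      ∏ j : Fin d, play (lamb word α β j / (1 + lamb word α β j)) (cur t j) := by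
  rw [wtb_bideg, ztot_eq]
  have h1 : ∏ j : Fin d, play (lamb word α β j / (1 + lamb word α β j)) (cur t j) =
      ∏ x : Var w d, bern (lamb word α β x.1 / (1 + lamb word α β x.1)) (t x) := by
    rw [Fintype.prod_prod_type]
    refine Finset.prod_congr rfl fun j _ => ?_
    rw [Fintype.prod_prod_type]
    rfl
  rw [h1, ← Finset.prod_mul_distrib]
  refine Finset.prod_congr rfl fun x _ => ?_
  have := hl x.1
  unfold bern
  split_ifs
  · field_simp
  · field_simp
    ring

/-- States as sequences of layers. -/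
def curEquiv (w d : ℕ) : (Var w d → Bool) ≃ (Fin d → Fin w → Fin w → Bool) where
  toFun := cur
  invFun T := fun x => T x.1 x.2.1 x.2.2
  left_inv _ := rfl
  right_inv _ := rfl

open Classical in
/-- **Survival estimate.** -/
theorem survive_ge (word : ℕ → Bool) {α β γ0 η : ℝ} (hβ : 1 ≤ β) (hαβ : β ≤ α)
    (hω : ∀ i, β⁻¹ ≤ omega word α β i ∧ omega word α β i ≤ α) (hd : 1 ≤ d) (hKL : K * L ≤ w)
    (hγ0 : 0 < γ0) (hγ1 : γ0 * β ^ 2 ≤ 1) (hη0 : 0 ≤ η) (hη : η ≤ 1)
    (hL : (α ^ 2 / (1 + α ^ 2)) ^ L ≤ η) (hK : (1 - γ0 / α ^ 2) ^ K ≤ η) :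
    ztot (wordMark word w d) α β *
        (((1 - η) ^ 2 / (1 + γ0 * β ^ 2)) ^ d * (1 / (1 + β ^ 2)) * γ0) ≤
      ∑ t ∈ univ.filter (fun t : Var w d → Bool => (0 : Fin w) ∈ alive K L t d),
        wtb α β (bideg (wordMark word w d) t) := by
  have hβ0 : 0 < β := by linarith
  have hα0 : 0 < α := by linarith
  have hl : ∀ j, 0 < lamb word α β j := by
    intro j
    unfold lamb
    split_ifs <;> positivity
  have hβ2 : 1 ≤ β ^ 2 := one_le_pow₀ hβ
  have hα2 : β ^ 2 ≤ α ^ 2 := pow_le_pow_left₀ hβ0.le hαβ 2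
  have hl2 : ∀ j, (β ^ 2)⁻¹ ≤ lamb word α β j ∧ lamb word α β j ≤ α ^ 2 := by
    intro j
    have : (β ^ 2)⁻¹ ≤ 1 := inv_le_one_of_one_le₀ hβ2
    unfold lamb
    split_ifs <;> constructor <;> linarith
  have hω0 : ∀ i, 0 < omega word α β i := fun i => lt_of_lt_of_le (inv_pos.2 hβ0) (hω i).1
  set γ : ℕ → ℝ := fun j => γ0 / omega word α β j ^ 2 with hγ
  have hγl : ∀ j, lamb word α β j * γ (j + 1) = γ j := by
    intro j
    have h1 : omega word α β (j + 1) ^ 2 = omega word α β j ^ 2 * lamb word α β j := by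
      unfold omega lamb
      rw [Finset.prod_range_succ, mul_pow]
      split_ifs
      · rfl
      · rw [inv_pow]
    simp only [hγ]
    rw [h1]
    have := hl j
    have := hω0 j
    field_simp
  have hγb : ∀ j, γ0 / α ^ 2 ≤ γ j ∧ γ j ≤ γ0 * β ^ 2 := by
    intro j
    constructor
    · exact div_le_div_of_nonneg_left hγ0.le (pow_pos (hω0 j) 2)
        (pow_le_pow_left₀ (hω0 j).le (hω j).2 2)
    · have h1 : (β⁻¹) ^ 2 ≤ omega word α β j ^ 2 :=
        pow_le_pow_left₀ (inv_pos.2 hβ0).le (hω j).1 2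
      refine (div_le_div_of_nonneg_left hγ0.le (by positivity) h1).trans_eq ?_
      field_simp
  have hγpos : ∀ j, 0 ≤ γ j := fun j => le_trans (by positivity) (hγb j).1
  set c0 := (1 - η) ^ 2 / (1 + γ0 * β ^ 2) with hc0
  have hc00 : 0 ≤ c0 := by positivity
  have hc01 : c0 ≤ 1 := by
    refine (div_le_one (by positivity)).2 ?_
    have : 0 ≤ γ0 * β ^ 2 := by positivity
    nlinarith
  have hr0 : ∀ j, 0 ≤ lamb word α β j / (1 + lamb word α β j) := fun j => by
    have := hl j
    positivity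
  have hr1 : ∀ j, lamb word α β j / (1 + lamb word α β j) ≤ α ^ 2 / (1 + α ^ 2) := fun j => by
    have := hl j
    rw [div_le_div_iff₀ (by positivity) (by positivity)]
    nlinarith [(hl2 j).2]
  have hr2 : ∀ j, 1 / (1 + β ^ 2) ≤ lamb word α β j / (1 + lamb word α β j) := fun j => by
    have := hl j
    rw [div_le_div_iff₀ (by positivity) (by positivity)]
    have h2 : 1 ≤ lamb word α β j * β ^ 2 := by
      have := mul_le_mul_of_nonneg_right (hl2 j).1 (by positivity : 0 ≤ β ^ 2)
      rwa [inv_mul_cancel₀ (by positivity)] at this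
    nlinarith
  have hr3 : α ^ 2 / (1 + α ^ 2) ≤ 1 := (div_le_one (by positivity)).2 (by linarith)
  have main := run_sum_ge (step (w := w) K L d) {0}
    (fun j u => play (lamb word α β j / (1 + lamb word α β j)) u)
    (fun j A => if j = d then (if (0 : Fin w) ∈ A then 1 else 0) else 1 - (1 - γ j) ^ A.card)
    (fun j => if j + 1 = d then 1 / (1 + β ^ 2) else c0)
    (fun j u => play_nonneg (hr0 j) ((hr1 j).trans hr3) u)
    (fun j => by split_ifs <;> positivity) d (fun j hj A => by
      have hj' : j ≠ d := by omega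
      simp only [if_neg hj']
      by_cases h : j + 1 = d
      · simp only [if_pos h]
        refine le_trans ?_ (step_last (g := γ j) h A (hr0 j) ((hr1 j).trans hr3)
          ((hγb j).2.trans hγ1))
        refine mul_le_mul_of_nonneg_right (hr2 j) ?_
        have := pow_le_one₀ (n := A.card) (by linarith [(hγb j).2] : 0 ≤ 1 - γ j)
          (by linarith [hγpos j])
        linarith
      · simp only [if_neg h]
        rw [← hγl j]
        refine step_potential hKL h A (hl j) (hγpos _) ((hγb _).2.trans hγ1)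
          (by rw [hγl j]; exact (hγb j).2) hγ1 hη
          ((pow_le_pow_left₀ (hr0 j) (hr1 j) L).trans hL) ?_
        rw [hγl j]
        exact (pow_le_pow_left₀ (by linarith [(hγb j).2]) (by linarith [(hγb j).1]) K).trans hK)
  have hd0 : (0 : ℕ) ≠ d := by omega
  simp only [if_neg hd0, if_true, Finset.card_singleton, pow_one, sub_sub_cancel] at main
  have hγz : γ 0 = γ0 := by simp [hγ, omega]
  rw [hγz] at main
  have hprod : c0 ^ d * (1 / (1 + β ^ 2)) ≤
      ∏ j ∈ range d, (if j + 1 = d then 1 / (1 + β ^ 2) else c0) := by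
    obtain ⟨e, rfl⟩ : ∃ e, d = e + 1 := ⟨d - 1, by omega⟩
    rw [Finset.prod_range_succ, if_pos rfl, Finset.prod_congr rfl fun j hj =>
      if_neg (by have := Finset.mem_range.1 hj; omega), Finset.prod_const, Finset.card_range]
    exact mul_le_mul_of_nonneg_right (pow_le_pow_of_le_one hc00 hc01 (by omega)) (by positivity)
  have hz := ztot_pos (s := wordMark word w d) hα0 hβ0
  refine (mul_le_mul_of_nonneg_left
    ((mul_le_mul_of_nonneg_right hprod hγ0.le).trans main) hz.le).trans_eq ?_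
  rw [← (curEquiv w d).sum_comp, Finset.mul_sum, Finset.sum_filter]
  refine Finset.sum_congr rfl fun t _ => ?_
  rw [wtb_eq_play word hl t]
  show _ * ((∏ j : Fin d, play _ (cur t j)) * if (0 : Fin w) ∈ alive K L t d then 1 else 0) = _
  split_ifs <;> simp

/-- The cost of `IMM` is bounded below over every field. -/
theorem cost_ge (F : Type*) [Field F] (word : ℕ → Bool) {α β γ0 η a : ℝ} (hβ : 1 ≤ β)
    (hαβ : β ≤ α) (hω : ∀ i, β⁻¹ ≤ omega word α β i ∧ omega word α β i ≤ α) (hd : 1 ≤ d)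
    (hKL : K * L ≤ w) (hγ0 : 0 < γ0) (hγ1 : γ0 * β ^ 2 ≤ 1) (hη0 : 0 ≤ η) (hη : η ≤ 1)
    (hL : (α ^ 2 / (1 + α ^ 2)) ^ L ≤ η) (hK : (1 - γ0 / α ^ 2) ^ K ≤ η)
    (hf : Cheap (wordMark word w d) α β (IMM F w d) a) :
    ((1 - η) ^ 2 / (1 + γ0 * β ^ 2)) ^ d * (1 / (1 + β ^ 2)) * γ0 ≤ α * a := by
  have hβ0 : 0 < β := by linarith
  have hα0 : 0 < α := by linarith
  have h1 := (survive_ge word hβ hαβ hω hd hKL hγ0 hγ1 hη0 hη hL hK).trans
    (survive_le F word hα0 hβ0 hf K L)
  have h2 := le_of_mul_le_mul_left h1 (ztot_pos hα0 hβ0)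
  exact h2.trans (mul_le_mul_of_nonneg_right (hω d).2 (hf.nonneg hα0 hβ0))

end Vale.Agent.N346.AF
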