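import Vale.Agent.N346.Defs

/-!
# P346: path expansion of matrix products and of `IMM`
-/

namespace Vale.Agent.N346

open MvPolynomial Finset

universe u

/-- Paths `0, ..., d` in `W` from `i` to `j`. -/
def paths (W : Type*) [Fintype W] [DecidableEq W] (d : ℕ) (i j : W) :
    Finset (Fin (d + 1) → W) :=
  Finset.univ.filter fun P => P 0 = i ∧ P (Fin.last d) = j

theorem mem_paths {W : Type*} [Fintype W] [DecidableEq W] {d : ℕ} {i j : W}
    {P : Fin (d + 1) → W} : P ∈ paths W d i j ↔ P 0 = i ∧ P (Fin.last d) = j := by
  simp [paths]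

/-- An entry of an ordered product of matrices is the sum over paths of the products of the
entries along the path. -/
theorem prod_ofFn_apply {R W : Type*} [CommSemiring R] [Fintype W] [DecidableEq W] :
    ∀ (d : ℕ) (A : Fin d → Matrix W W R) (i j : W),
      (List.ofFn A).prod i j = ∑ P ∈ paths W d i j, ∏ t, A t (P t.castSucc) (P t.succ)
  | 0, A, i, j => by
      classical
      simp only [List.ofFn_zero, List.prod_nil, Finset.univ_eq_empty, Finset.prod_empty, paths]
      rw [Finset.sum_filter, Matrix.one_apply]
      rw [← (Equiv.funUnique (Fin 1) W).symm.sum_comp]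
      by_cases h : i = j
      · subst h
        simp
      · rw [if_neg h]
        symm
        apply Finset.sum_eq_zero
        intro x _
        rw [if_neg]
        rintro ⟨h1, h2⟩
        exact h (h1.symm.trans h2)
  | d + 1, A, i, j => by
      classical
      rw [List.ofFn_succ, List.prod_cons, Matrix.mul_apply]
      simp only [prod_ofFn_apply d (fun t => A t.succ)]
      simp only [paths, Finset.sum_filter]
      rw [← (Fin.consEquiv (fun _ : Fin (d + 2) => W)).sum_comp, Fintype.sum_prod_type]
      simp only [Fin.consEquiv_apply, Fin.prod_univ_succ, Finset.mul_sum]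
      rw [Finset.sum_comm]
      conv_rhs => rw [Finset.sum_comm]
      refine Finset.sum_congr rfl fun P _ => ?_
      have hl : ∀ x : W, (Fin.cons x P : Fin (d + 2) → W) (Fin.last (d + 1)) = P (Fin.last d) := by
        intro x
        rw [← Fin.succ_last, Fin.cons_succ]
      have hc : ∀ (x : W) (t : Fin d),
          (Fin.cons x P : Fin (d + 2) → W) t.succ.castSucc = P t.castSucc := by
        intro x t
        rw [← Fin.succ_castSucc, Fin.cons_succ]
      simp only [hl, hc, Fin.cons_zero, Fin.cons_succ, Fin.castSucc_zero]
      rw [Finset.sum_eq_single (P 0), Finset.sum_eq_single i]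
      · by_cases h : P (Fin.last d) = j <;> simp [h]
      · intro b _ hb
        simp [hb]
      · simp
      · intro b _ hb
        simp [Ne.symm hb]
      · simp

theorem card_paths (W : Type*) [Fintype W] [DecidableEq W] (d : ℕ) (i j : W) :
    (paths W (d + 1) i j).card = Fintype.card W ^ d := by
  classical
  have h := prod_ofFn_apply (R := ℕ) (d + 1) (fun _ => Matrix.of fun (_ _ : W) => 1) i j
  simp only [Matrix.of_apply, Finset.prod_const_one, Finset.sum_const, smul_eq_mul,
    mul_one] at h
  rw [← h]
  clear h
  induction d generalizing i with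
  | zero => simp
  | succ d ih =>
      rw [List.ofFn_succ, List.prod_cons, Matrix.mul_apply]
      simp only [Matrix.of_apply, one_mul]
      rw [Finset.sum_congr rfl fun k _ => ih k]
      simp [pow_succ']

variable (K : Type u) [Field K] (w d : ℕ) [NeZero w]

/-- The path formula of the problem text. -/
theorem IMM_eq_sum_paths :
    IMM K w d = ∑ P ∈ paths (Fin w) d 0 0, ∏ t, X (t, P t.castSucc, P t.succ) := by
  rw [IMM, prod_ofFn_apply]
  rfl

/-- The exponent vector of the monomial of a path. -/
noncomputable def pathMono {w d : ℕ} (P : Fin (d + 1) → Fin w) : Var w d →₀ ℕ :=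
  ∑ t : Fin d, Finsupp.single (t, P t.castSucc, P t.succ) 1

theorem IMM_eq_sum_monomial :
    IMM K w d = ∑ P ∈ paths (Fin w) d 0 0, monomial (pathMono P) 1 := by
  rw [IMM_eq_sum_paths]
  refine Finset.sum_congr rfl fun P _ => ?_
  rw [pathMono, monomial_sum_one]
  rfl

theorem pathMono_apply {w d : ℕ} (P : Fin (d + 1) → Fin w) (t : Fin d) (i j : Fin w) :
    pathMono P (t, i, j) = if P t.castSucc = i ∧ P t.succ = j then 1 else 0 := by
  classical
  rw [pathMono, Finsupp.finsetSum_apply, Finset.sum_eq_single t]
  · simp [Finsupp.single_apply]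
  · intro b _ hb
    rw [Finsupp.single_apply, if_neg]
    intro h
    exact hb (congrArg Prod.fst h)
  · simp

theorem IMM_isHomogeneous : (IMM K w d).IsHomogeneous d := by
  rw [IMM_eq_sum_paths]
  apply IsHomogeneous.sum
  intro P _
  have := IsHomogeneous.prod (Finset.univ : Finset (Fin d))
    (fun t => (X (t, P t.castSucc, P t.succ) : MvPolynomial (Var w d) K)) (fun _ => 1)
    (fun t _ => isHomogeneous_X K _)
  simpa using this

theorem IMM_ne_zero : IMM K w d ≠ 0 := by
  classical
  intro h
  have h2 := congrArg (MvPolynomial.eval fun x : Var w d =>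
    if x.2.1 = 0 ∧ x.2.2 = 0 then (1 : K) else 0) h
  rw [IMM_eq_sum_paths, map_sum, map_zero, Finset.sum_eq_single (fun _ => 0)] at h2
  · simp at h2
  · intro P hP hne
    obtain ⟨t, ht⟩ := Function.ne_iff.1 hne
    rw [map_prod]
    rcases Fin.eq_zero_or_eq_succ t with rfl | ⟨t, rfl⟩
    · exact absurd (mem_paths.1 hP).1 ht
    · apply Finset.prod_eq_zero (Finset.mem_univ t)
      rw [eval_X, if_neg]
      exact fun h => ht h.2
  · intro hn
    exact absurd (mem_paths.2 ⟨rfl, rfl⟩) hn

end Vale.Agent.N346
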