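import Vale.Agent.N346.AFMeasure
import Vale.Agent.N346.Paths

/-!
# P346, all fields: the adaptive process and the leading terms of `IMM`
-/

namespace Vale.Agent.N346.AF

open MvPolynomial Finset

section Run

variable {S Ω : Type*}

/-- Running a process along a finite sequence of inputs. -/
def run (step : ℕ → S → Ω → S) (A0 : S) {d : ℕ} (T : Fin d → Ω) : ℕ → S
  | 0 => A0
  | j + 1 => if h : j < d then step j (run step A0 T j) (T ⟨j, h⟩) else run step A0 T j

theorem run_succ (step : ℕ → S → Ω → S) (A0 : S) {d : ℕ} (T : Fin d → Ω) (j : Fin d) :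
    run step A0 T (j.val + 1) = step j (run step A0 T j) (T j) := by
  rw [run, dif_pos j.2]

theorem run_congr (step : ℕ → S → Ω → S) (A0 : S) {d d' : ℕ} (T : Fin d → Ω) (T' : Fin d' → Ω)
    (j : ℕ) (hj : j ≤ d) (hj' : j ≤ d')
    (h : ∀ i (h1 : i < j), T ⟨i, by omega⟩ = T' ⟨i, by omega⟩) :
    run step A0 T j = run step A0 T' j := by
  induction j with
  | zero => rfl
  | succ j ih =>
    rw [run, run, dif_pos (by omega : j < d), dif_pos (by omega : j < d'),
      ih (by omega) (by omega) fun i h1 => h i (by omega), h j (by omega)]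

/-- A potential function gives a lower bound for the weighted final potential. -/
theorem run_sum_ge [Fintype Ω] (step : ℕ → S → Ω → S) (A0 : S) (p : ℕ → Ω → ℝ)
    (H : ℕ → S → ℝ) (c : ℕ → ℝ) (hp : ∀ j u, 0 ≤ p j u) (hc : ∀ j, 0 ≤ c j) (d : ℕ)
    (hs : ∀ j < d, ∀ A, c j * H j A ≤ ∑ u, p j u * H (j + 1) (step j A u)) :
    (∏ j ∈ range d, c j) * H 0 A0 ≤
      ∑ T : Fin d → Ω, (∏ j : Fin d, p j (T j)) * H d (run step A0 T d) := by
  induction d with
  | zero => simp [run]
  | succ d ih =>
    have ih' := ih fun j hj => hs j (by omega)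
    rw [← (Fin.snocEquiv fun _ : Fin (d + 1) => Ω).sum_comp, Fintype.sum_prod_type,
      Finset.sum_comm, Finset.prod_range_succ, mul_comm _ (c d), mul_assoc]
    refine (mul_le_mul_of_nonneg_left ih' (hc d)).trans ?_
    rw [Finset.mul_sum]
    refine Finset.sum_le_sum fun T _ => ?_
    have h1 : ∀ u : Ω, (∏ j : Fin (d + 1), p j ((Fin.snocEquiv fun _ : Fin (d + 1) => Ω) (u, T) j)) *
        H (d + 1) (run step A0 ((Fin.snocEquiv fun _ : Fin (d + 1) => Ω) (u, T)) (d + 1)) =
        (∏ j : Fin d, p j (T j)) * (p d u * H (d + 1) (step d (run step A0 T d) u)) := by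
      intro u
      have hc : ((Fin.snocEquiv fun _ : Fin (d + 1) => Ω) (u, T) : Fin (d + 1) → Ω) =
          Fin.snoc (α := fun _ => Ω) T u := rfl
      rw [hc, Fin.prod_univ_castSucc]
      have h2 := run_succ step A0 (Fin.snoc (α := fun _ => Ω) T u) (Fin.last d)
      simp only [Fin.val_last, Fin.snoc_last] at h2
      rw [h2, run_congr step A0 (Fin.snoc (α := fun _ => Ω) T u) T d (by omega) le_rfl
        fun i h1 => by
          have : (⟨i, by omega⟩ : Fin (d + 1)) = Fin.castSucc ⟨i, h1⟩ := rfl
          rw [this, Fin.snoc_castSucc]]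
      simp only [Fin.snoc_castSucc, Fin.snoc_last, Fin.val_castSucc, Fin.val_last]
      ring
    rw [Finset.sum_congr rfl fun u _ => h1 u, ← Finset.mul_sum, mul_left_comm]
    exact mul_le_mul_of_nonneg_left (hs d (by omega) _) (Finset.prod_nonneg fun j _ => hp _ _)

end Run

variable {w : ℕ}

/-- A subset of `A` of size `min |A| K`. -/
noncomputable def sub (K : ℕ) (A : Finset (Fin w)) : Finset (Fin w) :=
  Classical.choose (Finset.exists_subset_card_eq (min_le_left A.card K))

theorem sub_subset (K : ℕ) (A : Finset (Fin w)) : sub K A ⊆ A :=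
  (Classical.choose_spec (Finset.exists_subset_card_eq (min_le_left A.card K))).1

theorem card_sub (K : ℕ) (A : Finset (Fin w)) : (sub K A).card = min A.card K :=
  (Classical.choose_spec (Finset.exists_subset_card_eq (min_le_left A.card K))).2

/-- An injective labelling of `sub K A` by numbers below `K`. -/
noncomputable def lab (K : ℕ) (A : Finset (Fin w)) (a : Fin w) : ℕ :=
  if h : a ∈ sub K A then ((sub K A).equivFin ⟨a, h⟩ : ℕ) else 0

theorem lab_lt {K : ℕ} {A : Finset (Fin w)} {a : Fin w} (h : a ∈ sub K A) : lab K A a < K := by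
  rw [lab, dif_pos h]
  have := ((sub K A).equivFin ⟨a, h⟩).2
  have h2 := card_sub K A
  omega

theorem lab_inj {K : ℕ} {A : Finset (Fin w)} {a a' : Fin w} (h : a ∈ sub K A) (h' : a' ∈ sub K A)
    (e : lab K A a = lab K A a') : a = a' := by
  rw [lab, lab, dif_pos h, dif_pos h'] at e
  have := (sub K A).equivFin.injective (Fin.ext e)
  exact congrArg Subtype.val this

/-- The row is full on the interval from `o` to `o + i`. -/
def ind (row : Fin w → Bool) (o i : ℕ) : Prop :=
  ∀ b : Fin w, o ≤ b.val → b.val ≤ o + i → row b = true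

/-- The child relation of the process. -/
def ch [NeZero w] (K L d j : ℕ) (A : Finset (Fin w)) (u : Fin w → Fin w → Bool) (a b : Fin w) :
    Prop :=
  if j + 1 = d then a ∈ A ∧ b = 0 ∧ u a b = true
  else a ∈ sub K A ∧ ∃ i < L, b.val = lab K A a * L + i ∧ ind (u a) (lab K A a * L) i

open Classical in
/-- One step of the process: the set of children. -/
noncomputable def step [NeZero w] (K L d j : ℕ) (A : Finset (Fin w))
    (u : Fin w → Fin w → Bool) : Finset (Fin w) :=
  univ.filter fun b => ∃ a, ch K L d j A u a b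

/-- The weights of the adaptive order. -/
noncomputable def cw (K L : ℕ) (A : Finset (Fin w)) (a b : Fin w) : ℕ :=
  if lab K A a * L ≤ b.val then w - b.val else 0

section

variable [NeZero w] {K L d j : ℕ} {A : Finset (Fin w)} {u : Fin w → Fin w → Bool} {a b : Fin w}

theorem mem_step : b ∈ step K L d j A u ↔ ∃ a, ch K L d j A u a b := by
  simp [step]

theorem ch_mem (h : ch K L d j A u a b) : a ∈ A := by
  unfold ch at h
  split_ifs at h
  · exact h.1
  · exact sub_subset K A h.1

theorem ch_true (h : ch K L d j A u a b) : u a b = true := by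
  unfold ch at h
  split_ifs at h
  · exact h.2.2
  · obtain ⟨_, i, _, hb, hi⟩ := h
    exact hi b (by omega) (by omega)

theorem ch_lead (h : ch K L d j A u a b) {b' : Fin w} (hne : b' ≠ b) (hl : j + 1 = d → b' = 0)
    (hf : u a b' = false) : cw K L A a b' < cw K L A a b := by
  unfold ch at h
  split_ifs at h with hj
  · exact absurd ((hl hj).trans h.2.1.symm) hne
  · obtain ⟨_, i, _, hb, hi⟩ := h
    have hne' : b'.val ≠ b.val := fun e => hne (Fin.ext e)
    have hb2 := b.2
    have hb3 := b'.2
    unfold cw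
    rw [if_pos (by omega : lab K A a * L ≤ b.val)]
    split_ifs with h1
    · by_contra h2
      have := hi b' h1 (by omega)
      rw [hf] at this
      exact Bool.false_ne_true this
    · omega

end

/-- The layers of a state. -/
def cur {d : ℕ} (t : Var w d → Bool) : Fin d → Fin w → Fin w → Bool := fun j a b => t (j, a, b)

/-- The alive set of a state after `j` layers. -/
noncomputable def alive [NeZero w] (K L : ℕ) {d : ℕ} (t : Var w d → Bool) (j : ℕ) :
    Finset (Fin w) :=
  run (step K L d) {0} (cur t) j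

/-- A path all of whose edges are child edges of the process. -/
def Good [NeZero w] (K L : ℕ) {d : ℕ} (t : Var w d → Bool) (P : Fin (d + 1) → Fin w) : Prop :=
  P ∈ paths (Fin w) d 0 0 ∧
    ∀ j : Fin d, ch K L d j (alive K L t j) (cur t j) (P j.castSucc) (P j.succ)

variable [NeZero w] {K L d : ℕ}

theorem exists_chain (t : Var w d → Bool) (j : ℕ) (hj : j ≤ d) :
    ∀ b ∈ alive K L t j, ∃ P : ℕ → Fin w, P 0 = 0 ∧ P j = b ∧
      ∀ i (h : i < j), ch K L d i (alive K L t i) (cur t ⟨i, by omega⟩) (P i) (P (i + 1)) := by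
  induction j with
  | zero =>
    intro b hb
    refine ⟨fun _ => 0, rfl, ?_, fun i h => absurd h (by omega)⟩
    exact (Finset.mem_singleton.1 hb).symm
  | succ j ih =>
    intro b hb
    have h1 : alive K L t (j + 1) = step K L d j (alive K L t j) (cur t ⟨j, by omega⟩) :=
      run_succ (step K L d) {0} (cur t) ⟨j, by omega⟩
    rw [h1, mem_step] at hb
    obtain ⟨a, ha⟩ := hb
    obtain ⟨P, hP0, hPj, hP⟩ := ih (by omega) a (ch_mem ha)
    refine ⟨Function.update P (j + 1) b, ?_, ?_, fun i h => ?_⟩
    · rw [Function.update_of_ne (by omega), hP0]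
    · rw [Function.update_self]
    · rw [Function.update_of_ne (by omega : i ≠ j + 1)]
      rcases Nat.lt_succ_iff_lt_or_eq.1 h with h2 | rfl
      · rw [Function.update_of_ne (by omega)]
        exact hP i h2
      · rw [Function.update_self, hPj]
        exact ha

theorem exists_good {t : Var w d → Bool} (h : (0 : Fin w) ∈ alive K L t d) :
    ∃ P, Good K L t P := by
  obtain ⟨P, hP0, hPd, hP⟩ := exists_chain t d le_rfl 0 h
  exact ⟨fun i => P i.val, mem_paths.2 ⟨hP0, hPd⟩, fun j => hP j.val j.2⟩

open Classical in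
/-- The chosen path of a state. -/
noncomputable def pathOf (K L : ℕ) (t : Var w d → Bool) : Fin (d + 1) → Fin w :=
  if h : ∃ P, Good K L t P then Classical.choose h else fun _ => 0

theorem good_pathOf {t : Var w d → Bool} (h : (0 : Fin w) ∈ alive K L t d) :
    Good K L t (pathOf K L t) := by
  rw [pathOf, dif_pos (exists_good h)]
  exact Classical.choose_spec (exists_good h)

/-- The source state: remove the chosen path. -/
noncomputable def src (K L : ℕ) (t : Var w d → Bool) : Var w d → Bool := fun x =>
  t x && !decide (pathOf K L t x.1.castSucc = x.2.1 ∧ pathOf K L t x.1.succ = x.2.2)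

theorem ex_eq_src {t : Var w d → Bool} (h : (0 : Fin w) ∈ alive K L t d) :
    ex (src K L t) + pathMono (pathOf K L t) = ex t := by
  ext ⟨j, a, b⟩
  rw [Finsupp.add_apply, pathMono_apply, ex_apply, ex_apply]
  unfold src
  split_ifs with h1
  · have h2 := ch_true ((good_pathOf h).2 j)
    rw [h1.1, h1.2] at h2
    have h3 : t (j, a, b) = true := h2
    simp [h1, h3]
  · simp [h1]

theorem coeff_mul_IMM (F : Type*) [Field F] (u v : Var w d →₀ ℕ) :
    coeff v (monomial u 1 * IMM F w d) =
      ∑ P ∈ paths (Fin w) d 0 0, if u + pathMono P = v then 1 else 0 := by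
  classical
  rw [IMM_eq_sum_monomial, Finset.mul_sum, coeff_sum]
  refine Finset.sum_congr rfl fun P _ => ?_
  rw [monomial_mul, coeff_monomial, one_mul]

omit [NeZero w] in
theorem pathMono_inj {P P' : Fin (d + 1) → Fin w} (h0 : P 0 = P' 0)
    (h : pathMono P = pathMono P') : P = P' := by
  funext i
  rcases Fin.eq_zero_or_eq_succ i with rfl | ⟨j, rfl⟩
  · exact h0
  · have h1 := DFunLike.congr_fun h (j, P j.castSucc, P j.succ)
    rw [pathMono_apply, pathMono_apply, if_pos ⟨rfl, rfl⟩] at h1
    by_contra h2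
    rw [if_neg fun h3 => h2 h3.2.symm] at h1
    exact one_ne_zero h1

theorem coeff_diag (F : Type*) [Field F] {t : Var w d → Bool} (h : (0 : Fin w) ∈ alive K L t d) :
    coeff (ex t) (monomial (ex (src K L t)) 1 * IMM F w d) ≠ 0 := by
  rw [coeff_mul_IMM, Finset.sum_eq_single (pathOf K L t)]
  · rw [if_pos (ex_eq_src h)]
    exact one_ne_zero
  · intro P hP hne
    rw [if_neg]
    intro h1
    rw [← ex_eq_src h] at h1
    exact hne (pathMono_inj ((mem_paths.1 hP).1.trans (mem_paths.1 (good_pathOf h).1).1.symm)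
      (add_left_cancel h1))
  · intro h1
    exact absurd (good_pathOf h).1 h1

/-- The adaptive lexicographic potential. -/
noncomputable def pot (K L : ℕ) (t : Var w d → Bool) : Lex (Fin d → ℕ) :=
  toLex fun j => ∑ a, ∑ b, cw K L (alive K L t j) a b * (t (j, a, b)).toNat

omit [NeZero w] in
theorem sum_cw_add (c : Fin w → Fin w → ℕ) (f g : Fin w → Fin w → ℕ) (a b : Fin w)
    (h : ∀ a' b', g a' b' = f a' b' + if a = a' ∧ b = b' then 1 else 0) :
    ∑ a', ∑ b', c a' b' * g a' b' = ∑ a', ∑ b', c a' b' * f a' b' + c a b := by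
  simp only [h, mul_add, Finset.sum_add_distrib, add_right_inj]
  rw [Finset.sum_eq_single a]
  · rw [Finset.sum_eq_single b]
    · simp
    · intro b' _ hb
      simp [Ne.symm hb]
    · simp
  · intro a' _ ha
    simp [Ne.symm ha]
  · simp

theorem pot_lt (F : Type*) [Field F] {t t' : Var w d → Bool} (h : (0 : Fin w) ∈ alive K L t d)
    (hne : t ≠ t') (hc : coeff (ex t') (monomial (ex (src K L t)) 1 * IMM F w d) ≠ 0) :
    pot K L t' < pot K L t := by
  classical
  rw [coeff_mul_IMM] at hc
  obtain ⟨P', hP', h1⟩ := Finset.exists_ne_zero_of_sum_ne_zero hc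
  have h2 : ex (src K L t) + pathMono P' = ex t' := by
    by_contra h3
    exact h1 (if_neg h3)
  have h3 := ex_eq_src h
  obtain ⟨hP, hch⟩ := good_pathOf h
  set P := pathOf K L t with hPdef
  set u := src K L t with hu
  have hP0 : P 0 = P' 0 := (mem_paths.1 hP).1.trans (mem_paths.1 hP').1.symm
  have hex : ∃ j : Fin d, P j.succ ≠ P' j.succ := by
    by_contra h4
    push Not at h4
    have : P = P' := by
      funext i
      rcases Fin.eq_zero_or_eq_succ i with rfl | ⟨j, rfl⟩
      · exact hP0
      · exact h4 j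
    rw [this, h2] at h3
    exact hne (ex_injective h3).symm
  obtain ⟨j, hj, hmin⟩ := Finset.exists_min_image (univ.filter fun j : Fin d => P j.succ ≠ P' j.succ)
    id (by obtain ⟨j, hj⟩ := hex; exact ⟨j, by simpa using hj⟩)
  have hj' : P j.succ ≠ P' j.succ := (Finset.mem_filter.1 hj).2
  have hsucc : ∀ i : Fin d, i < j → P i.succ = P' i.succ := by
    intro i hi
    by_contra h4
    exact absurd (hmin i (by simpa using h4)) (not_le.2 hi)
  have hcast : ∀ i : Fin d, i ≤ j → P i.castSucc = P' i.castSucc := by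
    intro i hi
    rcases Nat.eq_zero_or_pos i.val with h0 | h0
    · have : i.castSucc = 0 := Fin.ext (by simpa using h0)
      rw [this, hP0]
    · have : i.castSucc = Fin.succ ⟨i.val - 1, by omega⟩ := Fin.ext (by simp; omega)
      rw [this]
      refine hsucc _ ?_
      rw [Fin.lt_def]
      have := Fin.le_def.1 hi
      simp only
      omega
  have ht : ∀ i a b, (t (i, a, b)).toNat = (u (i, a, b)).toNat +
      if P i.castSucc = a ∧ P i.succ = b then 1 else 0 := by
    intro i a b
    rw [← ex_apply, ← h3, Finsupp.add_apply, pathMono_apply, ex_apply]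
  have ht' : ∀ i a b, (t' (i, a, b)).toNat = (u (i, a, b)).toNat +
      if P' i.castSucc = a ∧ P' i.succ = b then 1 else 0 := by
    intro i a b
    rw [← ex_apply, ← h2, Finsupp.add_apply, pathMono_apply, ex_apply]
  have heq : ∀ i : Fin d, i < j → ∀ a b, t' (i, a, b) = t (i, a, b) := by
    intro i hi a b
    have h4 := ht i a b
    rw [hsucc i hi, hcast i hi.le, ← ht' i a b] at h4
    cases h5 : t (i, a, b) <;> cases h6 : t' (i, a, b) <;> simp_all
  have halive : ∀ i : Fin d, i ≤ j → alive K L t' i = alive K L t i := by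
    intro i hi
    refine run_congr _ _ _ _ _ i.2.le i.2.le fun i' h4 => ?_
    funext a b
    refine heq _ ?_ a b
    rw [Fin.lt_def]
    have := Fin.le_def.1 hi
    simp only
    omega
  refine ⟨j, fun i hi => ?_, ?_⟩
  · show ∑ a, ∑ b, cw K L (alive K L t' i) a b * (t' (i, a, b)).toNat =
      ∑ a, ∑ b, cw K L (alive K L t i) a b * (t (i, a, b)).toNat
    rw [halive i hi.le]
    simp only [heq i hi]
  · show ∑ a, ∑ b, cw K L (alive K L t' j) a b * (t' (j, a, b)).toNat <
      ∑ a, ∑ b, cw K L (alive K L t j) a b * (t (j, a, b)).toNat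
    rw [halive j le_rfl, sum_cw_add _ _ _ _ _ (ht j), sum_cw_add _ _ _ _ _ (ht' j),
      ← hcast j le_rfl]
    refine Nat.add_lt_add_left (ch_lead (hch j) hj'.symm (fun h4 => ?_) ?_) _
    · have : j.succ = Fin.last d := Fin.ext (by simpa using h4)
      rw [this]
      exact (mem_paths.1 hP').2
    · have h4 := ht j (P j.castSucc) (P' j.succ)
      have h5 := ht' j (P j.castSucc) (P' j.succ)
      rw [if_neg fun h6 => hj' h6.2] at h4
      rw [if_pos ⟨(hcast j le_rfl).symm, rfl⟩] at h5
      have h6 : (t' (j, P j.castSucc, P' j.succ)).toNat ≤ 1 := Bool.toNat_le _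
      show t (j, P j.castSucc, P' j.succ) = false
      cases h7 : t (j, P j.castSucc, P' j.succ)
      · rfl
      · rw [h7] at h4
        simp only [Bool.toNat_true] at h4
        omega

/-- The bidegree of the first `d` letters of a word. -/
def kk (word : ℕ → Bool) (d : ℕ) : ℕ × ℕ :=
  ∑ j ∈ range d, if word j = true then (1, 0) else (0, 1)

omit [NeZero w] in
theorem weight_pathMono (word : ℕ → Bool) (P : Fin (d + 1) → Fin w) :
    Finsupp.weight (bw (wordMark word w d)) (pathMono P) = kk word d := by
  rw [pathMono, map_sum, kk, Finset.sum_range]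
  refine Finset.sum_congr rfl fun j _ => ?_
  rw [Finsupp.weight_single, one_smul]
  rfl

theorem kk_omega (word : ℕ → Bool) {α β : ℝ} (hβ : 0 < β) (d : ℕ) :
    α ^ (kk word d).1 / β ^ (kk word d).2 = omega word α β d := by
  induction d with
  | zero => simp [kk, omega]
  | succ d ih =>
    unfold kk omega at ih ⊢
    rw [Finset.sum_range_succ, Finset.prod_range_succ, ← ih]
    split_ifs
    · simp only [Prod.fst_add, Prod.snd_add, pow_add]
      field_simp
    · simp only [Prod.fst_add, Prod.snd_add, pow_add]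
      field_simp

open Classical in
/-- The weight of the surviving states is at most `omega * cost` times the total weight. -/
theorem survive_le (F : Type*) [Field F] (word : ℕ → Bool) {α β a : ℝ} (hα : 0 < α) (hβ : 0 < β)
    (hf : Cheap (wordMark word w d) α β (IMM F w d) a) (K L : ℕ) :
    ∑ t ∈ univ.filter (fun t : Var w d → Bool => (0 : Fin w) ∈ alive K L t d),
        wtb α β (bideg (wordMark word w d) t) ≤
      ztot (wordMark word w d) α β * (omega word α β d * a) := by
  have h1 := le_mu (s := wordMark word w d) hα hβ (kk word d) (IMM F w d)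
    (univ.filter fun t : Var w d → Bool => (0 : Fin w) ∈ alive K L t d) (src K L) (pot K L)
    (fun t ht => by
      have h2 := ex_eq_src (Finset.mem_filter.1 ht).2
      unfold bideg
      rw [← h2, map_add, weight_pathMono])
    (fun t ht => coeff_diag F (Finset.mem_filter.1 ht).2)
    (fun t ht t' _ hne hc => pot_lt F (Finset.mem_filter.1 ht).2 hne hc)
  have h2 := mu_le_of_cheap hα hβ (kk word d).1 (kk word d).2 hf
  have h3 := h1.trans h2
  rw [div_le_iff₀ (wtb_pos hα hβ _)] at h3
  refine h3.trans_eq ?_
  rw [← kk_omega word hβ d]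
  unfold wtb
  field_simp
  ring

end Vale.Agent.N346.AF
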