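import Vale.Agent.N346.Measure

/-!
Closure properties of the predicate `Cheap`.
-/

namespace Vale.Agent.N346

open MvPolynomial

variable {σ K : Type*} [Field K] {s : σ → Bool} {α β : ℝ}

theorem Cheap.nonneg (hα : 0 < α) (hβ : 0 < β) {f : MvPolynomial σ K} {a : ℝ}
    (h : Cheap s α β f a) : 0 ≤ a := by
  induction h with
  | zero => exact le_rfl
  | basic g h p q p' q' _ _ => positivity
  | add _ _ iha ihb => exact add_nonneg iha ihb
  | mono _ hab ih => exact ih.trans hab

theorem Cheap.basic_mul (hα : 0 < α) (hβ : 0 < β) (g h : MvPolynomial σ K) (p q p' q' : ℕ)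
    (hg : IsWeightedHomogeneous (bw s) g (p, q)) (hh : IsWeightedHomogeneous (bw s) h (p', q'))
    {f : MvPolynomial σ K} {b : ℝ} (hf : Cheap s α β f b) :
    Cheap s α β (g * h * f) (α ^ p * β ^ q' / (β ^ q * α ^ p') * b) := by
  induction hf with
  | zero => simpa using Cheap.zero
  | basic g2 h2 p2 q2 p2' q2' hg2 hh2 =>
    have h1 : IsWeightedHomogeneous (bw s) (g * g2) (p + p2, q + q2) := hg.mul hg2
    have h2' : IsWeightedHomogeneous (bw s) (h * h2) (p' + p2', q' + q2') := hh.mul hh2
    have h3 := Cheap.basic (s := s) (α := α) (β := β) (g * g2) (h * h2) _ _ _ _ h1 h2'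
    have e1 : g * h * (g2 * h2) = g * g2 * (h * h2) := by ring
    have e2 : α ^ p * β ^ q' / (β ^ q * α ^ p') * (α ^ p2 * β ^ q2' / (β ^ q2 * α ^ p2')) =
        α ^ (p + p2) * β ^ (q' + q2') / (β ^ (q + q2) * α ^ (p' + p2')) := by
      simp only [pow_add]
      field_simp
    rw [e1, e2]
    exact h3
  | add _ _ iha ihb =>
    rw [mul_add, mul_add]
    exact iha.add ihb
  | mono _ hab ih =>
    exact ih.mono (mul_le_mul_of_nonneg_left hab (by positivity))

theorem Cheap.mul (hα : 0 < α) (hβ : 0 < β) {f g : MvPolynomial σ K} {a b : ℝ}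
    (hf : Cheap s α β f a) (hg : Cheap s α β g b) : Cheap s α β (f * g) (a * b) := by
  induction hf with
  | zero => simpa using Cheap.zero
  | basic g1 h1 p q p' q' hg1 hh1 => exact Cheap.basic_mul hα hβ g1 h1 p q p' q' hg1 hh1 hg
  | add _ _ iha ihb =>
    rw [add_mul, add_mul]
    exact iha.add ihb
  | mono _ hab ih =>
    exact ih.mono (mul_le_mul_of_nonneg_right hab (hg.nonneg hα hβ))

theorem Cheap.smul {f : MvPolynomial σ K} {a : ℝ} (c : K)
    (hf : Cheap s α β f a) : Cheap s α β (c • f) a := by
  induction hf with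
  | zero => simpa using Cheap.zero
  | basic g h p q p' q' hg hh =>
    have h1 : IsWeightedHomogeneous (bw s) (c • g) (p, q) :=
      (weightedHomogeneousSubmodule K (bw s) (p, q)).smul_mem c hg
    rw [← smul_mul_assoc]
    exact Cheap.basic _ _ _ _ _ _ h1 hh
  | add _ _ iha ihb =>
    rw [smul_add]
    exact iha.add ihb
  | mono _ hab ih => exact ih.mono hab

theorem Cheap.sum {ι : Type*} (t : Finset ι) {f : ι → MvPolynomial σ K} {a : ι → ℝ}
    (h : ∀ i ∈ t, Cheap s α β (f i) (a i)) : Cheap s α β (∑ i ∈ t, f i) (∑ i ∈ t, a i) := by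
  classical
  induction t using Finset.induction_on with
  | empty => simpa using Cheap.zero
  | insert i t hi ih =>
    rw [Finset.sum_insert hi, Finset.sum_insert hi]
    exact (h i (Finset.mem_insert_self _ _)).add
      (ih fun j hj => h j (Finset.mem_insert_of_mem hj))

theorem Cheap.of_bihom {f : MvPolynomial σ K} {p q : ℕ}
    (hf : IsWeightedHomogeneous (bw s) f (p, q)) :
    Cheap s α β f (min (α ^ p / β ^ q) (β ^ q / α ^ p)) := by
  have h1 : IsWeightedHomogeneous (bw s) (1 : MvPolynomial σ K) ((0, 0) : ℕ × ℕ) :=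
    isWeightedHomogeneous_one K (bw s)
  rcases le_total (α ^ p / β ^ q) (β ^ q / α ^ p) with h | h
  · rw [min_eq_left h]
    simpa using Cheap.basic (s := s) (α := α) (β := β) f 1 p q 0 0 hf h1
  · rw [min_eq_right h]
    simpa using Cheap.basic (s := s) (α := α) (β := β) 1 f 0 0 p q h1 hf

theorem weight_bw_add (s : σ → Bool) (d : σ →₀ ℕ) :
    (Finsupp.weight (bw s) d).1 + (Finsupp.weight (bw s) d).2 =
      Finsupp.weight (1 : σ → ℕ) d := by
  simp only [Finsupp.weight_apply, Finsupp.sum, Prod.fst_sum, Prod.snd_sum,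
    ← Finset.sum_add_distrib]
  refine Finset.sum_congr rfl fun x _ => ?_
  unfold bw
  split_ifs <;> simp

theorem Cheap.of_isHomogeneous (_hα : 0 < α) (_hβ : 0 < β) {f : MvPolynomial σ K} {e : ℕ}
    (hf : f.IsHomogeneous e) : Cheap s α β f (psi α β e) := by
  classical
  have hsum : f = ∑ p ∈ Finset.range (e + 1),
      weightedHomogeneousComponent (bw s) (p, e - p) f := by
    ext d
    simp only [coeff_sum, coeff_weightedHomogeneousComponent]
    by_cases hd : coeff d f = 0
    · simp [hd]
    · have hw : Finsupp.weight (1 : σ → ℕ) d = e := hf hd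
      have h2 := weight_bw_add s d
      rw [hw] at h2
      rw [Finset.sum_eq_single (Finsupp.weight (bw s) d).1]
      · rw [if_pos]
        ext
        · rfl
        · simp only
          omega
      · intro b _ hb
        rw [if_neg]
        intro h
        exact hb (by rw [h])
      · intro h
        exact absurd (Finset.mem_range.2 (by omega)) h
  unfold psi
  conv => arg 4; rw [hsum]
  exact Cheap.sum _ fun p _ =>
    Cheap.of_bihom (weightedHomogeneousComponent_isWeightedHomogeneous _ _)

end Vale.Agent.N346
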