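import Vale.Agent.N346.Measure
import Vale.Agent.N346.Paths

/-!
# P346: the path-counting matrix and its first moment
-/

namespace Vale.Agent.N346

open MvPolynomial

theorem Paths_eq_paths (w d : ℕ) [NeZero w] : Paths w d = paths (Fin w) d 0 0 := by
  ext v
  simp [Paths, mem_paths]

theorem pathMon_eq_pathMono {w d : ℕ} (v : Fin (d + 1) → Fin w) : pathMon v = pathMono v := rfl

theorem IMM_eq_pathPoly (K : Type*) [Field K] (w d : ℕ) [NeZero w] :
    IMM K w d = pathPoly K w d := by
  rw [IMM_eq_sum_monomial, pathPoly, Paths_eq_paths]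
  rfl

theorem card_Paths (w d : ℕ) [NeZero w] (hd : 1 ≤ d) : (Paths w d).card = w ^ (d - 1) := by
  obtain ⟨e, rfl⟩ : ∃ e, d = e + 1 := ⟨d - 1, by omega⟩
  rw [Paths_eq_paths, card_paths]
  simp

theorem opMat_pathPoly (K : Type*) [Field K] (word : ℕ → Bool) (w d : ℕ) [NeZero w]
    (a b a' b' : ℕ) : opMat K (wordMark word w d) a b a' b' (pathPoly K w d) =
      (natMat word w d a b a' b').map (Nat.cast : ℕ → K) := by
  classical
  rw [pathPoly, map_sum]
  ext A B
  simp only [opMat_monomial, one_smul, Matrix.sum_apply, monMat, Matrix.of_apply,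
    Matrix.map_apply, natMat]
  rw [Finset.card_filter, Nat.cast_sum]
  refine Finset.sum_congr rfl fun v _ => ?_
  split_ifs <;> simp

theorem mem_Mon_iff {σ : Type*} [Fintype σ] [DecidableEq σ] {l : ℕ} {A : σ →₀ ℕ} :
    A ∈ Mon σ l ↔ A.degree = l := by
  rw [Finset.mem_finsuppAntidiag, Finsupp.degree_eq_sum]
  simp

theorem degree_filter_pathMon (word : ℕ → Bool) (c : Bool) {w d : ℕ}
    (v : Fin (d + 1) → Fin w) :
    ((pathMon v).filter (fun x => wordMark word w d x = c)).degree =
      ((Finset.range d).filter fun j => word j = c).card := by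
  classical
  have h1 : (pathMon v).filter (fun x => wordMark word w d x = c) =
      ∑ j : Fin d, if word j.val = c then Finsupp.single (edge v j) 1 else 0 := by
    rw [pathMon, Finsupp.filter_sum]
    refine Finset.sum_congr rfl fun j _ => ?_
    by_cases h : word j.val = c
    · rw [if_pos h, Finsupp.filter_single_of_pos]
      exact h
    · rw [if_neg h, Finsupp.filter_single_of_neg]
      exact h
  rw [h1, map_sum, Finset.card_filter,
    ← Fin.sum_univ_eq_sum_range (fun j => if word j = c then 1 else 0) d]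
  refine Finset.sum_congr rfl fun j _ => ?_
  split_ifs <;> simp

theorem degree_pP_pathMon (word : ℕ → Bool) {w d : ℕ} (v : Fin (d + 1) → Fin w) :
    (pP (wordMark word w d) (pathMon v)).degree = cntP word d :=
  degree_filter_pathMon word true v

theorem degree_pN_pathMon (word : ℕ → Bool) {w d : ℕ} (v : Fin (d + 1) → Fin w) :
    (pN (wordMark word w d) (pathMon v)).degree = cntN word d :=
  degree_filter_pathMon word false v

open Classical in
theorem sum_shift {σ : Type*} [Fintype σ] [DecidableEq σ] (l k : ℕ) (m : σ →₀ ℕ)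
    (hm : m.degree = k) :
    ∑ A : {A // A ∈ Mon σ l}, ∑ B : {B // B ∈ Mon σ (l + k)},
      (if B.1 = A.1 + m then 1 else 0 : ℕ) = (Mon σ l).card := by
  have h : ∀ A : {A // A ∈ Mon σ l}, ∑ B : {B // B ∈ Mon σ (l + k)},
      (if B.1 = A.1 + m then 1 else 0 : ℕ) = 1 := by
    intro A
    have hA : A.1 + m ∈ Mon σ (l + k) := by
      rw [mem_Mon_iff, map_add, hm, mem_Mon_iff.1 A.2]
    rw [Finset.sum_eq_single ⟨A.1 + m, hA⟩]
    · simp
    · intro B _ hB
      rw [if_neg]
      intro h
      exact hB (Subtype.ext h)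
    · simp
  rw [Finset.sum_congr rfl fun A _ => h A]
  simp

theorem sum_natMat (word : ℕ → Bool) (w d : ℕ) [NeZero w] (l1 l2 : ℕ) :
    ∑ A, ∑ B, natMat word w d l1 (l2 + cntN word d) (l1 + cntP word d) l2 A B =
      (Paths w d).card * ((Mon (Fin d × Fin w × Fin w) l1).card *
        (Mon (Fin d × Fin w × Fin w) l2).card) := by
  classical
  simp only [natMat, Matrix.of_apply, Finset.card_filter]
  rw [Finset.sum_congr rfl fun A _ => Finset.sum_comm, Finset.sum_comm, Finset.card_eq_sum_ones,
    Finset.sum_mul]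
  refine Finset.sum_congr rfl fun v _ => ?_
  rw [one_mul, ← sum_shift l1 (cntP word d) _ (degree_pP_pathMon word v),
    ← sum_shift l2 (cntN word d) _ (degree_pN_pathMon word v), Fintype.sum_prod_type,
    Finset.sum_mul]
  refine Finset.sum_congr rfl fun A1 _ => ?_
  simp only [Fintype.sum_prod_type]
  rw [Finset.sum_comm, Finset.sum_mul]
  refine Finset.sum_congr rfl fun B1 _ => ?_
  rw [Finset.sum_comm, Finset.mul_sum]
  refine Finset.sum_congr rfl fun B2 _ => ?_
  rw [Finset.mul_sum]
  refine Finset.sum_congr rfl fun A2 _ => ?_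
  unfold Step
  by_cases h1 : B1.1 = A1.1 + pP (wordMark word w d) (pathMon v) <;>
    by_cases h2 : A2.1 = B2.1 + pN (wordMark word w d) (pathMon v) <;> simp [h1, h2]

end Vale.Agent.N346
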