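import Vale.Agent.N346.Measure

/-!
The fourth moment of the path-counting matrix is bounded by a sum over quadruples of paths.
-/

namespace Vale.Agent.N346

open MvPolynomial

theorem sumSingle_apply {w d : ℕ} (F : Finset (Fin d)) (v : Fin (d + 1) → Fin w)
    (x : Fin d × Fin w × Fin w) :
    (∑ j ∈ F, Finsupp.single (edge v j) (1 : ℕ)) x =
      if x.1 ∈ F ∧ edge v x.1 = x then 1 else 0 := by
  classical
  rw [Finsupp.finsetSum_apply]
  have hne : ∀ j, j ≠ x.1 → Finsupp.single (edge v j) (1 : ℕ) x = 0 := by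
    intro j hj
    rw [Finsupp.single_apply, if_neg]
    intro h
    exact hj (by rw [← h]; rfl)
  by_cases hx : x.1 ∈ F
  · rw [Finset.sum_eq_single_of_mem x.1 hx (fun j _ hj => hne j hj), Finsupp.single_apply]
    simp [hx]
  · rw [if_neg (fun h => hx h.1)]
    exact Finset.sum_eq_zero fun j hj => hne j (fun h => hx (h ▸ hj))

theorem pathMon_apply {w d : ℕ} (v : Fin (d + 1) → Fin w) (x : Fin d × Fin w × Fin w) :
    pathMon v x = if edge v x.1 = x then 1 else 0 := by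
  rw [pathMon, sumSingle_apply]
  simp

theorem pathMon_edge {w d : ℕ} (v v' : Fin (d + 1) → Fin w) (j : Fin d) :
    pathMon v (edge v' j) = if edge v j = edge v' j then 1 else 0 := by
  rw [pathMon_apply]
  rfl

theorem degree_sumSingle {w d : ℕ} (F : Finset (Fin d)) (v : Fin (d + 1) → Fin w) :
    (∑ j ∈ F, Finsupp.single (edge v j) (1 : ℕ)).degree = F.card := by
  rw [map_sum]
  simp

theorem pP_apply {σ : Type*} (s : σ → Bool) (m : σ →₀ ℕ) (x : σ) :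
    pP s m x = if s x = true then m x else 0 := by
  rw [pP, Finsupp.filter_apply]

theorem pN_apply {σ : Type*} (s : σ → Bool) (m : σ →₀ ℕ) (x : σ) :
    pN s m x = if s x = false then m x else 0 := by
  rw [pN, Finsupp.filter_apply]

theorem closed_of_steps {σ : Type*} {s : σ → Bool} {m1 m2 m3 m4 A1 A2 A1' A2' B1 B2 B1' B2' : σ →₀ ℕ}
    (h1 : Step s m1 A1 A2 B1 B2) (h2 : Step s m2 A1 A2 B1' B2')
    (h3 : Step s m3 A1' A2' B1' B2') (h4 : Step s m4 A1' A2' B1 B2) (x : σ) :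
    m1 x + m3 x = m2 x + m4 x := by
  have a1 := DFunLike.congr_fun h1.1 x
  have b1 := DFunLike.congr_fun h1.2 x
  have a2 := DFunLike.congr_fun h2.1 x
  have b2 := DFunLike.congr_fun h2.2 x
  have a3 := DFunLike.congr_fun h3.1 x
  have b3 := DFunLike.congr_fun h3.2 x
  have a4 := DFunLike.congr_fun h4.1 x
  have b4 := DFunLike.congr_fun h4.2 x
  simp only [Finsupp.add_apply, pP_apply, pN_apply] at a1 b1 a2 b2 a3 b3 a4 b4
  cases hs : s x
  · simp only [hs, if_true] at b1 b2 b3 b4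
    omega
  · simp only [hs, if_true] at a1 a2 a3 a4
    omega

theorem edges_closed {w d : ℕ} {v1 v2 v3 v4 : Fin (d + 1) → Fin w}
    (h : ∀ x, pathMon v1 x + pathMon v3 x = pathMon v2 x + pathMon v4 x) (j : Fin d) :
    (edge v1 j = edge v2 j ∧ edge v3 j = edge v4 j) ∨
      (edge v1 j = edge v4 j ∧ edge v2 j = edge v3 j) := by
  have h1 := h (edge v1 j)
  have h3 := h (edge v3 j)
  simp only [pathMon_edge] at h1 h3
  generalize edge v1 j = e1 at *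
  generalize edge v2 j = e2 at *
  generalize edge v3 j = e3 at *
  generalize edge v4 j = e4 at *
  by_cases h21 : e2 = e1 <;> by_cases h41 : e4 = e1 <;> by_cases h31 : e3 = e1 <;>
    by_cases h23 : e2 = e3 <;> by_cases h43 : e4 = e3 <;> simp_all [eq_comm]

theorem kap_nonneg {V : Type*} (α β : ℝ) (b : Bool) (u v : V × V × V × V) : 0 ≤ kap α β b u v := by
  unfold kap
  have h1 : 0 ≤ (α ^ 2)⁻¹ := by positivity
  have h2 : 0 ≤ (β ^ 2)⁻¹ := by positivity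
  refine add_nonneg (add_nonneg ?_ ?_) ?_ <;> split_ifs <;> first | assumption | norm_num

theorem weight_le_kap_aux {V : Type*} (α β : ℝ) (b : Bool) (a1 a2 a3 a4 b1 b2 b3 b4 : V)
    (P14 P12 : Prop) [Decidable P14] [Decidable P12]
    (h14 : P14 ↔ (b = true ∧ ¬ (a1 = a4 ∧ b1 = b4))) (h12 : P12 ↔ (b = false ∧ ¬ (a1 = a2 ∧ b1 = b2)))
    (h : ((a1 = a2 ∧ b1 = b2) ∧ (a3 = a4 ∧ b3 = b4)) ∨ ((a1 = a4 ∧ b1 = b4) ∧ (a2 = a3 ∧ b2 = b3))) :
    (if P14 then (α ^ 2)⁻¹ else 1) * (if P12 then (β ^ 2)⁻¹ else 1) ≤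
      kap α β b (a1, a2, a3, a4) (b1, b2, b3, b4) := by
  have hα : 0 ≤ (α ^ 2)⁻¹ := by positivity
  have hβ : 0 ≤ (β ^ 2)⁻¹ := by positivity
  unfold kap inS inT
  rcases h with ⟨⟨rfl, rfl⟩, ⟨rfl, rfl⟩⟩ | ⟨⟨rfl, rfl⟩, ⟨rfl, rfl⟩⟩
  · have n12 : ¬ P12 := fun hp => (h12.1 hp).2 ⟨rfl, rfl⟩
    rw [if_neg n12, mul_one]
    by_cases h13 : a1 = a3 ∧ b1 = b3
    · obtain ⟨rfl, rfl⟩ := h13
      have n14 : ¬ P14 := fun hp => (h14.1 hp).2 ⟨rfl, rfl⟩
      rw [if_neg n14]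
      cases b <;> simp <;> linarith
    · have hT : ¬ ((a1 = a3 ∧ a1 = a3) ∧ (b1 = b3 ∧ b1 = b3)) := fun hh => h13 ⟨hh.1.1, hh.2.1⟩
      have hE : ¬ (((a1 = a1 ∧ a3 = a3) ∧ (a1 = a3 ∧ a1 = a3)) ∧
          ((b1 = b1 ∧ b3 = b3) ∧ (b1 = b3 ∧ b1 = b3))) := fun hh => h13 ⟨hh.1.2.1, hh.2.2.1⟩
      rw [if_neg hT, if_neg hE, if_pos (show (a1 = a1 ∧ a3 = a3) ∧ (b1 = b1 ∧ b3 = b3) by simp)]
      cases b
      · have n14 : ¬ P14 := fun hp => absurd (h14.1 hp).1 (by simp)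
        simp [n14]
      · have p14 : P14 := h14.2 ⟨rfl, h13⟩
        simp [p14]
  · have n14 : ¬ P14 := fun hp => (h14.1 hp).2 ⟨rfl, rfl⟩
    rw [if_neg n14, one_mul]
    by_cases h13 : a1 = a2 ∧ b1 = b2
    · obtain ⟨rfl, rfl⟩ := h13
      have n12 : ¬ P12 := fun hp => (h12.1 hp).2 ⟨rfl, rfl⟩
      rw [if_neg n12]
      cases b <;> simp <;> linarith
    · have hS : ¬ ((a1 = a2 ∧ a2 = a1) ∧ (b1 = b2 ∧ b2 = b1)) := fun hh => h13 ⟨hh.1.1, hh.2.1⟩
      have hE : ¬ (((a1 = a2 ∧ a2 = a1) ∧ (a1 = a1 ∧ a2 = a2)) ∧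
          ((b1 = b2 ∧ b2 = b1) ∧ (b1 = b1 ∧ b2 = b2))) := fun hh => h13 ⟨hh.1.1.1, hh.2.1.1⟩
      rw [if_neg hS, if_neg hE, if_pos (show (a1 = a1 ∧ a2 = a2) ∧ (b1 = b1 ∧ b2 = b2) by simp)]
      cases b
      · have p12 : P12 := h12.2 ⟨rfl, h13⟩
        simp [p12]
      · have n12 : ¬ P12 := fun hp => absurd (h12.1 hp).1 (by simp)
        simp [n12]

theorem edge_eq_iff {w d : ℕ} (v v' : Fin (d + 1) → Fin w) (j : Fin d) :
    edge v j = edge v' j ↔ v j.castSucc = v' j.castSucc ∧ v j.succ = v' j.succ := by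
  simp [edge]

theorem weight_le_kap {w d : ℕ} (α β : ℝ) (b : Bool) {v1 v2 v3 v4 : Fin (d + 1) → Fin w}
    (j : Fin d)
    (h : (edge v1 j = edge v2 j ∧ edge v3 j = edge v4 j) ∨
      (edge v1 j = edge v4 j ∧ edge v2 j = edge v3 j)) :
    (if b = true ∧ edge v1 j ≠ edge v4 j then (α ^ 2)⁻¹ else 1) *
      (if b = false ∧ edge v1 j ≠ edge v2 j then (β ^ 2)⁻¹ else 1) ≤
    kap α β b (v1 j.castSucc, v2 j.castSucc, v3 j.castSucc, v4 j.castSucc)
      (v1 j.succ, v2 j.succ, v3 j.succ, v4 j.succ) := by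
  refine weight_le_kap_aux α β b _ _ _ _ _ _ _ _ _ _ ?_ ?_ ?_
  · rw [Ne, edge_eq_iff]
  · rw [Ne, edge_eq_iff]
  · rw [edge_eq_iff, edge_eq_iff, edge_eq_iff, edge_eq_iff] at h
    exact h

open Classical in
/-- Closed walks of length four along four given relations. -/
noncomputable def quads {R C ι : Type*} [Fintype R] [Fintype C] (S : ι → R → C → Prop)
    (v1 v2 v3 v4 : ι) : Finset (R × R × C × C) :=
  Finset.univ.filter fun q => S v1 q.1 q.2.2.1 ∧ S v2 q.1 q.2.2.2 ∧ S v3 q.2.1 q.2.2.2 ∧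
    S v4 q.2.1 q.2.2.1

theorem mem_quads {R C ι : Type*} [Fintype R] [Fintype C] (S : ι → R → C → Prop)
    (v1 v2 v3 v4 : ι) (q : R × R × C × C) : q ∈ quads S v1 v2 v3 v4 ↔
      S v1 q.1 q.2.2.1 ∧ S v2 q.1 q.2.2.2 ∧ S v3 q.2.1 q.2.2.2 ∧ S v4 q.2.1 q.2.2.1 := by
  simp [quads]

theorem fourth_eq_sum_quads {R C ι : Type*} [Fintype R] [Fintype C] (S : ι → R → C → Prop)
    (P : Finset ι) (N : R → C → ℕ) [∀ r c, DecidablePred fun v => S v r c]
    (hN : ∀ r c, N r c = (P.filter fun v => S v r c).card) :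
    ∑ r1, ∑ r2, ∑ c1, ∑ c2, N r1 c1 * N r1 c2 * N r2 c2 * N r2 c1 =
      ∑ v1 ∈ P, ∑ v2 ∈ P, ∑ v3 ∈ P, ∑ v4 ∈ P, (quads S v1 v2 v3 v4).card := by
  classical
  have h1 : ∑ r1, ∑ r2, ∑ c1, ∑ c2, N r1 c1 * N r1 c2 * N r2 c2 * N r2 c1 =
      ∑ q : R × R × C × C, N q.1 q.2.2.1 * N q.1 q.2.2.2 * N q.2.1 q.2.2.2 * N q.2.1 q.2.2.1 := by
    rw [Fintype.sum_prod_type]
    refine Finset.sum_congr rfl fun r1 _ => ?_
    rw [Fintype.sum_prod_type]
    refine Finset.sum_congr rfl fun r2 _ => ?_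
    rw [Fintype.sum_prod_type]
  have h2 : ∀ q : R × R × C × C,
      N q.1 q.2.2.1 * N q.1 q.2.2.2 * N q.2.1 q.2.2.2 * N q.2.1 q.2.2.1 =
      ∑ v1 ∈ P, ∑ v2 ∈ P, ∑ v3 ∈ P, ∑ v4 ∈ P, if q ∈ quads S v1 v2 v3 v4 then 1 else 0 := by
    intro q
    simp only [hN, Finset.card_filter, mem_quads]
    rw [Finset.sum_mul_sum, Finset.sum_mul, Finset.sum_mul]
    refine Finset.sum_congr rfl fun v1 _ => ?_
    rw [Finset.sum_mul, Finset.sum_mul]
    refine Finset.sum_congr rfl fun v2 _ => ?_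
    rw [mul_assoc, Finset.sum_mul_sum, Finset.mul_sum]
    refine Finset.sum_congr rfl fun v3 _ => ?_
    rw [Finset.mul_sum]
    refine Finset.sum_congr rfl fun v4 _ => ?_
    by_cases a1 : S v1 q.1 q.2.2.1 <;> by_cases a2 : S v2 q.1 q.2.2.2 <;>
      by_cases a3 : S v3 q.2.1 q.2.2.2 <;> by_cases a4 : S v4 q.2.1 q.2.2.1 <;> simp [a1, a2, a3, a4]
  rw [h1, Finset.sum_congr rfl fun q _ => h2 q, Finset.sum_comm]
  refine Finset.sum_congr rfl fun v1 _ => ?_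
  rw [Finset.sum_comm]
  refine Finset.sum_congr rfl fun v2 _ => ?_
  rw [Finset.sum_comm]
  refine Finset.sum_congr rfl fun v3 _ => ?_
  rw [Finset.sum_comm]
  refine Finset.sum_congr rfl fun v4 _ => ?_
  rw [Finset.sum_boole]
  simp

/-- The step relation on index pairs. -/
def StepI {σ ι : Type*} [Fintype σ] [DecidableEq σ] (s : σ → Bool) (mon : ι → σ →₀ ℕ)
    (a b a' b' : ℕ) (v : ι) (A : Idx σ a b) (B : Idx σ a' b') : Prop :=
  Step s (mon v) A.1.1 A.2.1 B.1.1 B.2.1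

theorem card_quads_le {σ ι : Type*} [Fintype σ] [DecidableEq σ] (s : σ → Bool)
    (mon : ι → σ →₀ ℕ) (l1 l2 a b : ℕ) (v1 v2 v3 v4 : ι) (mY mZ : σ →₀ ℕ)
    (hY : ∀ A A' : σ →₀ ℕ, A + pP s (mon v1) = A' + pP s (mon v4) → mY ≤ A)
    (hZ : ∀ B B' : σ →₀ ℕ, B + pN s (mon v1) = B' + pN s (mon v2) → mZ ≤ B) :
    (quads (StepI s mon l1 b a l2) v1 v2 v3 v4).card ≤
      ((Mon σ l1).filter fun A => mY ≤ A).card * ((Mon σ l2).filter fun A => mZ ≤ A).card := by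
  rw [← Finset.card_product]
  refine Finset.card_le_card_of_injOn (fun q => (q.1.1.1, q.2.2.1.2.1)) ?_ ?_
  · intro q hq
    obtain ⟨h1, h2, h3, h4⟩ := (mem_quads _ _ _ _ _ _).1 (Finset.mem_coe.1 hq)
    exact Finset.mem_coe.2 (Finset.mem_product.2
      ⟨Finset.mem_filter.2 ⟨q.1.1.2, hY _ _ (h1.1.symm.trans h4.1)⟩,
        Finset.mem_filter.2 ⟨q.2.2.1.2.2, hZ _ _ (h1.2.symm.trans h2.2)⟩⟩)
  · intro q hq q' hq' hqq
    obtain ⟨h1, h2, h3, h4⟩ := (mem_quads _ _ _ _ _ _).1 (Finset.mem_coe.1 hq)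
    obtain ⟨h1', h2', h3', h4'⟩ := (mem_quads _ _ _ _ _ _).1 (Finset.mem_coe.1 hq')
    have eA1 : q.1.1.1 = q'.1.1.1 := congrArg Prod.fst hqq
    have eB2 : q.2.2.1.2.1 = q'.2.2.1.2.1 := congrArg Prod.snd hqq
    have eB1 : q.2.2.1.1.1 = q'.2.2.1.1.1 := by rw [h1.1, h1'.1, eA1]
    have eA2 : q.1.2.1 = q'.1.2.1 := by rw [h1.2, h1'.2, eB2]
    have eE1 : q.2.2.2.1.1 = q'.2.2.2.1.1 := by rw [h2.1, h2'.1, eA1]
    have eE2 : q.2.2.2.2.1 = q'.2.2.2.2.1 := add_right_cancel (h2.2.symm.trans (eA2.trans h2'.2))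
    have eC1 : q.2.1.1.1 = q'.2.1.1.1 := add_right_cancel (h4.1.symm.trans (eB1.trans h4'.1))
    have eC2 : q.2.1.2.1 = q'.2.1.2.1 := by rw [h4.2, h4'.2, eB2]
    exact Prod.ext (Prod.ext (Subtype.ext eA1) (Subtype.ext eA2))
      (Prod.ext (Prod.ext (Subtype.ext eC1) (Subtype.ext eC2))
        (Prod.ext (Prod.ext (Subtype.ext eB1) (Subtype.ext eB2))
          (Prod.ext (Subtype.ext eE1) (Subtype.ext eE2))))

theorem sumSingle_le_P (word : ℕ → Bool) {w d : ℕ} (v1 v4 : Fin (d + 1) → Fin w)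
    (A A' : (Fin d × Fin w × Fin w) →₀ ℕ)
    (h : A + pP (wordMark word w d) (pathMon v1) = A' + pP (wordMark word w d) (pathMon v4)) :
    (∑ j ∈ (Finset.univ.filter fun j : Fin d => word j.val = true ∧ edge v1 j ≠ edge v4 j),
      Finsupp.single (edge v4 j) (1 : ℕ)) ≤ A := by
  intro x
  have a1 := DFunLike.congr_fun h x
  simp only [Finsupp.add_apply, pP_apply, pathMon_apply] at a1
  rw [sumSingle_apply]
  split_ifs with hx
  · obtain ⟨hxF, hx4⟩ := hx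
    obtain ⟨hw, hne⟩ := (Finset.mem_filter.1 hxF).2
    have hs : wordMark word w d x = true := hw
    have hx1 : ¬ edge v1 x.1 = x := fun h => hne (h.trans hx4.symm)
    rw [if_pos hs, if_neg hx1, if_pos hs, if_pos hx4] at a1
    omega
  · exact Nat.zero_le _

theorem sumSingle_le_N (word : ℕ → Bool) {w d : ℕ} (v1 v2 : Fin (d + 1) → Fin w)
    (B B' : (Fin d × Fin w × Fin w) →₀ ℕ)
    (h : B + pN (wordMark word w d) (pathMon v1) = B' + pN (wordMark word w d) (pathMon v2)) :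
    (∑ j ∈ (Finset.univ.filter fun j : Fin d => word j.val = false ∧ edge v1 j ≠ edge v2 j),
      Finsupp.single (edge v2 j) (1 : ℕ)) ≤ B := by
  intro x
  have a1 := DFunLike.congr_fun h x
  simp only [Finsupp.add_apply, pN_apply, pathMon_apply] at a1
  rw [sumSingle_apply]
  split_ifs with hx
  · obtain ⟨hxF, hx4⟩ := hx
    obtain ⟨hw, hne⟩ := (Finset.mem_filter.1 hxF).2
    have hs : wordMark word w d x = false := hw
    have hx1 : ¬ edge v1 x.1 = x := fun h => hne (h.trans hx4.symm)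
    rw [if_pos hs, if_neg hx1, if_pos hs, if_pos hx4] at a1
    omega
  · exact Nat.zero_le _

theorem count_arith {α β c x y D1 D2 κ : ℝ} {u u' : ℕ} (hα : 0 < α) (hβ : 0 < β)
    (hy : 0 ≤ y) (hD1 : 0 ≤ D1) (hD2 : 0 ≤ D2) (hc : c ≤ x * y) (hx : x * (α ^ 2) ^ u ≤ D1)
    (hy' : y * (β ^ 2) ^ u' ≤ D2) (hκ : ((α ^ 2)⁻¹) ^ u * ((β ^ 2)⁻¹) ^ u' ≤ κ) :
    c ≤ D1 * D2 * κ := by
  have hα2 : 0 < (α ^ 2) ^ u := by positivity
  have hβ2 : 0 < (β ^ 2) ^ u' := by positivity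
  have h1 := (le_div_iff₀ hα2).2 hx
  have h2 := (le_div_iff₀ hβ2).2 hy'
  refine hc.trans ((mul_le_mul h1 h2 hy (by positivity)).trans ?_)
  refine le_trans (le_of_eq ?_) (mul_le_mul_of_nonneg_left hκ (by positivity))
  rw [inv_pow, inv_pow]
  field_simp

/-- The number of closed walks of length four that use four given paths. -/
theorem count_le (word : ℕ → Bool) (w d : ℕ) (l1 l2 a b : ℕ) {α β : ℝ}
    (hα : 0 < α) (hβ : 0 < β)
    (hY : ∀ m : (Fin d × Fin w × Fin w) →₀ ℕ,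
      (((Mon (Fin d × Fin w × Fin w) l1).filter fun A => m ≤ A).card : ℝ) * (α ^ 2) ^ m.degree ≤
        (Mon (Fin d × Fin w × Fin w) l1).card)
    (hZ : ∀ m : (Fin d × Fin w × Fin w) →₀ ℕ,
      (((Mon (Fin d × Fin w × Fin w) l2).filter fun A => m ≤ A).card : ℝ) * (β ^ 2) ^ m.degree ≤
        (Mon (Fin d × Fin w × Fin w) l2).card)
    (v1 v2 v3 v4 : Fin (d + 1) → Fin w) :
    ((quads (StepI (wordMark word w d) pathMon l1 b a l2) v1 v2 v3 v4).card : ℝ) ≤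
      (Mon (Fin d × Fin w × Fin w) l1).card * (Mon (Fin d × Fin w × Fin w) l2).card *
        kapProd word α β v1 v2 v3 v4 := by
  have hkap0 : 0 ≤ kapProd word α β v1 v2 v3 v4 :=
    Finset.prod_nonneg fun j _ => kap_nonneg _ _ _ _ _
  rcases (quads (StepI (wordMark word w d) pathMon l1 b a l2) v1 v2 v3 v4).eq_empty_or_nonempty
    with hemp | ⟨q0, hq0⟩
  · rw [hemp, Finset.card_empty, Nat.cast_zero]
    positivity
  obtain ⟨h1, h2, h3, h4⟩ := (mem_quads _ _ _ _ _ _).1 hq0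
  have hclosed := edges_closed (closed_of_steps h1 h2 h3 h4)
  have hcard := card_quads_le (wordMark word w d) pathMon l1 l2 a b v1 v2 v3 v4 _ _
    (sumSingle_le_P word v1 v4) (sumSingle_le_N word v1 v2)
  have hY' := hY (∑ j ∈ (Finset.univ.filter fun j : Fin d =>
    word j.val = true ∧ edge v1 j ≠ edge v4 j), Finsupp.single (edge v4 j) (1 : ℕ))
  have hZ' := hZ (∑ j ∈ (Finset.univ.filter fun j : Fin d =>
    word j.val = false ∧ edge v1 j ≠ edge v2 j), Finsupp.single (edge v2 j) (1 : ℕ))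
  rw [degree_sumSingle] at hY' hZ'
  have hw : ((α ^ 2)⁻¹) ^ (Finset.univ.filter fun j : Fin d =>
      word j.val = true ∧ edge v1 j ≠ edge v4 j).card * ((β ^ 2)⁻¹) ^
      (Finset.univ.filter fun j : Fin d => word j.val = false ∧ edge v1 j ≠ edge v2 j).card ≤
      kapProd word α β v1 v2 v3 v4 := by
    rw [← Finset.prod_const, ← Finset.prod_const, Finset.prod_filter, Finset.prod_filter,
      ← Finset.prod_mul_distrib]
    refine Finset.prod_le_prod (fun j _ => ?_) (fun j _ => weight_le_kap α β _ j (hclosed j))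
    refine mul_nonneg ?_ ?_ <;> split_ifs <;> positivity
  have hcard' := (Nat.cast_le (α := ℝ)).2 hcard
  rw [Nat.cast_mul] at hcard'
  exact count_arith hα hβ (Nat.cast_nonneg _) (Nat.cast_nonneg _) (Nat.cast_nonneg _)
    hcard' hY' hZ' hw

theorem fourth_moment (word : ℕ → Bool) (w d : ℕ) [NeZero w] (l1 l2 a b : ℕ) {α β : ℝ}
    (hα : 0 < α) (hβ : 0 < β)
    (hY : ∀ m : (Fin d × Fin w × Fin w) →₀ ℕ,
      (((Mon (Fin d × Fin w × Fin w) l1).filter fun A => m ≤ A).card : ℝ) * (α ^ 2) ^ m.degree ≤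
        (Mon (Fin d × Fin w × Fin w) l1).card)
    (hZ : ∀ m : (Fin d × Fin w × Fin w) →₀ ℕ,
      (((Mon (Fin d × Fin w × Fin w) l2).filter fun A => m ≤ A).card : ℝ) * (β ^ 2) ^ m.degree ≤
        (Mon (Fin d × Fin w × Fin w) l2).card) :
    ((∑ r1, ∑ r2, ∑ c1, ∑ c2, natMat word w d l1 b a l2 r1 c1 * natMat word w d l1 b a l2 r1 c2 *
        natMat word w d l1 b a l2 r2 c2 * natMat word w d l1 b a l2 r2 c1 : ℕ) : ℝ) ≤
      (Mon (Fin d × Fin w × Fin w) l1).card * (Mon (Fin d × Fin w × Fin w) l2).card *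
        ∑ v1 ∈ Paths w d, ∑ v2 ∈ Paths w d, ∑ v3 ∈ Paths w d, ∑ v4 ∈ Paths w d,
          kapProd word α β v1 v2 v3 v4 := by
  classical
  rw [fourth_eq_sum_quads (StepI (wordMark word w d) pathMon l1 b a l2) (Paths w d)
    (natMat word w d l1 b a l2) (fun r c => by
      unfold natMat StepI
      rw [Matrix.of_apply])]
  rw [Nat.cast_sum, Finset.mul_sum]
  refine Finset.sum_le_sum fun v1 _ => ?_
  rw [Nat.cast_sum, Finset.mul_sum]
  refine Finset.sum_le_sum fun v2 _ => ?_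
  rw [Nat.cast_sum, Finset.mul_sum]
  refine Finset.sum_le_sum fun v3 _ => ?_
  rw [Nat.cast_sum, Finset.mul_sum]
  refine Finset.sum_le_sum fun v4 _ => ?_
  exact count_le word w d l1 l2 a b hα hβ hY hZ v1 v2 v3 v4

end Vale.Agent.N346
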