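import Vale.Agent.N346.Transfer
import Vale.Agent.N346.CheapAlg
import Vale.Agent.N346.RankBound
import Vale.Agent.N346.FirstMoment
import Vale.Agent.N346.FourthMoment

/-!
# P346: the core inequality

The rank of the matrix of the path polynomial is squeezed between the trace lower bound and the
cost upper bound.
-/

namespace Vale.Agent.N346

open MvPolynomial

theorem core_real {w D r N Z a lam T : ℝ} {e : ℕ} (hw : 0 < w) (hD : 0 < D) (hr : 0 ≤ r)
    (hN : 0 ≤ N) (hlam : 0 ≤ lam) (hlow : (w ^ e * D) ^ 2 ≤ r * N) (hup : r ≤ D * a * lam)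
    (h4 : N ≤ D * Z) (htr : Z * a ≤ 3 * (w ^ 2 * T) ^ (e + 1)) :
    1 ≤ 3 * w ^ 2 * T ^ (e + 1) * lam := by
  have h5 : (w ^ e * D) ^ 2 ≤ D ^ 2 * (lam * (3 * (w ^ 2 * T) ^ (e + 1))) := by
    calc (w ^ e * D) ^ 2 ≤ r * N := hlow
      _ ≤ (D * a * lam) * (D * Z) := mul_le_mul hup h4 hN (le_trans hr hup)
      _ = D ^ 2 * (lam * (Z * a)) := by ring
      _ ≤ _ := by gcongr
  have hpos : 0 < (w ^ e * D) ^ 2 := by positivity
  have h6 : D ^ 2 * (lam * (3 * (w ^ 2 * T) ^ (e + 1))) =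
      (w ^ e * D) ^ 2 * (3 * w ^ 2 * T ^ (e + 1) * lam) := by
    rw [mul_pow (w ^ 2)]
    ring
  rw [h6] at h5
  exact (le_mul_iff_one_le_right hpos).1 h5

theorem core_ineq (K : Type*) [Field K] [CharZero K] (w d : ℕ) [NeZero w] (hd : 1 ≤ d)
    (l1 l2 : ℕ) (hl1 : 1 ≤ l1) (hl2 : 1 ≤ l2) {α β lam : ℝ}
    (hα : α ^ 2 = (((d * (w * w) : ℕ) : ℝ) + l1 - 1) / l1)
    (hβ : β ^ 2 = (((d * (w * w) : ℕ) : ℝ) + l2 - 1) / l2)
    (hβ1 : 1 ≤ β) (hαβ : β ≤ α) (hαw : α ≤ w)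
    (h : ∀ s, Cheap s α β (pathPoly K w d) lam) :
    1 ≤ 3 * (w : ℝ) ^ 2 * (1 + 2 * α ^ 2 / w) ^ d * lam := by
  classical
  have hβ0 : 0 < β := by linarith
  have hα0 : 0 < α := by linarith
  have hw : 0 < w := Nat.pos_of_ne_zero (NeZero.ne w)
  have hwR : (0 : ℝ) < w := by exact_mod_cast hw
  have hcard : Fintype.card (Fin d × Fin w × Fin w) = d * (w * w) := by simp
  have hσ : 1 ≤ Fintype.card (Fin d × Fin w × Fin w) := by
    rw [hcard]
    exact Nat.mul_pos hd (Nat.mul_pos hw hw)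
  have hα' : α ^ 2 = MonoCount.rho (Fintype.card (Fin d × Fin w × Fin w)) l1 := by
    rw [hα, hcard]; rfl
  have hβ' : β ^ 2 = MonoCount.rho (Fintype.card (Fin d × Fin w × Fin w)) l2 := by
    rw [hβ, hcard]; rfl
  obtain ⟨word, hω⟩ := exists_word hβ1 hαβ
  have hD1pos : (0 : ℝ) < (Mon (Fin d × Fin w × Fin w) l1).card := by
    have := MonoCount.card_monos_pos hσ l1
    exact_mod_cast this
  have hD2pos : (0 : ℝ) < (Mon (Fin d × Fin w × Fin w) l2).card := by
    have := MonoCount.card_monos_pos hσ l2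
    exact_mod_cast this
  have hup := rank_le_of_cheap (s := wordMark word w d) hα0 hβ0 l1 l2 (cntP word d) (cntN word d)
    (fun j => by rw [hα']; exact MonoCount.card_monos_add_le hσ hl1 j)
    (fun j => by rw [hβ']; exact MonoCount.card_monos_add_le hσ hl2 j) (h _)
  rw [opMat_pathPoly] at hup
  have hlow := RankTrace.rank_trace_sum (K := K)
    (natMat word w d l1 (l2 + cntN word d) (l1 + cntP word d) l2)
  rw [sum_natMat, card_Paths w d hd] at hlow
  have h4 := fourth_moment word w d l1 l2 (l1 + cntP word d) (l2 + cntN word d) hα0 hβ0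
    (fun m => by rw [hα']; exact MonoCount.card_filter_le_mul_le hσ m l1)
    (fun m => by rw [hβ']; exact MonoCount.card_filter_le_mul_le hσ m l2)
  have htr := transfer word w d hβ1 hαβ hαw hω
  have hlam : 0 ≤ lam := (h (wordMark word w d)).nonneg hα0 hβ0
  have hlowR := (Nat.cast_le (α := ℝ)).2 hlow
  rw [Nat.cast_pow, Nat.cast_mul, Nat.cast_mul, Nat.cast_mul, Nat.cast_pow] at hlowR
  obtain ⟨e, rfl⟩ : ∃ e, d = e + 1 := ⟨d - 1, by omega⟩
  rw [Nat.add_sub_cancel] at hlowR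
  refine core_real hwR (mul_pos hD1pos hD2pos) (Nat.cast_nonneg _) (Nat.cast_nonneg _) hlam
    hlowR (le_trans hup (le_of_eq ?_)) h4 htr
  ring

end Vale.Agent.N346
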