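import Vale.Agent.N346.DagDefs
import Vale.Agent.N346.AFFinal

/-!
# P346: the cost of the output of a homogeneous circuit
-/

namespace Vale.Agent.N346.Dag

open MvPolynomial Finset

universe u

variable {K : Type u} [Field K] {σ V : Type} {Ch : MvPolynomial σ K → ℝ → Prop} {psi : ℕ → ℝ}

theorem sum_group (S : Finset V) (l : List (K × V)) (hS : ∀ p ∈ l, p.2 ∈ S)
    (g : V → MvPolynomial σ K) :
    ∃ c : V → K, (l.map fun p => p.1 • g p.2).sum = ∑ x ∈ S, c x • g x := by
  classical
  induction l with
  | nil => exact ⟨0, by simp⟩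
  | cons p l ih =>
    obtain ⟨c, hc⟩ := ih fun q hq => hS q (List.mem_cons_of_mem _ hq)
    refine ⟨fun x => (if x = p.2 then p.1 else 0) + c x, ?_⟩
    simp only [List.map_cons, List.sum_cons, hc, add_smul, Finset.sum_add_distrib, ite_smul,
      zero_smul, Finset.sum_ite_eq', if_pos (hS p List.mem_cons_self)]

theorem sum_cost (h : CostSystem Ch psi) (S : Finset V) (l : List (K × V))
    (hS : ∀ p ∈ l, p.2 ∈ S) (val : V → MvPolynomial σ K) (deg : V → ℕ)
    (hd : ∀ x ∈ S, (val x).IsHomogeneous (deg x)) {e : ℕ}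
    (he : (l.map fun p => p.1 • val p.2).sum.IsHomogeneous e) {a : ℝ} (ha0 : 0 ≤ a)
    (ha : ∀ x ∈ S, deg x = e → Ch (val x) a) :
    Ch (l.map fun p => p.1 • val p.2).sum (S.card * a) := by
  obtain ⟨c, hc⟩ := sum_group S l hS val
  have h1 := homogeneousComponent_of_mem (m := e) he
  rw [if_pos rfl] at h1
  rw [← h1, hc, map_sum]
  simp only [map_smul]
  refine h.sum_smul S c _ a fun x hx => ?_
  rw [homogeneousComponent_of_mem (hd x hx)]
  split_ifs with h2
  · exact ha x hx h2.symm
  · exact h.mono h.zero ha0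

namespace Circ

variable (C : Circ K σ V)

theorem leaf {v : V} (h : C.layer v = 0) : ∃ e, e ≤ 1 ∧ (C.val v).IsHomogeneous e := by
  have h1 := C.fits v
  have h2 := C.val_eq v
  rcases hg : C.gate v with x | c | l | l <;> rw [hg] at h1 h2
  · exact ⟨1, le_rfl, h2 ▸ isHomogeneous_X K x⟩
  · exact ⟨0, zero_le_one, h2 ▸ isHomogeneous_C σ c⟩
  · simp only [Gate.Fits] at h1; omega
  · simp only [Gate.Fits] at h1; omega

theorem sum_gate {v : V} (h : C.layer v = 1 ∨ C.layer v = 3 ∨ C.layer v = 5) :
    ∃ l : List (K × V), C.gate v = .sum l ∧ (∀ p ∈ l, C.layer p.2 + 1 = C.layer v) ∧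
      C.val v = (l.map fun p => p.1 • C.val p.2).sum := by
  have h1 := C.fits v
  have h2 := C.val_eq v
  have h3 := C.edge v
  rcases hg : C.gate v with x | c | l | l <;> rw [hg] at h1 h2 h3
  · simp only [Gate.Fits] at h1; omega
  · simp only [Gate.Fits] at h1; omega
  · exact ⟨l, rfl, fun p hp => h3 _ (List.mem_map_of_mem hp), h2⟩
  · simp only [Gate.Fits] at h1; omega

theorem prod_gate {v : V} (h : C.layer v = 2 ∨ C.layer v = 4) :
    C.gate v = .prod (C.gate v).inputs ∧
      C.val v = (((C.gate v).inputs : Multiset V).map C.val).prod := by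
  have h1 := C.fits v
  have h2 := C.val_eq v
  rcases hg : C.gate v with x | c | l | l <;> rw [hg] at h1 h2
  · simp only [Gate.Fits] at h1; omega
  · simp only [Gate.Fits] at h1; omega
  · simp only [Gate.Fits] at h1; omega
  · exact ⟨rfl, by simpa [Gate.inputs, Gate.eval] using h2⟩

theorem layer_le (v : V) : C.layer v ≤ 5 := by
  have h1 := C.fits v
  rcases hg : C.gate v with x | c | l | l <;> rw [hg] at h1 <;> simp only [Gate.Fits] at h1 <;> omega

theorem hom_of_syn (h : C.SynHom) : C.Hom := by
  obtain ⟨-, deg, hd⟩ := h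
  have key : ∀ i v, C.layer v = i → (C.val v).IsHomogeneous (deg v) := by
    intro i
    induction i using Nat.strong_induction_on with
    | _ i ih =>
      intro v hv
      have h2 := C.val_eq v
      have h3 := C.edge v
      have h4 := hd v
      rcases hg : C.gate v with x | c | l | l <;> rw [hg] at h2 h3 h4 <;>
        simp only [Gate.HasDegree, Gate.eval, Gate.inputs] at h2 h3 h4
      · rw [h2, h4]; exact isHomogeneous_X K x
      · rw [h2, h4]; exact isHomogeneous_C σ c
      · rw [h2]
        refine (homogeneousSubmodule σ K (deg v)).list_sum_mem fun f hf => ?_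
        obtain ⟨p, hp, rfl⟩ := List.mem_map.1 hf
        have h5 := h3 _ (List.mem_map_of_mem hp)
        exact Submodule.smul_mem _ _ (h4 p hp ▸ ih _ (by omega) p.2 rfl)
      · have := isHomogeneous_multiset_prod (l : Multiset V) C.val deg fun x hx =>
          ih _ (by have := h3 x hx; omega) x rfl
        rw [h2, h4]
        simpa using this
  exact fun v => ⟨_, key _ v rfl⟩

theorem cost [Finite V] (h : CostSystem Ch psi) (hC : C.Hom) {d t : ℕ} (ht : 1 ≤ t)
    (hd : (C.val C.out).IsHomogeneous d) {A D B : ℝ} (hA0 : 0 ≤ A) (hD0 : 0 ≤ D)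
    (hA1 : ∀ e < t, psi e ≤ D * A ^ e) (hA2 : ∀ e, t ≤ e → e ≤ 2 * t → psi e ≤ A ^ e)
    (hB0 : 0 ≤ B) (hB1 : B ≤ 1) (hB : psi 1 ≤ B) (hE : ∀ e ≤ d, psi e ≤ d + 1) :
    Ch (C.val C.out) (C.products * max (D * A ^ d) (C.products * (d + 1) * B ^ t)) := by
  classical
  have := Fintype.ofFinite V
  choose deg hdeg using hC
  obtain ⟨P, hP⟩ : ∃ P : V → ℕ, P = fun v => (((C.gate v).inputs : Multiset V).map deg).sum :=
    ⟨_, rfl⟩
  have hPh : ∀ v, C.layer v = 2 ∨ C.layer v = 4 → (C.val v).IsHomogeneous (P v) := fun v hv => by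
    rw [(C.prod_gate hv).2, hP]
    exact isHomogeneous_multiset_prod _ _ _ fun x _ => hdeg x
  have hcard : ∀ i, i = 2 ∨ i = 4 →
      ((univ.filter fun v => C.layer v = i).card : ℝ) ≤ C.products := fun i hi => by
    rw [products, Nat.card_eq_fintype_card, Fintype.card_subtype]
    exact Nat.cast_le.2 (Finset.card_le_card fun v hv => by
      simp only [mem_filter, mem_univ, true_and] at hv ⊢
      omega)
  have h1 : ∀ v, C.layer v = 1 → Ch (C.val v) (B ^ deg v) := fun v hv => by
    rcases Nat.lt_or_ge (deg v) 2 with e | e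
    · refine h.mono (h.hom (hdeg v)) ?_
      rcases (by omega : deg v = 0 ∨ deg v = 1) with h0 | h0
      · rw [h0, pow_zero]; exact h.psi_zero
      · rw [h0, pow_one]; exact hB
    · obtain ⟨l, -, l1, l2⟩ := C.sum_gate (v := v) (by omega)
      have l3 : ∀ x, ∃ e, C.layer x = 0 → e ≤ 1 ∧ (C.val x).IsHomogeneous e := fun x => by
        by_cases hx : C.layer x = 0
        · exact (C.leaf hx).imp fun _ h _ => h
        · exact ⟨0, fun h => absurd h hx⟩
      choose d0 hd0 using l3
      have := sum_cost h (univ.filter fun x => C.layer x = 0) l (fun p hp => by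
        have := l1 p hp
        simp only [mem_filter, mem_univ, true_and]
        omega) C.val d0 (fun x hx => (hd0 x (mem_filter.1 hx).2).2) (l2 ▸ hdeg v) le_rfl
        fun x hx e' => by have := (hd0 x (mem_filter.1 hx).2).1; omega
      rw [← l2, mul_zero] at this
      exact h.mono this (pow_nonneg hB0 _)
  have h3 : ∀ v, C.layer v = 3 → t ≤ deg v → Ch (C.val v) (C.products * B ^ t) := fun v hv e => by
    obtain ⟨l, -, l1, l2⟩ := C.sum_gate (v := v) (by omega)
    have := sum_cost h (univ.filter fun x => C.layer x = 2) l (fun p hp => by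
      have := l1 p hp
      simp only [mem_filter, mem_univ, true_and]
      omega) C.val P (fun x hx => hPh x (Or.inl (mem_filter.1 hx).2)) (l2 ▸ hdeg v)
      (pow_nonneg hB0 t) fun x hx e' => by
        have hx2 := (mem_filter.1 hx).2
        have h2 := h.prod_pow ((C.gate x).inputs : Multiset V) C.val deg B fun y hy =>
          h1 y (by have := C.edge x y hy; omega)
        rw [← (C.prod_gate (Or.inl hx2)).2] at h2
        refine h.mono h2 (pow_le_pow_of_le_one hB0 hB1 ?_)
        rw [hP] at e'
        exact e.trans e'.ge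
    rw [← l2] at this
    exact h.mono this (mul_le_mul_of_nonneg_right (hcard 2 (Or.inl rfl)) (pow_nonneg hB0 _))
  have h4 : ∀ v, C.layer v = 4 → P v = d →
      Ch (C.val v) (max (D * A ^ d) (C.products * (d + 1) * B ^ t)) := fun v hv e => by
    have hv' := (C.prod_gate (Or.inr hv)).2
    rw [hP] at e
    by_cases hall : ∀ g ∈ ((C.gate v).inputs : Multiset V), deg g ≤ t
    · have := AF.prod_group h ht hA1 hA2 _ C.val deg (fun g hg => ⟨hdeg g, hall g hg⟩) 1 0
        (isHomogeneous_one σ K) (by omega)
      beta_reduce at e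
      rw [e, one_mul, zero_add, ← hv'] at this
      exact h.mono this (le_max_left _ _)
    · push Not at hall
      obtain ⟨g, hg, hgt⟩ := hall
      obtain ⟨r, hr⟩ := Multiset.exists_cons_of_mem hg
      beta_reduce at e
      rw [hr, Multiset.map_cons, Multiset.sum_cons] at e
      have hrest : Ch (r.map C.val).prod ((d : ℝ) + 1) :=
        h.mono (h.hom (isHomogeneous_multiset_prod r C.val deg fun j _ => hdeg j))
          (hE _ (by omega))
      rw [hv', hr, Multiset.map_cons, Multiset.prod_cons]
      refine h.mono (h.mul (h3 g (by have := C.edge v g hg; omega) hgt.le) hrest) ?_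
      refine le_trans (le_of_eq ?_) (le_max_right _ _)
      ring
  have h5 : C.layer C.out = 5 := (C.top _).2 rfl
  obtain ⟨l, -, l1, l2⟩ := C.sum_gate (v := C.out) (by omega)
  have hm : 0 ≤ max (D * A ^ d) (C.products * (d + 1) * B ^ t) :=
    le_trans (by positivity) (le_max_left _ _)
  have := sum_cost h (univ.filter fun x => C.layer x = 4) l (fun p hp => by
    have := l1 p hp
    simp only [mem_filter, mem_univ, true_and]
    omega) C.val P (fun x hx => hPh x (Or.inr (mem_filter.1 hx).2)) (l2 ▸ hd) hm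
    fun x hx e' => h4 x (mem_filter.1 hx).2 e'
  rw [← l2] at this
  exact h.mono this (mul_le_mul_of_nonneg_right (hcard 4 (Or.inr rfl)) hm)

end Circ

end Vale.Agent.N346.Dag
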