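import Mathlib

/-!
# P346: depth-five circuits as labelled acyclic graphs

Definitions only.  One set of vertices, each with a gate and a layer.
-/

namespace Vale.Agent.N346.Dag

open MvPolynomial

universe u

/-- `IMM_{w,d}`: the sum over all index sequences `0 = P 0, P 1, …, P d = 0` of the products of the
variables `x^(t)_{P t, P (t + 1)}`. -/
noncomputable def imm (K : Type u) [Field K] (w d : ℕ) [NeZero w] :
    MvPolynomial (Fin d × Fin w × Fin w) K :=
  ∑ P : Fin (d + 1) → Fin w with P 0 = 0 ∧ P (Fin.last d) = 0,
    ∏ t : Fin d, X (t, P t.castSucc, P t.succ)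

/-- The label of a vertex: a variable, a constant, a sum gate with its list of coefficients and
inputs, or a product gate with its list of inputs (repetitions allowed). -/
inductive Gate (K : Type u) (σ V : Type)
  | var (x : σ)
  | const (c : K)
  | sum (l : List (K × V))
  | prod (l : List V)

variable {K : Type u} [Field K] {σ V : Type}

/-- The inputs of a gate. -/
def Gate.inputs : Gate K σ V → List V
  | .var _ => []
  | .const _ => []
  | .sum l => l.map Prod.snd
  | .prod l => l

/-- Leaves lie in layer 0, sum gates in the layers 1, 3, 5, product gates in the layers 2, 4. -/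
def Gate.Fits : Gate K σ V → ℕ → Prop
  | .var _, i => i = 0
  | .const _, i => i = 0
  | .sum _, i => i = 1 ∨ i = 3 ∨ i = 5
  | .prod _, i => i = 2 ∨ i = 4

/-- The polynomial computed by a gate from the polynomials at its inputs. -/
noncomputable def Gate.eval (val : V → MvPolynomial σ K) : Gate K σ V → MvPolynomial σ K
  | .var x => X x
  | .const c => C c
  | .sum l => (l.map fun p => p.1 • val p.2).sum
  | .prod l => (l.map val).prod

/-- The rule for formal degrees: `1` for variables, `0` for constants, the common degree of all
inputs for a sum gate, the sum of the degrees of the inputs for a product gate. -/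
def Gate.HasDegree (deg : V → ℕ) : Gate K σ V → ℕ → Prop
  | .var _, e => e = 1
  | .const _, e => e = 0
  | .sum l, e => ∀ p ∈ l, deg p.2 = e
  | .prod l, e => e = (l.map deg).sum

/-- A circuit with vertex set `V` and layers sum, product, sum, product, sum above the leaves:
edges only between consecutive layers, a single vertex `out` in the top layer; `val v` is the
polynomial computed at `v`. -/
structure Circ (K : Type u) [Field K] (σ V : Type) where
  gate : V → Gate K σ V
  layer : V → ℕ
  out : V
  val : V → MvPolynomial σ K
  fits : ∀ v, (gate v).Fits (layer v)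
  edge : ∀ v, ∀ x ∈ (gate v).inputs, layer x + 1 = layer v
  top : ∀ v, layer v = 5 ↔ v = out
  val_eq : ∀ v, val v = (gate v).eval val

/-- Syntactically homogeneous: every gate has an input and formal degrees exist. -/
def Circ.SynHom (C : Circ K σ V) : Prop :=
  (∀ v, C.layer v ≠ 0 → (C.gate v).inputs ≠ []) ∧
    ∃ deg : V → ℕ, ∀ v, (C.gate v).HasDegree deg (deg v)

/-- Homogeneous: every vertex computes a homogeneous polynomial. -/
def Circ.Hom (C : Circ K σ V) : Prop := ∀ v, ∃ e, (C.val v).IsHomogeneous e

/-- The number of product gates. -/
noncomputable def Circ.products (C : Circ K σ V) : ℕ :=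
  Nat.card {v // C.layer v = 2 ∨ C.layer v = 4}

/-- `s_K(n)`: the least number of vertices of a syntactically homogeneous circuit that computes
`IMM_{n,n}`. -/
noncomputable def sK (K : Type u) [Field K] (n : ℕ) [NeZero n] : ℕ :=
  sInf {s : ℕ | ∃ (V : Type) (_ : Finite V) (C : Circ K (Fin n × Fin n × Fin n) V),
    C.SynHom ∧ C.val C.out = imm K n n ∧ Nat.card V = s}

end Vale.Agent.N346.Dag
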