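import Vale.Agent.N346.DagCost

/-!
# P346: the lower bound for `IMM_{w,d}` with `d ≤ w ^ (2 - ε)`
-/

namespace Vale.Agent.N346.Dag

open MvPolynomial Finset AF

universe u

theorem imm_eq (K : Type u) [Field K] (w d : ℕ) [NeZero w] : imm K w d = IMM K w d := by
  rw [IMM_eq_sum_paths]
  rfl

theorem exp_le_ratio' {y : ℝ} (hy : 2 ≤ y) :
    Real.exp (-(5 / y)) ≤ (1 - 1 / y) ^ 2 / (1 + 1 / y) := by
  have hy0 : 0 < y := by linarith
  have h0 : 0 < 1 / y := by positivity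
  have h1 : 1 / y ≤ 1 / 2 := one_div_le_one_div_of_le (by norm_num) hy
  have h2 : Real.exp (-(2 * (1 / y))) ≤ 1 - 1 / y := by
    rw [Real.exp_neg, inv_le_comm₀ (Real.exp_pos _) (by linarith), inv_eq_one_div,
      div_le_iff₀ (by linarith)]
    have := Real.add_one_le_exp (2 * (1 / y))
    nlinarith
  have h3 : 1 + 1 / y ≤ Real.exp (1 / y) := by linarith [Real.add_one_le_exp (1 / y)]
  rw [le_div_iff₀ (by positivity)]
  calc Real.exp (-(5 / y)) * (1 + 1 / y) ≤ Real.exp (-(5 / y)) * Real.exp (1 / y) :=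
        mul_le_mul_of_nonneg_left h3 (Real.exp_pos _).le
    _ = Real.exp (-(2 * (1 / y))) ^ 2 := by
        rw [← Real.exp_add, ← Real.exp_nat_mul]
        congr 1
        push_cast
        ring
    _ ≤ (1 - 1 / y) ^ 2 := pow_le_pow_left₀ (Real.exp_pos _).le h2 2

theorem final_numeric' {u x y S M : ℝ} {n : ℕ} (hu : 100 ≤ u) (hx : x = Real.exp u)
    (hy : 50 ≤ y) (hn : (n : ℝ) = y ^ 2) (hS : 0 ≤ S)
    (hM : M ≤ S * (n + 1) * Real.exp (4 * y - (y / 2 - 1) * (u - 2))) {α : ℝ} (hα : α ≤ x ^ 2)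
    (hM0 : 0 ≤ M)
    (h : ((1 - 1 / y) ^ 2 / (1 + 1 / y)) ^ n * (1 / (1 + x ^ 2)) * (1 / (y * x ^ 2)) ≤
      α * (S * M)) : Real.exp (u * y / 10) ≤ S := by
  have hx1 : 101 ≤ x := by rw [hx]; linarith [Real.add_one_le_exp u]
  have hx0 : 0 < x := by linarith
  have hy0 : 0 < y := by linarith
  have h1 : Real.exp (-(5 * y)) ≤ ((1 - 1 / y) ^ 2 / (1 + 1 / y)) ^ n := by
    refine le_trans (le_of_eq ?_)
      (pow_le_pow_left₀ (Real.exp_pos _).le (exp_le_ratio' (by linarith)) n)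
    rw [← Real.exp_nat_mul, hn]
    congr 1
    field_simp
  have h2 : 1 / (2 * x ^ 2) ≤ 1 / (1 + x ^ 2) :=
    one_div_le_one_div_of_le (by positivity) (by nlinarith)
  have hn1 : (n : ℝ) + 1 ≤ 2 * y ^ 2 := by nlinarith
  set E := Real.exp (4 * y - (y / 2 - 1) * (u - 2)) with hE
  have hE0 : 0 < E := Real.exp_pos _
  have h3 : Real.exp (-(5 * y)) * (1 / (2 * x ^ 2)) * (1 / (y * x ^ 2)) ≤
      x ^ 2 * (S * (S * (2 * y ^ 2) * E)) := by
    refine le_trans ?_ (h.trans ?_)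
    · have h4 : 0 ≤ ((1 - 1 / y) ^ 2 / (1 + 1 / y)) ^ n := by positivity
      gcongr
    · refine mul_le_mul hα (mul_le_mul_of_nonneg_left (hM.trans ?_) hS) (by positivity)
        (by positivity)
      gcongr
  have hy3 : 4 * y ^ 3 ≤ Real.exp (2 + 3 * y) := by
    have a1 : y ≤ Real.exp y := by linarith [Real.add_one_le_exp y]
    have a2 : y ^ 3 ≤ Real.exp (3 * y) := by
      rw [show 3 * y = (3 : ℕ) * y by norm_num, Real.exp_nat_mul]
      exact pow_le_pow_left₀ hy0.le a1 3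
    have a3 : (4 : ℝ) ≤ Real.exp 2 := by
      have := Real.quadratic_le_exp_of_nonneg (by norm_num : (0 : ℝ) ≤ 2)
      linarith
    rw [Real.exp_add]
    exact mul_le_mul a3 a2 (by positivity) (Real.exp_pos _).le
  have h4 : Real.exp (-(5 * y)) ≤ S ^ 2 * (Real.exp (2 + 3 * y) * (x ^ 6 * E)) := by
    have h5 : Real.exp (-(5 * y)) * (1 / (2 * x ^ 2)) * (1 / (y * x ^ 2)) =
        Real.exp (-(5 * y)) / (2 * y * x ^ 4) := by field_simp
    rw [h5, div_le_iff₀ (by positivity)] at h3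
    refine h3.trans (le_trans (le_of_eq ?_) (mul_le_mul_of_nonneg_left
      (mul_le_mul_of_nonneg_right hy3 (by positivity)) (by positivity)))
    ring
  have h5 : Real.exp (2 + 3 * y) * (x ^ 6 * E) =
      Real.exp (2 + 3 * y + (6 * u + (4 * y - (y / 2 - 1) * (u - 2)))) := by
    rw [Real.exp_add (2 + 3 * y), Real.exp_add (6 * u), hx, ← Real.exp_nat_mul]
    norm_num [hE]
  rw [h5, ← div_le_iff₀ (Real.exp_pos _), ← Real.exp_sub] at h4
  have h6 : Real.exp (u * y / 10) ^ 2 ≤ S ^ 2 := by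
    refine le_trans ?_ h4
    rw [← Real.exp_nat_mul, Real.exp_le_exp]
    push_cast
    nlinarith
  exact le_of_sq_le_sq h6 hS

theorem window_bounds' {x y α : ℝ} {w : ℕ} (hx : 6 ≤ x) (hy : 1 ≤ y) (hyx : y ≤ Real.exp x)
    (hw : x ^ 11 * y ≤ w) (hα1 : x ≤ α) (hα2 : α ^ 2 ≤ x ^ 3) :
    ∃ K L : ℕ, K * L ≤ w ∧ (α ^ 2 / (1 + α ^ 2)) ^ L ≤ 1 / y ∧
      (1 - 1 / (y * x ^ 2) / α ^ 2) ^ K ≤ 1 / y := by
  have hx0 : 0 < x := by linarith
  have hα0 : 0 < α := by linarith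
  have hexp : Real.exp (-x) ≤ 1 / y := by
    rw [Real.exp_neg, one_div]
    exact inv_anti₀ (by linarith) hyx
  have hx3 : 1 ≤ x ^ 3 := one_le_pow₀ (by linarith)
  have hx4 : 1 ≤ x ^ 4 := one_le_pow₀ (by linarith)
  have hx6 : 1 ≤ x ^ 6 * y := one_le_mul_of_one_le_of_one_le (one_le_pow₀ (by linarith)) hy
  have hL1 : 2 * x ^ 4 ≤ (⌈2 * x ^ 4⌉₊ : ℝ) := Nat.le_ceil _
  have hL2 : (⌈2 * x ^ 4⌉₊ : ℝ) ≤ 3 * x ^ 4 := by
    have := Nat.ceil_lt_add_one (by positivity : 0 ≤ 2 * x ^ 4)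
    linarith
  have hK1 : x ^ 6 * y ≤ (⌈x ^ 6 * y⌉₊ : ℝ) := Nat.le_ceil _
  have hK2 : (⌈x ^ 6 * y⌉₊ : ℝ) ≤ 2 * (x ^ 6 * y) := by
    have := Nat.ceil_lt_add_one (by positivity : 0 ≤ x ^ 6 * y)
    linarith
  refine ⟨⌈x ^ 6 * y⌉₊, ⌈2 * x ^ 4⌉₊, ?_, ?_, ?_⟩
  · have h1 := mul_le_mul hK2 hL2 (by positivity) (by positivity)
    have h2 : 2 * (x ^ 6 * y) * (3 * x ^ 4) ≤ x ^ 11 * y := by
      have : 6 * (x ^ 10 * y) ≤ x * (x ^ 10 * y) := mul_le_mul_of_nonneg_right hx (by positivity)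
      linarith [show x * (x ^ 10 * y) = x ^ 11 * y by ring,
        show 2 * (x ^ 6 * y) * (3 * x ^ 4) = 6 * (x ^ 10 * y) by ring]
    exact_mod_cast h1.trans (h2.trans hw)
  · have h1 : α ^ 2 / (1 + α ^ 2) = 1 - 1 / (1 + α ^ 2) := by field_simp; ring
    rw [h1]
    refine (one_sub_pow_le ((div_le_one (by positivity)).2 (by nlinarith)) _).trans
      (le_trans ?_ hexp)
    rw [Real.exp_le_exp, neg_le_neg_iff, mul_one_div, le_div_iff₀ (by positivity)]
    nlinarith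
  · have h4 : 1 / (y * x ^ 5) ≤ 1 / (y * x ^ 2) / α ^ 2 := by
      rw [div_div]
      refine one_div_le_one_div_of_le (by positivity) ?_
      have : y * x ^ 2 * α ^ 2 ≤ y * x ^ 2 * x ^ 3 := mul_le_mul_of_nonneg_left hα2 (by positivity)
      linarith [show y * x ^ 2 * x ^ 3 = y * x ^ 5 by ring]
    have h5 : 1 / (y * x ^ 2) / α ^ 2 ≤ 1 := by
      rw [div_div, div_le_one (by positivity)]
      exact one_le_mul_of_one_le_of_one_le (one_le_mul_of_one_le_of_one_le hy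
        (one_le_pow₀ (by linarith))) (one_le_pow₀ (by linarith))
    refine (one_sub_pow_le h5 _).trans (le_trans ?_ hexp)
    rw [Real.exp_le_exp, neg_le_neg_iff]
    refine le_trans ?_ (mul_le_mul_of_nonneg_left h4 (Nat.cast_nonneg _))
    rw [← mul_div_assoc, le_div_iff₀ (by positivity)]
    linarith [show x * (y * x ^ 5) = x ^ 6 * y by ring]

theorem max_bound' {u x y S r : ℝ} {n t : ℕ} (hu : 100 ≤ u) (hx : x = Real.exp u) (hy : 2 ≤ y)
    (hn : (n : ℝ) = y ^ 2) (hS : 1 ≤ S) (ht1 : y / 2 ≤ t) (ht2 : (t : ℝ) ≤ y / 2 + 1)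
    (hr : r = Real.exp ((u - Real.log 4) / (4 * t))) :
    max (3 * ((1 + 2 / (t : ℝ)) * r⁻¹) ^ n) (S * (n + 1) * (2 / x) ^ t) ≤
      S * (n + 1) * Real.exp (4 * y - (y / 2 - 1) * (u - 2)) := by
  have ht0 : (0 : ℝ) < t := by linarith
  have hl2 : Real.log 2 ≤ 1 := by linarith [Real.log_le_sub_one_of_pos (by norm_num : (0 : ℝ) < 2)]
  have hl4 : Real.log 4 ≤ 2 := by
    rw [show (4 : ℝ) = 2 ^ 2 by norm_num, Real.log_pow]
    push_cast
    linarith
  refine max_le ?_ ?_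
  · have h1 : (1 + 2 / (t : ℝ)) * r⁻¹ ≤ Real.exp (2 / t - (u - Real.log 4) / (4 * t)) := by
      rw [hr, ← Real.exp_neg, sub_eq_add_neg (2 / (t : ℝ)), Real.exp_add]
      exact mul_le_mul_of_nonneg_right (by linarith [Real.add_one_le_exp (2 / (t : ℝ))])
        (Real.exp_pos _).le
    have h2 : ((1 + 2 / (t : ℝ)) * r⁻¹) ^ n ≤ Real.exp (4 * y - (y / 2 - 1) * (u - 2)) := by
      refine (pow_le_pow_left₀ (by rw [hr]; positivity) h1 n).trans ?_
      rw [← Real.exp_nat_mul, Real.exp_le_exp, hn, mul_sub]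
      have h3 : y ^ 2 * (2 / (t : ℝ)) ≤ 4 * y := by
        rw [← mul_div_assoc, div_le_iff₀ ht0]
        nlinarith
      have h4 : (y / 2 - 1) * (u - 2) ≤ y ^ 2 * ((u - Real.log 4) / (4 * t)) := by
        rw [← mul_div_assoc, le_div_iff₀ (by positivity)]
        have h5 : (y / 2 - 1) * (4 * t) ≤ y ^ 2 := by nlinarith
        calc (y / 2 - 1) * (u - 2) * (4 * t) = (y / 2 - 1) * (4 * t) * (u - 2) := by ring
          _ ≤ y ^ 2 * (u - Real.log 4) :=
            mul_le_mul h5 (by linarith) (by linarith) (by positivity)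
      linarith
    refine mul_le_mul ?_ h2 (by rw [hr]; positivity) (by positivity)
    nlinarith
  · refine mul_le_mul_of_nonneg_left ?_ (by positivity)
    have h1 : 2 / x = Real.exp (Real.log 2 - u) := by
      rw [Real.exp_sub, Real.exp_log (by norm_num), hx]
    rw [h1, ← Real.exp_nat_mul, Real.exp_le_exp]
    have h2 : (y / 2 - 1) * (u - 2) ≤ t * (u - Real.log 2) :=
      mul_le_mul (by linarith) (by linarith) (by linarith) ht0.le
    nlinarith

theorem lower_core (F : Type u) [Field F] {w d : ℕ} [NeZero w] {u y : ℝ} (hu1 : 100 ≤ u)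
    (hy : 50 ≤ y) (hd : (d : ℝ) = y ^ 2) (hyx : y ≤ Real.exp (Real.exp u))
    (hw : Real.exp u ^ 11 * y ≤ w) {V : Type} [Finite V]
    (C : Circ F (Fin d × Fin w × Fin w) V) (hC : C.Hom) (hout : C.val C.out = imm F w d) :
    Real.exp (u * y / 10) ≤ C.products := by
  rw [imm_eq] at hout
  obtain ⟨x, hx⟩ : ∃ x, x = Real.exp u := ⟨_, rfl⟩
  rw [← hx] at hyx hw
  have hx1 : 101 ≤ x := by rw [hx]; linarith [Real.add_one_le_exp u]
  have hx0 : 0 < x := by linarith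
  obtain ⟨t, ht⟩ : ∃ t, t = ⌈y / 2⌉₊ := ⟨_, rfl⟩
  have ht1 : y / 2 ≤ t := ht ▸ Nat.le_ceil _
  have ht2 : (t : ℝ) ≤ y / 2 + 1 := ht ▸ (Nat.ceil_lt_add_one (by linarith)).le
  have ht0 : (0 : ℝ) < t := by linarith
  have ht3 : 1 ≤ t := by exact_mod_cast ht0
  obtain ⟨r, hr⟩ : ∃ r, r = Real.exp ((u - Real.log 4) / (4 * t)) := ⟨_, rfl⟩
  have hl4 : Real.log 4 ≤ 3 := by linarith [Real.log_le_sub_one_of_pos (by norm_num : (0 : ℝ) < 4)]
  have hr1 : 1 ≤ r := by
    rw [hr]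
    exact Real.one_le_exp (div_nonneg (by linarith) (by positivity))
  have hr0 : 0 < r := by linarith
  have hrt : 4 * (r ^ 2) ^ (2 * t) = x := by
    rw [hr, ← pow_mul, ← Real.exp_nat_mul]
    have : ((2 * (2 * t) : ℕ) : ℝ) * ((u - Real.log 4) / (4 * t)) = u - Real.log 4 := by
      push_cast
      field_simp
      ring
    rw [this, Real.exp_sub, Real.exp_log (by norm_num), hx]
    ring
  have hθ1 : 1 ≤ r ^ 2 := one_le_pow₀ hr1
  have hr2 : (r ^ 2) ^ 2 ≤ x := by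
    have h1 : (r ^ 2) ^ 2 ≤ (r ^ 2) ^ (2 * t) := pow_le_pow_right₀ hθ1 (by omega)
    have h2 : 0 ≤ (r ^ 2) ^ (2 * t) := by positivity
    linarith
  have hα1 : x ≤ r ^ 2 * x := by nlinarith
  have hα2 : (r ^ 2 * x) ^ 2 ≤ x ^ 3 := by
    rw [mul_pow, pow_succ' x 2]
    exact mul_le_mul_of_nonneg_right hr2 (by positivity)
  have hα3 : r ^ 2 * x ≤ x ^ 2 := by
    rw [pow_two x]
    exact mul_le_mul_of_nonneg_right (by nlinarith) hx0.le
  have hα0 : 0 < r ^ 2 * x := by positivity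
  obtain ⟨word, hω⟩ := exists_word (α := r ^ 2 * x) (β := x) (by linarith) hα1
  obtain ⟨K, L, hKL, hL, hK⟩ := window_bounds' (by linarith) (by linarith) hyx hw hα1 hα2
  have hpsi := psi_le_three hx0 hr1 rfl (T := 2 * t) hrt.le
  have hσ : 1 ≤ 1 + 2 / (t : ℝ) := by
    have : 0 ≤ 2 / (t : ℝ) := by positivity
    linarith
  have hcost := C.cost (costSystem_cheap (wordMark word w d) hα0 hx0) hC
    (d := d) (t := t) ht3 (hout ▸ IMM_isHomogeneous F w d)
    (A := (1 + 2 / (t : ℝ)) * r⁻¹) (D := 3) (B := 2 / x) (by positivity) (by norm_num)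
    (fun e he => (hpsi e (by omega)).trans (by
      rw [mul_pow]
      have h1 : 1 ≤ (1 + 2 / (t : ℝ)) ^ e := one_le_pow₀ hσ
      have h2 : 0 ≤ r⁻¹ ^ e := by positivity
      nlinarith))
    (fun e he1 he2 => (hpsi e he2).trans (by
      rw [mul_pow]
      refine mul_le_mul_of_nonneg_right ?_ (by positivity)
      refine le_trans ?_ (pow_le_pow_right₀ hσ he1)
      refine le_trans (le_of_eq ?_) (one_add_mul_le_pow (by linarith) t)
      field_simp
      norm_num))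
    (by positivity) ((div_le_one hx0).2 (by linarith)) (psi_one_le' hx0 hα1)
    (fun e he => by
      have : (e : ℝ) ≤ d := by exact_mod_cast he
      linarith [psi_le_succ hα0 hx0 e])
  rw [hout] at hcost
  have hy0 : 0 < y := by linarith
  have hγ : 1 / (y * x ^ 2) * x ^ 2 = 1 / y := by field_simp
  have hd1 : 1 ≤ d := by
    have : (1 : ℝ) ≤ d := by nlinarith
    exact_mod_cast this
  have hge := cost_ge (K := K) (L := L) F word (γ0 := 1 / (y * x ^ 2)) (η := 1 / y)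
    (by linarith) hα1 hω hd1 hKL (by positivity)
    (by rw [hγ]; exact (div_le_one hy0).2 (by linarith)) (by positivity)
    ((div_le_one hy0).2 (by linarith)) hL hK hcost
  rw [hγ] at hge
  have hS : (1 : ℝ) ≤ C.products := by
    rcases Nat.eq_zero_or_pos C.products with h0 | h0
    · rw [h0, Nat.cast_zero, zero_mul, mul_zero] at hge
      have h1 : 0 < 1 - 1 / y := by
        rw [sub_pos, div_lt_one hy0]
        linarith
      exact absurd hge (not_le.2 (by positivity))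
    · exact_mod_cast h0
  exact final_numeric' hu1 hx hy hd (by linarith)
    (max_bound' hu1 hx (by linarith) hd hS ht1 ht2 hr) hα3
    (le_trans (by positivity) (le_max_left _ _)) hge

/-- **Lower bound for the number of product gates.** -/
theorem lower {ε : ℝ} (hε : 0 < ε) : ∃ w₀ : ℕ, ∀ (F : Type u) [Field F] (w d : ℕ) [NeZero w],
    w₀ ≤ w → 2500 ≤ d → (d : ℝ) ≤ (w : ℝ) ^ (2 - ε) →
    ∀ (V : Type) [Finite V] (C : Circ F (Fin d × Fin w × Fin w) V), C.Hom →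
      C.val C.out = imm F w d → (w : ℝ) ^ (ε * √d / 220) ≤ C.products := by
  refine ⟨⌈Real.exp (22 / ε * (100 + 44 / ε))⌉₊, fun F _ w d _ hw hd hdw V _ C hC hout => ?_⟩
  have hw1 : Real.exp (22 / ε * (100 + 44 / ε)) ≤ w := (Nat.le_ceil _).trans (by exact_mod_cast hw)
  have hw0 : (0 : ℝ) < w := lt_of_lt_of_le (Real.exp_pos _) hw1
  obtain ⟨u, hu⟩ : ∃ u, u = ε / 22 * Real.log w := ⟨_, rfl⟩
  have hlog : Real.log w = 22 / ε * u := by rw [hu]; field_simp
  have hu0 : 100 + 44 / ε ≤ u := by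
    have h1 := (Real.le_log_iff_exp_le hw0).2 hw1
    rw [hlog] at h1
    exact le_of_mul_le_mul_left h1 (by positivity)
  have he : 0 < 44 / ε := by positivity
  have hy : 50 ≤ √(d : ℝ) := Real.le_sqrt_of_sq_le (by exact_mod_cast (by omega : 50 ^ 2 ≤ d))
  have h1 : Real.exp u ^ 11 * √(d : ℝ) ≤ w := by
    have a1 : Real.exp u ^ 11 = (w : ℝ) ^ (ε / 2) := by
      rw [← Real.exp_nat_mul, Real.rpow_def_of_pos hw0, hu]
      congr 1
      push_cast
      ring
    have a2 : √(d : ℝ) ≤ (w : ℝ) ^ (1 - ε / 2) := by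
      refine Real.sqrt_le_iff.2 ⟨by positivity, hdw.trans (le_of_eq ?_)⟩
      rw [← Real.rpow_natCast, ← Real.rpow_mul hw0.le]
      congr 1
      push_cast
      ring
    calc _ ≤ (w : ℝ) ^ (ε / 2) * (w : ℝ) ^ (1 - ε / 2) := by rw [a1]; gcongr
      _ = w := by rw [← Real.rpow_add hw0]; simp
  have h2 : √(d : ℝ) ≤ Real.exp (Real.exp u) := by
    have a1 : 1 ≤ Real.exp u ^ 11 := one_le_pow₀ (Real.one_le_exp (by linarith))
    have a2 : √(d : ℝ) ≤ w := le_trans (by nlinarith) h1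
    refine a2.trans ((Real.log_le_iff_le_exp hw0).1 ?_)
    have a3 := Real.quadratic_le_exp_of_nonneg (by linarith : 0 ≤ u)
    rw [hlog, show 22 / ε = 44 / ε / 2 by ring]
    nlinarith
  refine le_trans (le_of_eq ?_) (lower_core F (by linarith) hy
    (Real.sq_sqrt (Nat.cast_nonneg d)).symm h2 h1 C hC hout)
  rw [Real.rpow_def_of_pos hw0, hu]
  congr 1
  ring

end Vale.Agent.N346.Dag
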