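import Vale.Agent.N346.Defs

/-!
# P346: the upper bound

An explicit syntactically homogeneous circuit for `IMM_{n,n}` with at most `n ^ (sqrt n + 4)`
vertices, over every field.  The `n` matrices are cut into blocks of length at most
`sqrt n + 1`; each entry of a block product is a sum over paths, and `IMM` is the sum over the
vertices at the cuts of the products of block entries.
-/

namespace Vale.Agent.N346.UB

open Finset MvPolynomial

universe u v

section Paths

variable {R : Type*} [CommSemiring R] {ι : Type*} [Fintype ι] [DecidableEq ι]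

/-- An entry of a product of `m` square matrices is a sum over vertex sequences. -/
theorem ofFn_prod_apply (m : ℕ) (A : Fin m → Matrix ι ι R) (i j : ι) :
    (List.ofFn A).prod i j =
      ∑ v : Fin (m + 1) → ι, if v 0 = i ∧ v (Fin.last m) = j then
        ∏ t, A t (v t.castSucc) (v t.succ) else 0 := by
  induction m generalizing i with
  | zero =>
    simp only [List.ofFn_zero, List.prod_nil, Nat.reduceAdd, Fin.isValue, Fin.reduceLast,
      univ_eq_empty, prod_empty]
    rw [← (Equiv.funUnique (Fin 1) ι).symm.sum_comp]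
    simp only [Equiv.funUnique_symm_apply, uniqueElim_const]
    rw [Matrix.one_apply]
    by_cases h : i = j
    · subst h; simp
    · rw [if_neg h, eq_comm]
      refine Finset.sum_eq_zero fun x _ => if_neg ?_
      rintro ⟨rfl, rfl⟩
      exact h rfl
  | succ m ih =>
    rw [List.ofFn_succ, List.prod_cons, Matrix.mul_apply]
    simp_rw [ih]
    symm
    rw [← (Fin.consEquiv fun _ : Fin (m + 2) => ι).sum_comp, Fintype.sum_prod_type]
    have hc : ∀ (k : ι) (v : Fin (m + 1) → ι),
        (Fin.consEquiv fun _ : Fin (m + 2) => ι) (k, v) = (Fin.cons k v : Fin (m + 2) → ι) :=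
      fun _ _ => rfl
    simp only [hc, Fin.cons_zero]
    rw [Finset.sum_eq_single i]
    · simp_rw [Finset.mul_sum]
      rw [Finset.sum_comm]
      refine Finset.sum_congr rfl fun v _ => ?_
      rw [Finset.sum_eq_single (v 0)]
      · have hl : (Fin.cons i v : Fin (m + 2) → ι) (Fin.last (m + 1)) = v (Fin.last m) := by
          rw [← Fin.succ_last, Fin.cons_succ]
        rw [hl]
        by_cases h : v (Fin.last m) = j
        · simp only [h, and_self, if_true]
          rw [Fin.prod_univ_succ]
          simp only [Fin.castSucc_zero, Fin.cons_zero, Fin.cons_succ]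
          congr 1
        · simp [h]
      · intro k _ hk
        simp [Ne.symm hk]
      · simp
    · intro k _ hk
      simp [hk]
    · simp

end Paths

/-- Cutting a product of `n` factors into blocks of length at most `m`. -/
theorem prod_range_blocks {M : Type*} [Monoid M] (f : ℕ → M) (n m r : ℕ) :
    ((List.range (min n (r * m))).map f).prod =
      ((List.range r).map fun j =>
        ((List.range (min m (n - j * m))).map fun s => f (j * m + s)).prod).prod := by
  induction r with
  | zero => simp
  | succ r ih =>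
    rw [List.prod_range_succ, ← ih]
    by_cases h : n ≤ r * m
    · have h1 : min n ((r + 1) * m) = n := min_eq_left (by nlinarith)
      have h2 : min n (r * m) = n := min_eq_left h
      have h3 : min m (n - r * m) = 0 := by omega
      rw [h1, h2, h3]; simp
    · have h2 : min n (r * m) = r * m := min_eq_right (by omega)
      have h1 : min n ((r + 1) * m) = r * m + min m (n - r * m) := by
        rw [Nat.succ_mul]; omega
      rw [h1, h2, List.range_add, List.map_append, List.prod_append, List.map_map]
      rfl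

theorem ofFn_eq_range_map {α : Type*} (f : ℕ → α) (n : ℕ) :
    List.ofFn (fun t : Fin n => f t) = (List.range n).map f := by
  apply List.ext_getElem <;> simp

/-- The position in `Fin n` of the factor number `s` of block number `j`. -/
def pos (n m j : ℕ) (s : Fin (min m (n - j * m))) : Fin n :=
  ⟨j * m + s, by have := s.2; omega⟩

/-- The block decomposition of a product of `n` factors, with `Fin`-indexed lists. -/
theorem prod_ofFn_blocks {M : Type*} [Monoid M] (n m r : ℕ) (h : n ≤ r * m) (A : Fin n → M) :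
    (List.ofFn A).prod =
      (List.ofFn fun j : Fin r =>
        (List.ofFn fun s : Fin (min m (n - j * m)) => A (pos n m j s)).prod).prod := by
  let f : ℕ → M := fun t => if ht : t < n then A ⟨t, ht⟩ else 1
  have h1 : A = fun t : Fin n => f t := by
    funext t; simp [f]
  have h2 : ∀ j : ℕ, (List.ofFn fun s : Fin (min m (n - j * m)) => A (pos n m j s)) =
      (List.range (min m (n - j * m))).map fun s => f (j * m + s) := by
    intro j
    rw [← ofFn_eq_range_map (fun s => f (j * m + s))]
    congr 1
    funext s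
    rw [h1]
    rfl
  have h3 := prod_range_blocks f n m r
  rw [min_eq_left h] at h3
  simp_rw [h2]
  rw [ofFn_eq_range_map (fun j => ((List.range (min m (n - j * m))).map
    fun s => f (j * m + s)).prod), ← h3, ← ofFn_eq_range_map, ← h1]

section Builder

variable {K : Type u} [Field K] {σ : Type v}
variable {G1 G2 G3 G4 : Type} [Fintype G1] [Fintype G2] [Fintype G3] [Fintype G4]

/-- A circuit whose gates are indexed by arbitrary finite types, all of whose coefficients are
`1`, and whose bottom sums are unary and read variables. -/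
@[reducible] noncomputable def build (K : Type u) [Field K] (leaf : G1 → σ) (in2 : G2 → Multiset G1)
    (in3 : G3 → Finset G2) (in4 : G4 → Multiset G3) : Circuit K σ where
  n0 := Fintype.card G1
  n1 := Fintype.card G1
  n2 := Fintype.card G2
  n3 := Fintype.card G3
  n4 := Fintype.card G4
  leaf := fun g => Sum.inl (leaf ((Fintype.equivFin G1).symm g))
  in1 := fun g => {g}
  c1 := fun _ _ => 1
  in2 := fun g => (in2 ((Fintype.equivFin G2).symm g)).map (Fintype.equivFin G1)
  in3 := fun g => (in3 ((Fintype.equivFin G3).symm g)).map (Fintype.equivFin G2).toEmbedding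
  c3 := fun _ _ => 1
  in4 := fun g => (in4 ((Fintype.equivFin G4).symm g)).map (Fintype.equivFin G3)
  in5 := univ
  c5 := fun _ => 1

variable (leaf : G1 → σ) (in2 : G2 → Multiset G1) (in3 : G3 → Finset G2)
  (in4 : G4 → Multiset G3)

theorem build_size : (build K leaf in2 in3 in4).size =
    2 * Fintype.card G1 + Fintype.card G2 + Fintype.card G3 + Fintype.card G4 + 1 := by
  simp only [Circuit.size]; ring

theorem build_val1 (g : G1) :
    (build K leaf in2 in3 in4).val1 (Fintype.equivFin G1 g) = X (leaf g) := by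
  simp [Circuit.val1, Circuit.val0, build]

theorem build_val2 (g : G2) :
    (build K leaf in2 in3 in4).val2 (Fintype.equivFin G2 g) =
      ((in2 g).map fun x => (X (leaf x) : MvPolynomial σ K)).prod := by
  have : (build K leaf in2 in3 in4).in2 (Fintype.equivFin G2 g) =
      (in2 g).map (Fintype.equivFin G1) := by simp [build]
  rw [Circuit.val2, this]
  rw [Multiset.map_map]
  congr 1
  exact Multiset.map_congr rfl fun x _ => build_val1 leaf in2 in3 in4 x

theorem build_val3 (g : G3) :
    (build K leaf in2 in3 in4).val3 (Fintype.equivFin G3 g) =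
      ∑ y ∈ in3 g, ((in2 y).map fun x => (X (leaf x) : MvPolynomial σ K)).prod := by
  have : (build K leaf in2 in3 in4).in3 (Fintype.equivFin G3 g) =
      (in3 g).map (Fintype.equivFin G2).toEmbedding := by simp [build]
  rw [Circuit.val3, this]
  rw [Finset.sum_map]
  refine Finset.sum_congr rfl fun y _ => ?_
  have h1 : (build K leaf in2 in3 in4).c3 (Fintype.equivFin G3 g)
      ((Fintype.equivFin G2).toEmbedding y) = 1 := rfl
  rw [h1, one_smul]
  exact build_val2 leaf in2 in3 in4 y

theorem build_val4 (g : G4) :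
    (build K leaf in2 in3 in4).val4 (Fintype.equivFin G4 g) =
      ((in4 g).map fun z =>
        ∑ y ∈ in3 z, ((in2 y).map fun x => (X (leaf x) : MvPolynomial σ K)).prod).prod := by
  have : (build K leaf in2 in3 in4).in4 (Fintype.equivFin G4 g) =
      (in4 g).map (Fintype.equivFin G3) := by simp [build]
  rw [Circuit.val4, this]
  rw [Multiset.map_map]
  congr 1
  exact Multiset.map_congr rfl fun z _ => build_val3 leaf in2 in3 in4 z

theorem build_output :
    (build K leaf in2 in3 in4).output =
      ∑ g : G4, ((in4 g).map fun z =>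
        ∑ y ∈ in3 z, ((in2 y).map fun x => (X (leaf x) : MvPolynomial σ K)).prod).prod := by
  rw [Circuit.output]
  symm
  refine Fintype.sum_equiv (Fintype.equivFin G4) _ _ fun g => ?_
  have h1 : (build K leaf in2 in3 in4).c5 (Fintype.equivFin G4 g) = 1 := rfl
  rw [h1, one_smul]
  exact (build_val4 leaf in2 in3 in4 g).symm

theorem build_isSynHom (deg3 : G3 → ℕ) (d : ℕ)
    (h3 : ∀ g, ∀ y ∈ in3 g, (in2 y).card = deg3 g)
    (h5 : ∀ g, ((in4 g).map deg3).sum = d) :
    (build K leaf in2 in3 in4).IsSynHom := by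
  refine ⟨fun _ => 1, fun g => deg3 ((Fintype.equivFin G3).symm g), d, ?_, ?_, ?_⟩
  · intro g i _
    rfl
  · intro g i hi
    obtain ⟨y, hy, rfl⟩ := Finset.mem_map.1 hi
    have := h3 _ y hy
    simpa [build] using this
  · intro i _
    rw [← h5 ((Fintype.equivFin G4).symm i)]
    simp only [build]
    rw [Multiset.map_map]
    simp

theorem build_noEmptyGate [Nonempty G4] (h2 : ∀ g, in2 g ≠ 0) (h3 : ∀ g, (in3 g).Nonempty)
    (h4 : ∀ g, in4 g ≠ 0) : (build K leaf in2 in3 in4).NoEmptyGate := by
  refine ⟨fun g => Finset.singleton_nonempty g, fun g => ?_, fun g => ?_, fun g => ?_, ?_⟩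
  · exact fun h => h2 _ (Multiset.map_eq_zero.1 h)
  · exact (h3 _).map
  · exact fun h => h4 _ (Multiset.map_eq_zero.1 h)
  · obtain ⟨g⟩ := ‹Nonempty G4›
    exact ⟨Fintype.equivFin G4 g, Finset.mem_univ _⟩

end Builder

section Construction

variable (K : Type u) [Field K] (n m r : ℕ)

/-- Lower product gates: a block and a vertex sequence through that block. -/
abbrev T2 (n m r : ℕ) : Type := Σ j : Fin r, (Fin (min m (n - j * m) + 1) → Fin n)

/-- Middle sum gates: a block and an entry of the block product. -/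
abbrev T3 (n r : ℕ) : Type := Fin r × Fin n × Fin n

/-- Upper product gates: the vertices at the cuts. -/
abbrev T4 (n r : ℕ) [NeZero n] : Type :=
  {u : Fin (r + 1) → Fin n // u 0 = 0 ∧ u (Fin.last r) = 0}

/-- The variables along a vertex sequence through a block. -/
def i2 (g : T2 n m r) : Multiset (Var n n) :=
  (univ : Finset (Fin (min m (n - g.1 * m)))).val.map
    fun s => (pos n m g.1 s, g.2 s.castSucc, g.2 s.succ)

/-- The vertex sequences through a block with given end points. -/
def i3 (g : T3 n r) : Finset (T2 n m r) :=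
  ((univ : Finset (Fin (min m (n - g.1 * m) + 1) → Fin n)).filter
    fun v => v 0 = g.2.1 ∧ v (Fin.last _) = g.2.2).map
      (Function.Embedding.sigmaMk (β := fun j : Fin r => Fin (min m (n - j * m) + 1) → Fin n) g.1)

/-- The block entries selected by the vertices at the cuts. -/
def i4 [NeZero n] (g : T4 n r) : Multiset (T3 n r) :=
  (univ : Finset (Fin r)).val.map fun j => (j, g.1 j.castSucc, g.1 j.succ)

/-- The circuit for `IMM_{n,n}` with `r` blocks of length at most `m`. -/
@[reducible] noncomputable def circ [NeZero n] : Circuit K (Var n n) :=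
  build K id (i2 n m r) (i3 n m r) (i4 n r)

theorem circ_output [NeZero n] (h : n ≤ r * m) : (circ K n m r).output = IMM K n n := by
  rw [build_output, IMM, prod_ofFn_blocks n m r h, ofFn_prod_apply, ← Finset.sum_filter,
    Finset.sum_subtype (p := fun u : Fin (r + 1) → Fin n => u 0 = 0 ∧ u (Fin.last r) = 0)
      _ (by simp)]
  refine Finset.sum_congr rfl fun u _ => ?_
  rw [i4, Multiset.map_map, Finset.prod_eq_multiset_prod]
  congr 1
  refine Multiset.map_congr rfl fun j _ => ?_
  simp only [Function.comp_apply]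
  rw [ofFn_prod_apply, ← Finset.sum_filter, i3, Finset.sum_map]
  refine Finset.sum_congr rfl fun v _ => ?_
  rw [i2, Multiset.map_map, Finset.prod_eq_multiset_prod]
  rfl

theorem sum_len (j : ℕ) : ∑ i ∈ range j, min m (n - i * m) = min n (j * m) := by
  induction j with
  | zero => simp
  | succ j ih => rw [Finset.sum_range_succ, ih, Nat.succ_mul]; omega

theorem circ_isSynHom [NeZero n] : (circ K n m r).IsSynHom := by
  refine build_isSynHom _ _ _ _ (fun g => min m (n - g.1 * m)) (min n (r * m)) ?_ ?_
  · intro g y hy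
    obtain ⟨v, _, rfl⟩ := Finset.mem_map.1 hy
    simp [i2]
  · intro g
    rw [i4, Multiset.map_map, ← sum_len, ← Fin.sum_univ_eq_sum_range
      (fun i => min m (n - i * m)) r]
    rfl

theorem circ_noEmptyGate [NeZero n] (hm : 0 < m) (hr : 0 < r) (h : (r - 1) * m < n) :
    (circ K n m r).NoEmptyGate := by
  have hlen : ∀ j : Fin r, 0 < min m (n - j * m) := by
    intro j
    have : (j : ℕ) * m ≤ (r - 1) * m := Nat.mul_le_mul_right _ (by have := j.2; omega)
    omega
  have : Nonempty (T4 n r) := ⟨⟨fun _ => 0, rfl, rfl⟩⟩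
  refine build_noEmptyGate _ _ _ _ (fun g => ?_) (fun g => ?_) (fun g => ?_)
  · intro h0
    have := congrArg Multiset.card h0
    have h1 := hlen g.1
    simp only [i2, Multiset.card_map, card_val, card_univ, Fintype.card_fin,
      Multiset.card_zero] at this
    omega
  · refine Finset.Nonempty.map ⟨fun s => if s = 0 then g.2.1 else g.2.2, ?_⟩
    have h1 : Fin.last (min m (n - g.1 * m)) ≠ 0 := by
      intro h0
      have := congrArg Fin.val h0
      have h1 := hlen g.1
      simp only [Fin.val_last, Fin.val_zero] at this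
      omega
    simp [h1]
  · intro h0
    have := congrArg Multiset.card h0
    simp only [i4, Multiset.card_map, card_val, card_univ, Fintype.card_fin,
      Multiset.card_zero] at this
    omega

theorem card_T2_le [NeZero n] : Fintype.card (T2 n m r) ≤ r * n ^ (m + 1) := by
  rw [Fintype.card_sigma]
  calc ∑ j : Fin r, Fintype.card (Fin (min m (n - j * m) + 1) → Fin n)
      ≤ ∑ _j : Fin r, n ^ (m + 1) := by
        refine Finset.sum_le_sum fun j _ => ?_
        rw [Fintype.card_fun, Fintype.card_fin, Fintype.card_fin]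
        exact Nat.pow_le_pow_right (Nat.pos_of_ne_zero (NeZero.ne n)) (by omega)
    _ = r * n ^ (m + 1) := by simp

theorem card_T4_le [NeZero n] : Fintype.card (T4 n r) ≤ n ^ r := by
  have : Fintype.card (T4 n r) ≤ Fintype.card (Fin r → Fin n) := by
    refine Fintype.card_le_of_injective (fun u => Fin.tail u.1) ?_
    intro u u' h
    apply Subtype.ext
    rw [← Fin.cons_self_tail u.1, ← Fin.cons_self_tail u'.1, u.2.1, u'.2.1]
    exact congrArg _ h
  simpa using this

theorem circ_size_le [NeZero n] :
    (circ K n m r).size ≤ 2 * n ^ 3 + r * n ^ (m + 1) + r * n ^ 2 + n ^ r + 1 := by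
  rw [build_size]
  have h1 : Fintype.card (Var n n) = n ^ 3 := by simp [Var]; ring
  have h3 : Fintype.card (T3 n r) = r * n ^ 2 := by simp [T3, sq]
  have h2 := card_T2_le n m r
  have h4 := card_T4_le n r
  omega

end Construction

theorem size_arith (n s r : ℕ) (hn : 2 ≤ n) (hs : 1 ≤ s) (hr : r ≤ s + 1) (hr' : r + 1 ≤ n)
    (h2 : n = 2 → s = 1) :
    2 * n ^ 3 + r * n ^ (s + 1 + 1) + r * n ^ 2 + n ^ r + 1 ≤ n ^ (s + 4) := by
  rcases Nat.eq_or_lt_of_le hn with h | h
  · subst h
    rw [h2 rfl]
    have : r ≤ 1 := by omega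
    interval_cases r <;> norm_num
  · have hn0 : 0 < n := by omega
    set P := n ^ (s + 2) with hP
    have a1 : n ^ 3 ≤ P := Nat.pow_le_pow_right hn0 (by omega)
    have a2 : n ^ r ≤ P := Nat.pow_le_pow_right hn0 (by omega)
    have a3 : r * n ^ 2 + 1 ≤ n ^ 3 := by
      have : 1 ≤ n ^ 2 := Nat.one_le_pow _ _ hn0
      calc r * n ^ 2 + 1 ≤ r * n ^ 2 + n ^ 2 := by omega
        _ = (r + 1) * n ^ 2 := by ring
        _ ≤ n * n ^ 2 := Nat.mul_le_mul_right _ hr'
        _ = n ^ 3 := by ring
    have a4 : (r + 1) * P ≤ n * P := Nat.mul_le_mul_right _ hr'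
    have a5 : n ^ (s + 4) = (n * n) * P := by rw [hP]; ring
    have a6 : (n + 3) * P ≤ (n * n) * P := Nat.mul_le_mul_right _ (by nlinarith)
    rw [a5]
    nlinarith

end Vale.Agent.N346.UB

namespace Vale.Agent.N346

universe u

/-- The upper bound: over every field, `IMM_{n,n}` has a syntactically homogeneous circuit
without empty gates and with at most `n ^ (sqrt n + 4)` vertices. -/
theorem exists_circuit_IMM (K : Type u) [Field K] (n : ℕ) [NeZero n] (hn : 2 ≤ n) :
    ∃ C : Circuit K (Var n n), C.IsSynHom ∧ C.NoEmptyGate ∧ C.output = IMM K n n ∧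
      C.size ≤ n ^ (Nat.sqrt n + 4) := by
  set s := Nat.sqrt n with hs
  have hs1 : 1 ≤ s := Nat.le_sqrt.2 (by omega)
  have hlt : n < (s + 1) * (s + 1) := Nat.lt_succ_sqrt n
  set r := (n + s) / (s + 1) with hr
  have e1 : (s + 1) * r + (n + s) % (s + 1) = n + s := Nat.div_add_mod _ _
  have e2 : (n + s) % (s + 1) < s + 1 := Nat.mod_lt _ (by omega)
  have e3 : n ≤ r * (s + 1) := by rw [mul_comm]; omega
  have e4 : r * (s + 1) ≤ n + s := by rw [mul_comm]; omega
  have hr0 : 0 < r := by
    rcases Nat.eq_zero_or_pos r with h | h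
    · rw [h] at e3; omega
    · exact h
  have e5 : (r - 1) * (s + 1) < n := by
    obtain ⟨r', hr'⟩ : ∃ r', r = r' + 1 := ⟨r - 1, by omega⟩
    rw [hr'] at e4 ⊢
    rw [Nat.add_sub_cancel]
    rw [Nat.succ_mul] at e4
    omega
  have e6 : r ≤ s + 1 := by
    have : (r - 1) * (s + 1) < (s + 1) * (s + 1) := lt_trans e5 hlt
    have := Nat.lt_of_mul_lt_mul_right this
    omega
  have e7 : r + 1 ≤ n := by
    have : (r - 1) * 2 ≤ (r - 1) * (s + 1) := Nat.mul_le_mul_left _ (by omega)
    omega
  refine ⟨UB.circ K n (s + 1) r, UB.circ_isSynHom K n (s + 1) r,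
    UB.circ_noEmptyGate K n (s + 1) r (by omega) hr0 e5, UB.circ_output K n (s + 1) r e3, ?_⟩
  refine (UB.circ_size_le K n (s + 1) r).trans (UB.size_arith n s r hn hs1 e6 e7 ?_)
  rintro rfl
  rw [hs]
  norm_num [Nat.sqrt, Nat.sqrt.iter]

/-- The upper bound with a real exponent. -/
theorem exists_circuit_IMM_real (K : Type u) [Field K] (n : ℕ) [NeZero n] (hn : 2 ≤ n) :
    ∃ C : Circuit K (Var n n), C.IsSynHom ∧ C.NoEmptyGate ∧ C.output = IMM K n n ∧
      (C.size : ℝ) ≤ (n : ℝ) ^ (Real.sqrt n + 4) := by
  obtain ⟨C, h1, h2, h3, h4⟩ := exists_circuit_IMM K n hn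
  refine ⟨C, h1, h2, h3, ?_⟩
  have hn1 : (1 : ℝ) ≤ n := by exact_mod_cast (by omega : 1 ≤ n)
  calc (C.size : ℝ) ≤ (n : ℝ) ^ (Nat.sqrt n + 4) := by exact_mod_cast h4
    _ = (n : ℝ) ^ ((Nat.sqrt n + 4 : ℕ) : ℝ) := (Real.rpow_natCast _ _).symm
    _ ≤ (n : ℝ) ^ (Real.sqrt n + 4) := by
      refine Real.rpow_le_rpow_of_exponent_le hn1 ?_
      have := Real.nat_sqrt_le_real_sqrt (a := n)
      push_cast
      linarith

/-- The minimum defining `sK` is attained. -/
theorem sK_spec (K : Type u) [Field K] (n : ℕ) [NeZero n] :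
    ∃ C : Circuit K (Var n n), C.IsSynHom ∧ C.output = IMM K n n ∧ C.size = sK K n := by
  have h : {s : ℕ | ∃ C : Circuit K (Var n n),
      C.IsSynHom ∧ C.output = IMM K n n ∧ C.size = s}.Nonempty :=
    ⟨_, UB.circ K n n 1, UB.circ_isSynHom K n n 1, UB.circ_output K n n 1 (by omega), rfl⟩
  exact Nat.sInf_mem h

/-- `sK` is at most the size of any admissible circuit. -/
theorem sK_le_size {K : Type u} [Field K] {n : ℕ} [NeZero n] (C : Circuit K (Var n n))
    (h1 : C.IsSynHom) (h2 : C.output = IMM K n n) : sK K n ≤ C.size :=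
  Nat.sInf_le ⟨C, h1, h2, rfl⟩

/-- `s_K(n) ≤ n ^ (sqrt n + 4)`, with the integer square root. -/
theorem sK_le (K : Type u) [Field K] (n : ℕ) [NeZero n] (hn : 2 ≤ n) :
    sK K n ≤ n ^ (Nat.sqrt n + 4) := by
  obtain ⟨C, h1, _, h3, h4⟩ := exists_circuit_IMM K n hn
  exact (sK_le_size C h1 h3).trans h4

/-- `s_K(n) ≤ n ^ (sqrt n + 4)`, with the real square root. -/
theorem sK_le_real (K : Type u) [Field K] (n : ℕ) [NeZero n] (hn : 2 ≤ n) :
    (sK K n : ℝ) ≤ (n : ℝ) ^ (Real.sqrt n + 4) := by
  obtain ⟨C, h1, _, h3, h4⟩ := exists_circuit_IMM_real K n hn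
  exact le_trans (by exact_mod_cast sK_le_size C h1 h3) h4

/-- `s_K(n) ≤ n ^ (2 * sqrt n)` for `n ≥ 16`. -/
theorem sK_le_two_sqrt (K : Type u) [Field K] (n : ℕ) [NeZero n] (hn : 16 ≤ n) :
    (sK K n : ℝ) ≤ (n : ℝ) ^ (2 * Real.sqrt n) := by
  refine (sK_le_real K n (by omega)).trans ?_
  have hn1 : (1 : ℝ) ≤ n := by exact_mod_cast (by omega : 1 ≤ n)
  refine Real.rpow_le_rpow_of_exponent_le hn1 ?_
  have : (4 : ℝ) ≤ Real.sqrt n := Real.le_sqrt_of_sq_le (by exact_mod_cast (by omega : 4 ^ 2 ≤ n))
  linarith

end Vale.Agent.N346
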