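import Vale.Agent.N346.DagLower
import Vale.Agent.N346.UpperBound

/-!
# P346: the upper bound for `IMM_{w,d}`
-/

namespace Vale.Agent.N346.Dag

open MvPolynomial Finset UB

universe u

section Translate

variable {K : Type u} [Field K] {σ : Type} (C : Circuit K σ)

/-- The vertices. -/
abbrev Vx : Type := Fin C.n0 ⊕ Fin C.n1 ⊕ Fin C.n2 ⊕ Fin C.n3 ⊕ Fin C.n4 ⊕ Unit

/-- A function on the vertices, given layer by layer. -/
def onVx {α : Type*} (f0 : Fin C.n0 → α) (f1 : Fin C.n1 → α) (f2 : Fin C.n2 → α)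
    (f3 : Fin C.n3 → α) (f4 : Fin C.n4 → α) (f5 : α) : Vx C → α :=
  Sum.elim f0 (Sum.elim f1 (Sum.elim f2 (Sum.elim f3 (Sum.elim f4 fun _ => f5))))

/-- The gates. -/
noncomputable def gateOf : Vx C → Gate K σ (Vx C) :=
  onVx C (fun g => Sum.elim Gate.var Gate.const (C.leaf g))
    (fun g => .sum ((C.in1 g).toList.map fun i => (C.c1 g i, .inl i)))
    (fun g => .prod ((C.in2 g).toList.map fun i => .inr (.inl i)))
    (fun g => .sum ((C.in3 g).toList.map fun i => (C.c3 g i, .inr (.inr (.inl i)))))
    (fun g => .prod ((C.in4 g).toList.map fun i => .inr (.inr (.inr (.inl i)))))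
    (.sum (C.in5.toList.map fun i => (C.c5 i, .inr (.inr (.inr (.inr (.inl i)))))))

theorem prod_toList {ι M : Type*} [CommMonoid M] (s : Multiset ι) (f : ι → M) :
    (s.toList.map f).prod = (s.map f).prod := by
  rw [← Multiset.prod_coe, ← Multiset.map_coe, Multiset.coe_toList]

theorem sum_toList {ι : Type*} (s : Multiset ι) (f : ι → ℕ) :
    (s.toList.map f).sum = (s.map f).sum := by
  rw [← Multiset.sum_coe, ← Multiset.map_coe, Multiset.coe_toList]

/-- A layered circuit as a labelled graph. -/
noncomputable def ofCircuit : Circ K σ (Vx C) where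
  gate := gateOf C
  layer := onVx C (fun _ => 0) (fun _ => 1) (fun _ => 2) (fun _ => 3) (fun _ => 4) 5
  out := .inr (.inr (.inr (.inr (.inr ()))))
  val := onVx C C.val0 C.val1 C.val2 C.val3 C.val4 C.output
  fits := by
    rintro (g | g | g | g | g | g)
    · simp only [gateOf, onVx, Sum.elim_inl]
      cases C.leaf g <;> rfl
    all_goals simp [gateOf, onVx, Gate.Fits]
  edge := by
    rintro (g | g | g | g | g | g) x hx
    · simp only [gateOf, onVx, Sum.elim_inl] at hx
      cases h : C.leaf g <;> simp [h, Gate.inputs] at hx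
    all_goals
      simp only [gateOf, onVx, Sum.elim_inl, Sum.elim_inr, Gate.inputs, List.map_map,
        List.mem_map] at hx
      obtain ⟨i, -, rfl⟩ := hx
      rfl
  top := by rintro (g | g | g | g | g | g) <;> simp [onVx]
  val_eq := by
    rintro (g | g | g | g | g | g)
    · simp only [gateOf, onVx, Sum.elim_inl, Circuit.val0]
      cases C.leaf g <;> rfl
    · simp only [gateOf, onVx, Sum.elim_inl, Sum.elim_inr, Gate.eval, List.map_map]
      exact (Finset.sum_map_toList _ _).symm
    · simp only [gateOf, onVx, Sum.elim_inl, Sum.elim_inr, Gate.eval, List.map_map]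
      exact (prod_toList _ _).symm
    · simp only [gateOf, onVx, Sum.elim_inl, Sum.elim_inr, Gate.eval, List.map_map]
      exact (Finset.sum_map_toList _ _).symm
    · simp only [gateOf, onVx, Sum.elim_inl, Sum.elim_inr, Gate.eval, List.map_map]
      exact (prod_toList _ _).symm
    · simp only [gateOf, onVx, Sum.elim_inr, Gate.eval, List.map_map]
      exact (Finset.sum_map_toList _ _).symm

omit [Field K] in
theorem card_Vx : Nat.card (Vx C) = C.size := by
  simp [Vx, Circuit.size, add_assoc]

theorem synHom_ofCircuit (h : C.IsSynHom) (h' : C.NoEmptyGate) : (ofCircuit C).SynHom := by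
  obtain ⟨deg1, deg3, deg5, h1, h3, h5⟩ := h
  obtain ⟨e1, e2, e3, e4, e5⟩ := h'
  refine ⟨?_, onVx C C.deg0 deg1 (fun g => ((C.in2 g).map deg1).sum) deg3
    (fun g => ((C.in4 g).map deg3).sum) deg5, ?_⟩
  · rintro (g | g | g | g | g | g) hv
    · exact absurd rfl hv
    · simpa [ofCircuit, gateOf, onVx, Gate.inputs] using (e1 g).ne_empty
    · simpa [ofCircuit, gateOf, onVx, Gate.inputs] using e2 g
    · simpa [ofCircuit, gateOf, onVx, Gate.inputs] using (e3 g).ne_empty
    · simpa [ofCircuit, gateOf, onVx, Gate.inputs] using e4 g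
    · simpa [ofCircuit, gateOf, onVx, Gate.inputs] using e5.ne_empty
  · rintro (g | g | g | g | g | g)
    · simp only [ofCircuit, gateOf, onVx, Sum.elim_inl, Circuit.deg0]
      cases C.leaf g <;> rfl
    · simpa [ofCircuit, gateOf, onVx, Gate.HasDegree] using h1 g
    · simp only [ofCircuit, gateOf, onVx, Sum.elim_inl, Sum.elim_inr, Gate.HasDegree, List.map_map]
      exact (sum_toList _ _).symm
    · simpa [ofCircuit, gateOf, onVx, Gate.HasDegree] using h3 g
    · simp only [ofCircuit, gateOf, onVx, Sum.elim_inl, Sum.elim_inr, Gate.HasDegree, List.map_map]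
      exact (sum_toList _ _).symm
    · simpa [ofCircuit, gateOf, onVx, Gate.HasDegree] using h5

end Translate

section Construction

variable (K : Type u) [Field K] (w n m r : ℕ)

/-- Lower product gates: a block and a vertex sequence through that block. -/
abbrev T2 (w n m r : ℕ) : Type := Σ j : Fin r, (Fin (min m (n - j * m) + 1) → Fin w)

/-- The variables along a vertex sequence through a block. -/
def i2 (g : T2 w n m r) : Multiset (Var w n) :=
  (univ : Finset (Fin (min m (n - g.1 * m)))).val.map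
    fun s => (pos n m g.1 s, g.2 s.castSucc, g.2 s.succ)

/-- The vertex sequences through a block with given end points. -/
def i3 (g : T3 w r) : Finset (T2 w n m r) :=
  ((univ : Finset (Fin (min m (n - g.1 * m) + 1) → Fin w)).filter
    fun v => v 0 = g.2.1 ∧ v (Fin.last _) = g.2.2).map
      (Function.Embedding.sigmaMk (β := fun j : Fin r => Fin (min m (n - j * m) + 1) → Fin w) g.1)

/-- The circuit for `IMM_{w,n}` with `r` blocks of length at most `m`. -/
@[reducible] noncomputable def circ [NeZero w] : Circuit K (Var w n) :=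
  build K id (i2 w n m r) (i3 w n m r) (i4 w r)

theorem circ_output [NeZero w] (h : n ≤ r * m) : (circ K w n m r).output = IMM K w n := by
  rw [build_output, IMM, prod_ofFn_blocks n m r h, ofFn_prod_apply, ← Finset.sum_filter,
    Finset.sum_subtype (p := fun u : Fin (r + 1) → Fin w => u 0 = 0 ∧ u (Fin.last r) = 0)
      _ (by simp)]
  refine Finset.sum_congr rfl fun u _ => ?_
  rw [i4, Multiset.map_map, Finset.prod_eq_multiset_prod]
  congr 1
  refine Multiset.map_congr rfl fun j _ => ?_
  simp only [Function.comp_apply]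
  rw [ofFn_prod_apply, ← Finset.sum_filter, i3, Finset.sum_map]
  refine Finset.sum_congr rfl fun v _ => ?_
  rw [i2, Multiset.map_map, Finset.prod_eq_multiset_prod]
  rfl

theorem circ_isSynHom [NeZero w] : (circ K w n m r).IsSynHom := by
  refine build_isSynHom _ _ _ _ (fun g => min m (n - g.1 * m)) (min n (r * m)) ?_ ?_
  · intro g y hy
    obtain ⟨v, _, rfl⟩ := Finset.mem_map.1 hy
    simp [i2]
  · intro g
    rw [i4, Multiset.map_map, ← sum_len, ← Fin.sum_univ_eq_sum_range
      (fun i => min m (n - i * m)) r]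
    rfl

theorem circ_noEmptyGate [NeZero w] (hm : 0 < m) (hr : 0 < r) (h : (r - 1) * m < n) :
    (circ K w n m r).NoEmptyGate := by
  have hlen : ∀ j : Fin r, 0 < min m (n - j * m) := by
    intro j
    have : (j : ℕ) * m ≤ (r - 1) * m := Nat.mul_le_mul_right _ (by have := j.2; omega)
    omega
  have : Nonempty (T4 w r) := ⟨⟨fun _ => 0, rfl, rfl⟩⟩
  refine build_noEmptyGate _ _ _ _ (fun g => ?_) (fun g => ?_) (fun g => ?_)
  · intro h0
    have := congrArg Multiset.card h0
    have h1 := hlen g.1
    simp only [i2, Multiset.card_map, card_val, card_univ, Fintype.card_fin,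
      Multiset.card_zero] at this
    omega
  · refine Finset.Nonempty.map ⟨fun s => if s = 0 then g.2.1 else g.2.2, ?_⟩
    have h1 : Fin.last (min m (n - g.1 * m)) ≠ 0 := by
      intro h0
      have := congrArg Fin.val h0
      have h1 := hlen g.1
      simp only [Fin.val_last, Fin.val_zero] at this
      omega
    simp [h1]
  · intro h0
    have := congrArg Multiset.card h0
    simp only [i4, Multiset.card_map, card_val, card_univ, Fintype.card_fin,
      Multiset.card_zero] at this
    omega

theorem circ_size_le [NeZero w] :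
    (circ K w n m r).size ≤ 2 * (n * w ^ 2) + r * w ^ (m + 1) + r * w ^ 2 + w ^ r + 1 := by
  rw [build_size]
  have h1 : Fintype.card (Var w n) = n * w ^ 2 := by simp [Var, sq]
  have h3 : Fintype.card (T3 w r) = r * w ^ 2 := by simp [T3, sq]
  have h2 : Fintype.card (T2 w n m r) ≤ r * w ^ (m + 1) := by
    rw [Fintype.card_sigma]
    calc ∑ j : Fin r, Fintype.card (Fin (min m (n - j * m) + 1) → Fin w)
        ≤ ∑ _j : Fin r, w ^ (m + 1) := by
          refine Finset.sum_le_sum fun j _ => ?_
          rw [Fintype.card_fun, Fintype.card_fin, Fintype.card_fin]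
          exact Nat.pow_le_pow_right (Nat.pos_of_ne_zero (NeZero.ne w)) (by omega)
      _ = r * w ^ (m + 1) := by simp
  have h4 := card_T4_le w r
  omega

end Construction

theorem upper (K : Type u) [Field K] (w d : ℕ) [NeZero w] (hd : 1 ≤ d) :
    ∃ (V : Type) (_ : Finite V) (C : Circ K (Fin d × Fin w × Fin w) V), C.SynHom ∧
      C.val C.out = imm K w d ∧ (Nat.card V : ℝ) ≤ 6 * d * (w : ℝ) ^ (√(d : ℝ) + 2) := by
  obtain ⟨s, hs⟩ : ∃ s, s = Nat.sqrt d := ⟨_, rfl⟩
  have hlt : d < (s + 1) * (s + 1) := hs ▸ Nat.lt_succ_sqrt d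
  obtain ⟨r, hr⟩ : ∃ r, r = (d + s) / (s + 1) := ⟨_, rfl⟩
  have e1 : (s + 1) * r + (d + s) % (s + 1) = d + s := hr ▸ Nat.div_add_mod _ _
  have e2 : (d + s) % (s + 1) < s + 1 := Nat.mod_lt _ (by omega)
  have e3 : d ≤ r * (s + 1) := by rw [mul_comm]; omega
  have e4 : r * (s + 1) ≤ d + s := by rw [mul_comm]; omega
  obtain ⟨q, rfl⟩ : ∃ q, r = q + 1 := ⟨r - 1, by
    rcases Nat.eq_zero_or_pos r with h | h
    · rw [h] at e3; omega
    · omega⟩
  have e5 : q * (s + 1) < d := by rw [Nat.succ_mul] at e4; omega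
  have e6 : q < s + 1 := Nat.lt_of_mul_lt_mul_right (e5.trans hlt)
  have e7 : q < d := lt_of_le_of_lt (Nat.le_mul_of_pos_right _ (by omega)) e5
  have hw : 0 < w := Nat.pos_of_ne_zero (NeZero.ne w)
  refine ⟨_, inferInstance, ofCircuit (circ K w d (s + 1) (q + 1)), synHom_ofCircuit _
    (circ_isSynHom K w d _ _) (circ_noEmptyGate K w d _ _ (by omega) (by omega) e5),
    (circ_output K w d _ _ e3).trans (imm_eq K w d).symm, ?_⟩
  have h1 : Nat.card (Vx (circ K w d (s + 1) (q + 1))) ≤ 6 * d * w ^ (s + 2) := by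
    rw [card_Vx]
    refine (circ_size_le K w d _ _).trans ?_
    have a1 : w ^ 2 ≤ w ^ (s + 2) := Nat.pow_le_pow_right hw (by omega)
    have a2 : w ^ (q + 1) ≤ w ^ (s + 2) := Nat.pow_le_pow_right hw (by omega)
    have a3 : 1 ≤ w ^ (s + 2) := Nat.one_le_pow _ _ hw
    have a4 := Nat.mul_le_mul_left d a1
    have a5 := Nat.mul_le_mul (show q + 1 ≤ d from e7) a1
    have a6 := Nat.mul_le_mul_right (w ^ (s + 2)) (show q + 1 ≤ d from e7)
    have a7 : w ^ (s + 2) ≤ d * w ^ (s + 2) := Nat.le_mul_of_pos_left _ hd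
    rw [mul_assoc 6, show s + 1 + 1 = s + 2 from rfl]
    omega
  have h2 : ((w : ℝ)) ^ (s + 2) ≤ (w : ℝ) ^ (√(d : ℝ) + 2) := by
    rw [← Real.rpow_natCast]
    refine Real.rpow_le_rpow_of_exponent_le (by exact_mod_cast hw) ?_
    have := Real.nat_sqrt_le_real_sqrt (a := d)
    rw [← hs] at this
    push_cast
    linarith
  calc (Nat.card (Vx (circ K w d (s + 1) (q + 1))) : ℝ) ≤ 6 * d * (w : ℝ) ^ (s + 2) := by
        exact_mod_cast h1
    _ ≤ _ := by gcongr

end Vale.Agent.N346.Dag
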