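import Mathlib

/-!
# P346: iterated matrix multiplication and layered depth-five circuits

Definitions only.  They follow the problem text literally.
-/

namespace Vale.Agent.N346

open MvPolynomial

universe u v

/-- The `d * w ^ 2` variables of `IMM_{w,d}`: `(t, i, j)` is the entry `(i, j)` of the matrix
number `t`. -/
abbrev Var (w d : ℕ) : Type := Fin d × Fin w × Fin w

/-- The `t`-th matrix of distinct commuting variables. -/
noncomputable def varMatrix (K : Type u) [Field K] (w d : ℕ) (t : Fin d) :
    Matrix (Fin w) (Fin w) (MvPolynomial (Var w d) K) :=
  Matrix.of fun i j => X (t, i, j)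

/-- `IMM_{w,d}`: the top left entry of the product of the `d` variable matrices, in order. -/
noncomputable def IMM (K : Type u) [Field K] (w d : ℕ) [NeZero w] : MvPolynomial (Var w d) K :=
  (List.ofFn (varMatrix K w d)).prod 0 0

/-- A layered circuit with layers sum, product, sum, product, sum (from the output down) over
`K` in the variables `σ`.  Layer 0 holds the leaves, layer 1 the bottom sums, layer 2 the lower
products, layer 3 the middle sums, layer 4 the upper products, and layer 5 is the single output
sum gate.  A sum gate has a finite set of inputs in the layer below and a coefficient for each;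
a product gate has a finite multiset of inputs in the layer below.  Fan-in and fan-out are
arbitrary, so gates may be shared. -/
structure Circuit (K : Type u) (σ : Type v) where
  /-- number of leaves -/
  n0 : ℕ
  /-- number of bottom sum gates -/
  n1 : ℕ
  /-- number of lower product gates -/
  n2 : ℕ
  /-- number of middle sum gates -/
  n3 : ℕ
  /-- number of upper product gates -/
  n4 : ℕ
  /-- each leaf is a variable or an element of `K` -/
  leaf : Fin n0 → σ ⊕ K
  /-- inputs of the bottom sums -/
  in1 : Fin n1 → Finset (Fin n0)
  /-- coefficients of the bottom sums -/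
  c1 : Fin n1 → Fin n0 → K
  /-- inputs, with multiplicity, of the lower products -/
  in2 : Fin n2 → Multiset (Fin n1)
  /-- inputs of the middle sums -/
  in3 : Fin n3 → Finset (Fin n2)
  /-- coefficients of the middle sums -/
  c3 : Fin n3 → Fin n2 → K
  /-- inputs, with multiplicity, of the upper products -/
  in4 : Fin n4 → Multiset (Fin n3)
  /-- inputs of the output sum -/
  in5 : Finset (Fin n4)
  /-- coefficients of the output sum -/
  c5 : Fin n4 → K

namespace Circuit

variable {K : Type u} [Field K] {σ : Type v} (C : Circuit K σ)

/-- The size is the number of vertices: leaves, all gates, and the output gate. -/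
def size : ℕ := C.n0 + C.n1 + C.n2 + C.n3 + C.n4 + 1

/-- The polynomial at a leaf. -/
noncomputable def val0 (g : Fin C.n0) : MvPolynomial σ K :=
  Sum.elim (fun x => X x) (fun c => MvPolynomial.C c) (C.leaf g)

/-- The polynomial computed by a bottom sum gate. -/
noncomputable def val1 (g : Fin C.n1) : MvPolynomial σ K :=
  ∑ i ∈ C.in1 g, C.c1 g i • C.val0 i

/-- The polynomial computed by a lower product gate. -/
noncomputable def val2 (g : Fin C.n2) : MvPolynomial σ K :=
  ((C.in2 g).map C.val1).prod

/-- The polynomial computed by a middle sum gate. -/
noncomputable def val3 (g : Fin C.n3) : MvPolynomial σ K :=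
  ∑ i ∈ C.in3 g, C.c3 g i • C.val2 i

/-- The polynomial computed by an upper product gate. -/
noncomputable def val4 (g : Fin C.n4) : MvPolynomial σ K :=
  ((C.in4 g).map C.val3).prod

/-- The polynomial computed by the circuit, that is, by its output sum gate. -/
noncomputable def output : MvPolynomial σ K :=
  ∑ i ∈ C.in5, C.c5 i • C.val4 i

/-- Formal degree of a leaf: `1` for a variable and `0` for a constant. -/
def deg0 (g : Fin C.n0) : ℕ := Sum.elim (fun _ => 1) (fun _ => 0) (C.leaf g)

/-- Syntactic homogeneity: the sum gates can be given formal degrees `deg1` (bottom sums),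
`deg3` (middle sums) and `deg5` (output) such that every input of a sum gate has the formal
degree of that gate, where leaves have degree `deg0` and a product gate has the sum of the
degrees of its inputs, with multiplicity.  (For a sum gate with at least one input the degree is
forced: it is the common degree of the inputs.) -/
def IsSynHom : Prop :=
  ∃ (deg1 : Fin C.n1 → ℕ) (deg3 : Fin C.n3 → ℕ) (deg5 : ℕ),
    (∀ g, ∀ i ∈ C.in1 g, C.deg0 i = deg1 g) ∧
    (∀ g, ∀ i ∈ C.in3 g, ((C.in2 i).map deg1).sum = deg3 g) ∧
    (∀ i ∈ C.in5, ((C.in4 i).map deg3).sum = deg5)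

/-- Every gate has at least one input. -/
def NoEmptyGate : Prop :=
  (∀ g, (C.in1 g).Nonempty) ∧ (∀ g, C.in2 g ≠ 0) ∧ (∀ g, (C.in3 g).Nonempty) ∧
    (∀ g, C.in4 g ≠ 0) ∧ C.in5.Nonempty

end Circuit

/-- `s_K(n)`: the least size of a syntactically homogeneous circuit computing `IMM_{n,n}`. -/
noncomputable def sK (K : Type u) [Field K] (n : ℕ) [NeZero n] : ℕ :=
  sInf {s : ℕ | ∃ C : Circuit K (Var n n), C.IsSynHom ∧ C.output = IMM K n n ∧ C.size = s}

end Vale.Agent.N346
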