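import Vale.Agent.N346.Lower
import Vale.Agent.N346.UpperBound

/-!
# P346: homogeneous depth-five complexity of iterated matrix multiplication

In characteristic zero, `s_K(n) = n ^ Θ(√n)`, with explicit exponents and a threshold that does
not depend on the field.
-/

namespace Vale.Agent.N346.OldImmDepthFive

open Vale.Agent.N346

universe u

theorem old_result :
    ∃ n₀ : ℕ, ∀ (K : Type u) [Field K] [CharZero K] (n : ℕ) [NeZero n], n₀ ≤ n →
      ((n : ℝ) ^ (Real.sqrt n / 20) ≤ (sK K n : ℝ) ∧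
        (sK K n : ℝ) ≤ (n : ℝ) ^ (Real.sqrt n + 4)) ∧
      (∀ C : Circuit K (Var n n), C.IsSynHom → C.output = IMM K n n →
        (n : ℝ) ^ (Real.sqrt n / 20) ≤ (C.size : ℝ)) ∧
      (∃ C : Circuit K (Var n n), C.IsSynHom ∧ C.NoEmptyGate ∧ C.output = IMM K n n ∧
        (C.size : ℝ) ≤ (n : ℝ) ^ (Real.sqrt n + 4)) := by
  obtain ⟨n0, hn0⟩ := exists_params
  refine ⟨max n0 2, fun K _ _ n _ hn => ?_⟩
  have hn2 : 2 ≤ n := le_trans (le_max_right _ _) hn
  obtain ⟨l1, l2, t, α, β, A, B, h1, hl1, hl2, hα, hβ, hβ1, hαβ, hαn, hA, hpsi, hB0, hB1, hp1,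
    hfin⟩ := hn0 n (le_trans (le_max_left _ _) hn)
  have low : ∀ C : Circuit K (Var n n), C.IsSynHom → C.output = IMM K n n →
      (n : ℝ) ^ (Real.sqrt n / 20) ≤ (C.size : ℝ) := fun C hC hout =>
    hfin _ (Nat.cast_nonneg _)
      (one_le_of_circuit K n n h1 C hC hout l1 l2 t hl1 hl2 hα hβ hβ1 hαβ hαn hA hpsi hB0 hB1 hp1)
  refine ⟨⟨?_, sK_le_real K n hn2⟩, low, exists_circuit_IMM_real K n hn2⟩
  obtain ⟨C, hC, hout, hs⟩ := sK_spec K n
  rw [← hs]
  exact low C hC hout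

end Vale.Agent.N346.OldImmDepthFive
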