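import Vale.Agent.N346.FourthMoment

/-!
The greedy word and the transfer estimate for quadruples of paths.
-/

namespace Vale.Agent.N346

/-- Partial products of the greedy word. -/
noncomputable def greedy (α β : ℝ) : ℕ → ℝ
  | 0 => 1
  | i + 1 => greedy α β i * (if greedy α β i ≤ 1 then α else β⁻¹)

theorem exists_word {α β : ℝ} (hβ : 1 ≤ β) (hαβ : β ≤ α) :
    ∃ word : ℕ → Bool, ∀ i, β⁻¹ ≤ omega word α β i ∧ omega word α β i ≤ α := by
  classical
  refine ⟨fun i => decide (greedy α β i ≤ 1), fun i => ?_⟩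
  have hβ0 : 0 < β := by linarith
  have hinv : β⁻¹ ≤ 1 := inv_le_one_of_one_le₀ hβ
  have hinv0 : 0 < β⁻¹ := inv_pos.2 hβ0
  have hω : ∀ i, omega (fun i => decide (greedy α β i ≤ 1)) α β i = greedy α β i := by
    intro i
    induction i with
    | zero => simp [omega, greedy]
    | succ i ih =>
      unfold omega at ih ⊢
      rw [Finset.prod_range_succ, ih, greedy]
      simp
  rw [hω]
  induction i with
  | zero => exact ⟨hinv, by simp only [greedy]; linarith⟩
  | succ i ih =>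
    rw [greedy]
    have hg0 : 0 < greedy α β i := lt_of_lt_of_le hinv0 ih.1
    split_ifs with h
    · constructor
      · nlinarith [ih.1]
      · nlinarith
    · push Not at h
      constructor
      · nlinarith
      · nlinarith [ih.2]

/-- Sums over walks are bounded by a supersolution. -/
theorem walk_sum_le {Ω : Type*} [Fintype Ω] [DecidableEq Ω] (d : ℕ) :
    ∀ (κ : ℕ → Ω → Ω → ℝ) (h : ℕ → Ω → ℝ) (γ : ℕ → ℝ), (∀ j u v, 0 ≤ κ j u v) → (∀ j, 0 ≤ γ j) →
      (∀ j u, ∑ v, κ j u v * h (j + 1) v ≤ γ j * h j u) → ∀ x : Ω,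
      ∑ U : Fin (d + 1) → Ω, (if U 0 = x then
        (∏ j : Fin d, κ j.val (U j.castSucc) (U j.succ)) * h d (U (Fin.last d)) else 0) ≤
      (∏ j ∈ Finset.range d, γ j) * h 0 x := by
  induction d with
  | zero =>
    intro κ h γ _ _ _ x
    rw [← (Equiv.funUnique (Fin 1) Ω).symm.sum_comp]
    simp
  | succ d ih =>
    intro κ h γ hκ hγ hs x
    have ih' := ih (fun j => κ (j + 1)) (fun j => h (j + 1)) (fun j => γ (j + 1))
      (fun j u v => hκ _ u v) (fun j => hγ _) (fun j u => hs (j + 1) u)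
    rw [← (Fin.consEquiv fun _ : Fin (d + 2) => Ω).sum_comp, Fintype.sum_prod_type]
    have e1 : ∀ (y : Ω) (U : Fin (d + 1) → Ω),
        (if (Fin.consEquiv fun _ : Fin (d + 2) => Ω) (y, U) 0 = x then
          (∏ j : Fin (d + 1), κ j.val ((Fin.consEquiv fun _ : Fin (d + 2) => Ω) (y, U) j.castSucc)
            ((Fin.consEquiv fun _ : Fin (d + 2) => Ω) (y, U) j.succ)) *
            h (d + 1) ((Fin.consEquiv fun _ : Fin (d + 2) => Ω) (y, U) (Fin.last (d + 1))) else 0) =
        if y = x then ∑ z, κ 0 x z * (if U 0 = z then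
          (∏ j : Fin d, κ (j.val + 1) (U j.castSucc) (U j.succ)) * h (d + 1) (U (Fin.last d))
            else 0) else 0 := by
      intro y U
      have hc : ((Fin.consEquiv fun _ : Fin (d + 2) => Ω) (y, U) : Fin (d + 2) → Ω) =
          Fin.cons y U := rfl
      rw [hc, Fin.cons_zero]
      split_ifs with hy
      · subst hy
        rw [Fin.prod_univ_succ, ← Fin.succ_last, Fin.cons_succ]
        simp only [mul_ite, mul_zero, Finset.sum_ite_eq, Finset.mem_univ, if_true]
        simp only [Fin.castSucc_zero, Fin.cons_zero, Fin.cons_succ, Fin.val_zero, Fin.val_succ,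
          ← Fin.succ_castSucc]
        ring
      · rfl
    simp only [e1]
    rw [Finset.sum_eq_single x (fun y _ hy => by simp [hy]) (by simp)]
    simp only [if_true]
    rw [Finset.sum_comm, Finset.prod_range_succ']
    calc ∑ z, ∑ U : Fin (d + 1) → Ω, κ 0 x z * (if U 0 = z then
          (∏ j : Fin d, κ (j.val + 1) (U j.castSucc) (U j.succ)) * h (d + 1) (U (Fin.last d))
            else 0)
        ≤ ∑ z, κ 0 x z * ((∏ j ∈ Finset.range d, γ (j + 1)) * h 1 z) := by
          refine Finset.sum_le_sum fun z _ => ?_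
          rw [← Finset.mul_sum]
          exact mul_le_mul_of_nonneg_left (ih' z) (hκ 0 x z)
      _ = (∏ j ∈ Finset.range d, γ (j + 1)) * ∑ z, κ 0 x z * h (0 + 1) z := by
          rw [Finset.mul_sum]
          refine Finset.sum_congr rfl fun z _ => ?_
          ring
      _ ≤ (∏ j ∈ Finset.range d, γ (j + 1)) * (γ 0 * h 0 x) :=
          mul_le_mul_of_nonneg_left (hs 0 x) (Finset.prod_nonneg fun j _ => hγ _)
      _ = _ := by ring

open Classical in
/-- Indicator of the shape `(x, x, y, y)`. -/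
noncomputable def iS {V : Type*} (u : V × V × V × V) : ℝ := if inS u then 1 else 0

open Classical in
/-- Indicator of the shape `(x, y, y, x)`. -/
noncomputable def iT {V : Type*} (u : V × V × V × V) : ℝ := if inT u then 1 else 0

theorem iS_nonneg {V : Type*} (u : V × V × V × V) : 0 ≤ iS u := by
  unfold iS; split_ifs <;> norm_num

theorem iT_nonneg {V : Type*} (u : V × V × V × V) : 0 ≤ iT u := by
  unfold iT; split_ifs <;> norm_num

theorem iS_sq {V : Type*} (u : V × V × V × V) : iS u * iS u = iS u := by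
  unfold iS; split_ifs <;> norm_num

theorem iT_sq {V : Type*} (u : V × V × V × V) : iT u * iT u = iT u := by
  unfold iT; split_ifs <;> norm_num

theorem kap_eq {V : Type*} (α β : ℝ) (b : Bool) (u v : V × V × V × V) :
    kap α β b u v = (if b = true then (α ^ 2)⁻¹ else 1) * iS u * iS v +
      (if b = true then 1 else (β ^ 2)⁻¹) * iT u * iT v + iS u * iT u * (iS v * iT v) := by
  unfold kap iS iT
  by_cases h1 : inS u <;> by_cases h2 : inS v <;> by_cases h3 : inT u <;> by_cases h4 : inT v <;>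
    simp [h1, h2, h3, h4]

theorem iS_mk {V : Type*} [DecidableEq V] (a b c e : V) :
    iS (a, b, c, e) = (if a = b then 1 else 0) * (if c = e then 1 else 0) := by
  unfold iS
  by_cases h1 : a = b <;> by_cases h2 : c = e <;> simp [inS, h1, h2]

theorem iT_mk {V : Type*} [DecidableEq V] (a b c e : V) :
    iT (a, b, c, e) = (if b = c then 1 else 0) * (if a = e then 1 else 0) := by
  unfold iT
  by_cases h1 : a = e <;> by_cases h2 : b = c <;> simp [inT, h1, h2]

theorem sum_iS (w : ℕ) : ∑ v : Fin w × Fin w × Fin w × Fin w, iS v = (w : ℝ) ^ 2 := by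
  simp only [Fintype.sum_prod_type, iS_mk, ← Finset.mul_sum, ← Finset.sum_mul]
  simp [sq]

theorem sum_iT (w : ℕ) : ∑ v : Fin w × Fin w × Fin w × Fin w, iT v = (w : ℝ) ^ 2 := by
  simp only [Fintype.sum_prod_type, iT_mk, ← Finset.mul_sum]
  simp [sq]

theorem sum_iST (w : ℕ) : ∑ v : Fin w × Fin w × Fin w × Fin w, iS v * iT v = (w : ℝ) := by
  have h : ∀ a b c e : Fin w, iS (a, b, c, e) * iT (a, b, c, e) =
      (if a = b then 1 else 0) * ((if a = c then 1 else 0) * (if a = e then 1 else 0)) := by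
    intro a b c e
    rw [iS_mk, iT_mk]
    by_cases h1 : a = b
    · subst h1
      by_cases h2 : a = c
      · subst h2
        by_cases h3 : a = e <;> simp [h3]
      · simp [h2]
    · simp [h1]
  simp only [Fintype.sum_prod_type, h]
  simp

/-- The supersolution. -/
noncomputable def sup3 {V : Type*} (o : ℝ) (u : V × V × V × V) : ℝ :=
  o * iS u + o⁻¹ * iT u + iS u * iT u

theorem sum_kap_sup3 (w : ℕ) (α β : ℝ) (b : Bool) (o : ℝ) (u : Fin w × Fin w × Fin w × Fin w) :
    ∑ v, kap α β b u v * sup3 o v =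
      (if b = true then (α ^ 2)⁻¹ else 1) * iS u * (o * w ^ 2 + (o⁻¹ + 1) * w) +
      (if b = true then 1 else (β ^ 2)⁻¹) * iT u * (o⁻¹ * w ^ 2 + (o + 1) * w) +
      iS u * iT u * ((o + o⁻¹ + 1) * w) := by
  have h : ∀ v : Fin w × Fin w × Fin w × Fin w, kap α β b u v * sup3 o v =
      ((if b = true then (α ^ 2)⁻¹ else 1) * iS u * o) * iS v +
      ((if b = true then 1 else (β ^ 2)⁻¹) * iT u * o⁻¹) * iT v +
      ((if b = true then (α ^ 2)⁻¹ else 1) * iS u * (o⁻¹ + 1) +
        (if b = true then 1 else (β ^ 2)⁻¹) * iT u * (o + 1) +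
        iS u * iT u * (o + o⁻¹ + 1)) * (iS v * iT v) := by
    intro v
    rw [kap_eq, sup3]
    have h1 := iS_sq v
    have h2 := iT_sq v
    generalize (if b = true then (α ^ 2)⁻¹ else 1 : ℝ) = c1
    generalize (if b = true then 1 else (β ^ 2)⁻¹ : ℝ) = c2
    generalize iS v = x at *
    generalize iT v = y at *
    linear_combination (c1 * iS u * o + c1 * iS u * y + iS u * iT u * o * y +
      iS u * iT u * y * y) * h1 + (c2 * iT u * o⁻¹ + c2 * iT u * x + iS u * iT u * o⁻¹ * x +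
      iS u * iT u * x) * h2
  simp only [h, Finset.sum_add_distrib, ← Finset.mul_sum, sum_iS, sum_iT, sum_iST]
  ring

theorem super_step {w α β o r o' cS cT : ℝ} (hβ : 1 ≤ β) (hαβ : β ≤ α) (hαw : α ≤ w)
    (hr0 : 0 < r) (hr : r ≤ α) (ho : 0 < o) (ho1 : β⁻¹ ≤ o') (ho2 : o' ≤ α)
    (hS : cS * r * o' = o) (hT : cT * r * o'⁻¹ = o⁻¹) {x y : ℝ} (hx : 0 ≤ x) (hy : 0 ≤ y) :
    cS * x * (o' * w ^ 2 + (o'⁻¹ + 1) * w) + cT * y * (o'⁻¹ * w ^ 2 + (o' + 1) * w) +
      x * y * ((o' + o'⁻¹ + 1) * w) ≤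
    w ^ 2 * (1 + 2 * α ^ 2 / w) / r * (o * x + o⁻¹ * y + x * y) := by
  have hβ0 : 0 < β := by linarith
  have hα1 : 1 ≤ α := by linarith
  have hw0 : 0 < w := by linarith
  have ho'0 : 0 < o' := lt_of_lt_of_le (inv_pos.2 hβ0) ho1
  have hi : o'⁻¹ ≤ α := ((inv_le_comm₀ ho'0 hβ0).2 ho1).trans hαβ
  have hi0 : 0 < o'⁻¹ := inv_pos.2 ho'0
  have hG : w ^ 2 * (1 + 2 * α ^ 2 / w) / r = (w ^ 2 + 2 * α ^ 2 * w) / r := by
    field_simp
  have hcS : cS = o * o'⁻¹ / r := by
    rw [← hS]; field_simp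
  have hcT : cT = o⁻¹ * o' / r := by
    rw [← hT]; field_simp
  have h1 : cS * (o' * w ^ 2 + (o'⁻¹ + 1) * w) ≤ (w ^ 2 + 2 * α ^ 2 * w) / r * o := by
    have e : cS * (o' * w ^ 2 + (o'⁻¹ + 1) * w) =
        (w ^ 2 + o'⁻¹ * (o'⁻¹ + 1) * w) / r * o := by
      rw [hcS]; field_simp
    rw [e]
    have : o'⁻¹ * (o'⁻¹ + 1) ≤ 2 * α ^ 2 := by nlinarith
    gcongr
  have h2 : cT * (o'⁻¹ * w ^ 2 + (o' + 1) * w) ≤ (w ^ 2 + 2 * α ^ 2 * w) / r * o⁻¹ := by
    have e : cT * (o'⁻¹ * w ^ 2 + (o' + 1) * w) =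
        (w ^ 2 + o' * (o' + 1) * w) / r * o⁻¹ := by
      rw [hcT]; field_simp
    rw [e]
    have : o' * (o' + 1) ≤ 2 * α ^ 2 := by nlinarith
    gcongr
  have h3 : (o' + o'⁻¹ + 1) * w ≤ (w ^ 2 + 2 * α ^ 2 * w) / r := by
    rw [le_div_iff₀ hr0]
    have a1 : (o' + o'⁻¹ + 1) * r ≤ (2 * α + 1) * α :=
      mul_le_mul (by linarith) hr hr0.le (by linarith)
    nlinarith
  rw [hG]
  have hxy : 0 ≤ x * y := mul_nonneg hx hy
  nlinarith [mul_le_mul_of_nonneg_left h1 hx, mul_le_mul_of_nonneg_left h2 hy,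
    mul_le_mul_of_nonneg_left h3 hxy]

/-- Four vertex sequences as one sequence of quadruples. -/
def zip4 {ι V : Type*} : (ι → V) × (ι → V) × (ι → V) × (ι → V) ≃ (ι → V × V × V × V) where
  toFun p := fun i => (p.1 i, p.2.1 i, p.2.2.1 i, p.2.2.2 i)
  invFun U := (fun i => (U i).1, fun i => (U i).2.1, fun i => (U i).2.2.1, fun i => (U i).2.2.2)
  left_inv _ := rfl
  right_inv _ := rfl

theorem prod_letter (word : ℕ → Bool) (α β : ℝ) (d : ℕ) :
    ∏ j ∈ Finset.range d, (if word j = true then α else β) =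
      α ^ cntP word d * β ^ cntN word d := by
  rw [Finset.prod_ite, Finset.prod_const, Finset.prod_const, cntP, cntN]
  simp

theorem transfer (word : ℕ → Bool) (w d : ℕ) [NeZero w] {α β : ℝ} (hβ : 1 ≤ β) (hαβ : β ≤ α)
    (hαw : α ≤ w) (hω : ∀ i, β⁻¹ ≤ omega word α β i ∧ omega word α β i ≤ α) :
    (∑ v1 ∈ Paths w d, ∑ v2 ∈ Paths w d, ∑ v3 ∈ Paths w d, ∑ v4 ∈ Paths w d,
        kapProd word α β v1 v2 v3 v4) * (α ^ cntP word d * β ^ cntN word d) ≤
      3 * ((w : ℝ) ^ 2 * (1 + 2 * α ^ 2 / w)) ^ d := by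
  have hβ0 : 0 < β := by linarith
  have hα0 : 0 < α := by linarith
  have hw0 : (0 : ℝ) < w := by linarith
  have hω0 : ∀ i, 0 < omega word α β i := fun i => lt_of_lt_of_le (inv_pos.2 hβ0) (hω i).1
  have hr0 : ∀ j, 0 < (if word j = true then α else β) := fun j => by split_ifs <;> assumption
  have hmain := walk_sum_le (Ω := Fin w × Fin w × Fin w × Fin w) d
    (fun j => kap α β (word j)) (fun j => sup3 (omega word α β j))
    (fun j => (w : ℝ) ^ 2 * (1 + 2 * α ^ 2 / w) / (if word j = true then α else β))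
    (fun j u v => kap_nonneg _ _ _ _ _) (fun j => by have := hr0 j; positivity)
    (fun j u => by
      rw [sum_kap_sup3]
      have hstep : omega word α β (j + 1) =
          omega word α β j * (if word j = true then α else β⁻¹) := by
        unfold omega; rw [Finset.prod_range_succ]
      have hoj := hω0 j
      refine super_step hβ hαβ hαw (hr0 j) ?_ hoj (hω (j + 1)).1 (hω (j + 1)).2 ?_ ?_
        (iS_nonneg u) (iT_nonneg u)
      · split_ifs <;> linarith
      · rw [hstep]; split_ifs <;> field_simp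
      · rw [hstep]; split_ifs <;> field_simp) (0, 0, 0, 0)
  have h0 : sup3 (omega word α β 0) ((0, 0, 0, 0) : Fin w × Fin w × Fin w × Fin w) = 3 := by
    simp [sup3, omega, iS, iT, inS, inT]
    norm_num
  have hd : 1 ≤ sup3 (omega word α β d) ((0, 0, 0, 0) : Fin w × Fin w × Fin w × Fin w) := by
    have := hω0 d
    have h2 := inv_pos.2 this
    simp only [sup3, iS, iT, inS, inT, and_self, if_true]
    linarith
  have hsup0 : ∀ u : Fin w × Fin w × Fin w × Fin w, 0 ≤ sup3 (omega word α β d) u := fun u => by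
    have := hω0 d
    have h1 := iS_nonneg u
    have h2 := iT_nonneg u
    unfold sup3
    positivity
  rw [h0, Finset.prod_div_distrib, Finset.prod_const, Finset.card_range, prod_letter] at hmain
  have hle : (∑ v1 ∈ Paths w d, ∑ v2 ∈ Paths w d, ∑ v3 ∈ Paths w d, ∑ v4 ∈ Paths w d,
        kapProd word α β v1 v2 v3 v4) ≤
      ∑ U : Fin (d + 1) → Fin w × Fin w × Fin w × Fin w, (if U 0 = (0, 0, 0, 0) then
        (∏ j : Fin d, kap α β (word j.val) (U j.castSucc) (U j.succ)) *
          sup3 (omega word α β d) (U (Fin.last d)) else 0) := by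
    rw [← zip4.sum_comp]
    simp only [Fintype.sum_prod_type]
    have hnn : ∀ v1 v2 v3 v4 : Fin (d + 1) → Fin w, 0 ≤
        (if zip4 (v1, v2, v3, v4) 0 = (0, 0, 0, 0) then
        (∏ j : Fin d, kap α β (word j.val) (zip4 (v1, v2, v3, v4) j.castSucc)
          (zip4 (v1, v2, v3, v4) j.succ)) *
          sup3 (omega word α β d) (zip4 (v1, v2, v3, v4) (Fin.last d)) else 0) := by
      intro v1 v2 v3 v4
      split_ifs
      · exact mul_nonneg (Finset.prod_nonneg fun j _ => kap_nonneg _ _ _ _ _) (hsup0 _)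
      · exact le_rfl
    refine le_trans (Finset.sum_le_sum fun v1 h1 => ?_)
      (Finset.sum_le_sum_of_subset_of_nonneg (Finset.subset_univ (Paths w d)) fun v1 _ _ =>
        Finset.sum_nonneg fun v2 _ => Finset.sum_nonneg fun v3 _ =>
          Finset.sum_nonneg fun v4 _ => hnn v1 v2 v3 v4)
    refine le_trans (Finset.sum_le_sum fun v2 h2 => ?_)
      (Finset.sum_le_sum_of_subset_of_nonneg (Finset.subset_univ (Paths w d)) fun v2 _ _ =>
        Finset.sum_nonneg fun v3 _ => Finset.sum_nonneg fun v4 _ => hnn v1 v2 v3 v4)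
    refine le_trans (Finset.sum_le_sum fun v3 h3 => ?_)
      (Finset.sum_le_sum_of_subset_of_nonneg (Finset.subset_univ (Paths w d)) fun v3 _ _ =>
        Finset.sum_nonneg fun v4 _ => hnn v1 v2 v3 v4)
    refine le_trans (Finset.sum_le_sum fun v4 h4 => ?_)
      (Finset.sum_le_sum_of_subset_of_nonneg (Finset.subset_univ (Paths w d)) fun v4 _ _ =>
        hnn v1 v2 v3 v4)
    obtain ⟨a1, b1⟩ := (Finset.mem_filter.1 h1).2
    obtain ⟨a2, b2⟩ := (Finset.mem_filter.1 h2).2
    obtain ⟨a3, b3⟩ := (Finset.mem_filter.1 h3).2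
    obtain ⟨a4, b4⟩ := (Finset.mem_filter.1 h4).2
    have ea : zip4 (v1, v2, v3, v4) 0 = (0, 0, 0, 0) := by
      change (v1 0, v2 0, v3 0, v4 0) = _
      rw [a1, a2, a3, a4]
    have eb : zip4 (v1, v2, v3, v4) (Fin.last d) = (0, 0, 0, 0) := by
      change (v1 (Fin.last d), v2 (Fin.last d), v3 (Fin.last d), v4 (Fin.last d)) = _
      rw [b1, b2, b3, b4]
    rw [if_pos ea, eb]
    exact le_mul_of_one_le_right (Finset.prod_nonneg fun j _ => kap_nonneg _ _ _ _ _) hd
  have hpos : 0 < α ^ cntP word d * β ^ cntN word d := by positivity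
  have := mul_le_mul_of_nonneg_right (hle.trans hmain) hpos.le
  refine this.trans (le_of_eq ?_)
  field_simp

end Vale.Agent.N346
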